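import Crest.Agent.R296.Supp

/-!
Row 296: choice for ordinal-indexed families is forced.
-/

set_option autoImplicit false
set_option linter.unusedSectionVars false

namespace Crest.Agent.R296

open Cond FirstOrder FirstOrder.Language Crest.LogicCS.SetTheory

variable {M : Type} [Monoid M] [IsLeftCancelMul M]

theorem Cond.Compat.of_smul {a : M} {p q : Cond M} (h : Compat (a • p) (a • q)) : Compat p q := by
  simpa [pull_smul] using h.pull a

theorem Geo.adm_one (G : Geo M) : Adm (Flt.princ (1 : M)) G.k :=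
  ⟨1, one_dvd _, G.k_ne, fun _ h => h⟩

/-- a choice function for a family indexed by a check ordinal -/
theorem Geo.exists_choice (G : Geo M) {p : Cond M} {f : T M} {o : Ordinal.{0}}
    (h : ∀ o' < o, Dense p fun (c : M) r => ∃ y, PMem r (c • f) (chk o') y) :
    ∃ g : T M, ∀ o' < o, Dense (G.k • p) fun (c : M) r => ∃ y,
      (PMem r (c • g) (chk o') y ∧ PMem r ((c * G.k) • f) (chk o') y) ∧
        ∀ (d : M) s, s ≤ d • r → ∀ u, PMem s ((d * c) • g) (chk o') u → TEq s u (d • y) := by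
  classical
  obtain ⟨tg⟩ : Nonempty G.Tag := ⟨G.tagM.some 1⟩
  let π : M → Om → M := fun a z => G.gen (Flt.princ 1) G.k a tg z
  have hπ : ∀ a z, π a z * a = G.k := fun a z => G.gen_mul _ _ _ _ _ G.adm_one
  -- options: arrow, condition, petal index
  let Opt : Ordinal.{0} → M × Cond M × Om → Prop := fun o' w =>
    ∃ y, PMem w.2.1 (w.1 • f) (chk o') y
  let cd : M × Cond M × Om → Cond M := fun w => π w.1 w.2.2 • w.2.1
  let lt : M × Cond M × Om → M × Cond M × Om → Prop := WellOrderingRel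
  let Ent : Ordinal.{0} → (M × Cond M × Om) → Cond M → Prop := fun o' w s =>
    Opt o' w ∧ s ≤ cd w ∧ ∀ w', lt w' w → Opt o' w' → ¬ Compat s (cd w')
  let val : Ordinal.{0} → M × Cond M × Om → T M := fun o' w =>
    if h : Opt o' w then π w.1 w.2.2 • h.choose else chk 0
  let ord : o.ToType → Ordinal.{0} := fun i => Ordinal.typein (α := o.ToType) (· < ·) i
  let g : T M := Tm.of (ι := {x : o.ToType × (M × Cond M × Om) × Cond M //
      Ent (ord x.1) x.2.1 x.2.2}) (fun _ => 1) (fun x => x.1.2.2)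
    (fun x => opair (chk (ord x.1.1)) (val (ord x.1.1) x.1.2.1))
  have uniq : ∀ o' w s w' s', Ent o' w s → Ent o' w' s' → Compat s s' → w = w' := by
    intro o' w s w' s' h1 h2 hc
    rcases trichotomous_of lt w w' with k | k | k
    · exact absurd (hc.symm.mono le_rfl h1.2.1) (h2.2.2 w k h1.1)
    · exact k
    · exact absurd (hc.mono le_rfl h2.2.1) (h1.2.2 w' k h2.1)
  refine ⟨g, fun o' ho c r hr => ?_⟩
  obtain ⟨i, rfl⟩ : ∃ i, ord i = o' :=
    ⟨Ordinal.enum (α := o.ToType) (· < ·) ⟨o', by simpa using ho⟩, Ordinal.typein_enum _ _⟩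
  have hr' : r ≤ (c * G.k) • p := by rwa [mul_smul]
  obtain ⟨e, s, hs, y, hy⟩ := h _ ho _ r hr'
  obtain ⟨z0, hz0⟩ := exists_compat (π := π (e * (c * G.k))) (hπ _)
    (fun z w hzw => G.gen_meet _ _ _ _ _ _ _ _ G.adm_one (by simpa using hzw))
    (s := pull c r) (r := s) (by
      refine compat_of_le (r := pull (e * (c * G.k)) s) ?_ le_rfl
      rw [← pull_mul, pull_mul e]
      exact pull_mono _ (le_smul_iff_pull.1 hs))
  obtain ⟨w, ⟨hw1, hw2⟩, hmin⟩ := WellFounded.has_min (IsWellFounded.wf (r := lt))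
    {w | Opt (ord i) w ∧ Compat (pull c r) (cd w)}
    ⟨(e * (c * G.k), s, z0), ⟨y, hy⟩, hz0 z0 le_rfl⟩
  obtain ⟨s1, hs1, hs1'⟩ := hw2.exists_le
  have hE : Ent (ord i) w s1 :=
    ⟨hw1, hs1', fun w' k1 k2 k3 => hmin w' ⟨k2, k3.mono hs1 le_rfl⟩ k1⟩
  obtain ⟨s2, hs2, hs2'⟩ :=
    (compat_smul_iff.2 (compat_of_le hs1 le_rfl) : Compat r (c • s1)).exists_le
  refine ⟨1, s2, by simpa using hs2, c • val (ord i) w, ⟨?_, ?_⟩, ?_⟩
  · rw [one_mul, pmem_of_iff]
    refine Dense.of_forall fun d u hu => ⟨⟨(i, w, s1), hE⟩, d * c, (mul_one _).symm,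
      ext_trans hs2' hu, smul_chk' _ _ _ _, ?_⟩
    rw [mul_smul]
    exact TEq.refl _ _
  · have k1 := hw1.choose_spec.mono (ext_trans (le_refl (cd w))
      (hs2'.trans (Frame.mono c hs1')))
    rw [← mul_smul, mul_assoc, hπ] at k1
    rw [one_mul]
    refine k1.congr (smul_chk _ _ _) ?_
    simp only [val, dif_pos hw1, mul_smul]
    exact TEq.refl _ _
  · intro d u hu t ht
    rw [one_mul, pmem_of_iff] at ht
    refine TEq.of_dense (ht.imp' ?_)
    rintro b u' hu' ⟨⟨⟨i', w', s'⟩, hE'⟩, γ, k1, k2, k3, k4⟩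
    rw [mul_one] at k1
    subst k1
    have e1 : ord i = ord i' :=
      chk_inj (((smul_chk _ _ _).symm.trans k3).trans (smul_chk _ _ _))
    have hE'' : Ent (ord i) w' s' := e1 ▸ hE'
    have k5 : u' ≤ (b * (d * c)) • s1 := by
      simpa [mul_assoc] using ext_trans hs2' (ext_trans hu hu')
    have e2 : w = w' := uniq _ _ _ _ _ hE hE'' (compat_of_le k5 k2).of_smul
    refine ⟨1, u', le_one_smul _, ?_⟩
    rw [one_mul, ← mul_smul, ← mul_smul, mul_assoc, e1, e2]
    exact k4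

theorem Geo.forces_acwo (G : Geo M) (p : Cond M) (v : ℕ → T M) : Forces acwoAx p v := by
  rw [acwoAx, forces_all_all]
  intro c r _ α f
  rw [forces_imp]
  intro c1 r1 _
  simp only [forces_all_imp, forces_ex, forces_inf, forces_vmem, forces_veq,
    smul_update, forces_isOrd, forces_pairMem]
  simp [Function.update_of_ne]
  generalize c1 • α = α'
  generalize c1 • f = f'
  intro hO hf c2 r2 hr2
  obtain ⟨c3, r3, hr3, o, ho⟩ := (hO.mono hr2).exists_chk
  rw [← mul_smul] at ho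
  obtain ⟨g, hg⟩ := G.exists_choice (p := r3) (f := (c3 * c2) • f') (o := o) fun o' ho' =>
    (hf _ r3 (ext_trans hr2 hr3) (chk o') ((chk_mem_chk r3 ho').congr_right ho.symm)).imp
      fun d s ⟨y, hy⟩ => ⟨y, hy.congr (smul_chk _ _ _) (TEq.refl _ _)⟩
  refine ⟨G.k * c3, G.k • r3, ext_trans hr3 le_rfl, g, fun c4 r4 hr4 t ht => ?_⟩
  have ho' := ho.mono (ext_trans le_rfl hr4)
  have ht' : Mem r4 t (chk o) := by
    refine Mem.congr_right ?_ (ho'.trans (smul_chk _ _ _))
    simpa only [← mul_smul, mul_assoc] using ht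
  refine (mem_chk.1 ht').imp' ?_
  rintro e u hu ⟨o', h1, h2⟩
  obtain ⟨d, s, hs, y, ⟨k1, k2⟩, k3⟩ := hg o' h1 _ u (ext_trans hr4 hu)
  have h3 : TEq s (chk o') ((d * e) • t) := by
    rw [mul_smul]
    exact ((h2.mono hs).trans (smul_chk _ _ _)).symm
  refine ⟨d, s, hs, y, ⟨?_, ?_⟩, fun d' s' hs' w hw => k3 d' s' hs' w ?_⟩
  · simpa only [← mul_smul, mul_assoc] using k1.congr h3 (TEq.refl _ _)
  · simpa only [← mul_smul, mul_assoc] using k2.congr h3 (TEq.refl _ _)
  · simpa only [← mul_smul, mul_assoc] using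
      hw.congr ((h3.mono hs').symm.trans (smul_chk _ _ _)) (TEq.refl _ _)

end Crest.Agent.R296
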