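import Crest.Agent.R296.Geo

/-!
Row 296: first consequences of a letter system: cluster nodes, intersections, the descent measure.
Reading: `a ∣ b` means "node `b` lies inside node `a`"; "old for `l`" means `lab · < lev l`.
-/

set_option autoImplicit false
set_option linter.unusedSectionVars false

namespace Crest.Agent.R296
namespace LSys

variable {M : Type} [Monoid M] [IsLeftCancelMul M] (S : LSys M)

/-- `w` is a normal remainder after the letter `(l, j)` -/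
def Norm (l : S.Let) (j : Fin 3) (w : M) : Prop :=
  S.lab w ≤ S.lev l ∧ ¬ (S.tri l).al j ∣ w ∧ ∀ i < j, ¬ (S.tri l).e j i ∣ w

open Classical in
/-- the `j`-th member of the cluster `l` -/
noncomputable def X (l : S.Let) (j : Fin 3) : M :=
  if (S.tri l).al j ∣ 1 then S.eta l
  else if h : ∃ i, i < j ∧ (S.tri l).e j i ∣ 1 then S.cons l h.choose ((S.tri l).e h.choose j)
  else S.cons l j 1

/-- the centre of the cluster `l` -/
def ctr (l : S.Let) : Flt M where
  carrier := {x | ∃ n, x ∣ S.code l n}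
  one_mem' := ⟨0, one_dvd _⟩
  up' := by
    rintro a b ⟨n, h⟩ hb
    exact ⟨n, hb.trans h⟩
  dir' := by
    rintro a b ⟨n, h⟩ ⟨m, h'⟩
    obtain ⟨p, h1, h2⟩ := S.code_dir l n m
    exact ⟨S.code l p, ⟨p, dvd_rfl⟩, h.trans h1, h'.trans h2⟩

omit [IsLeftCancelMul M] in
theorem mem_ctr {l : S.Let} {x : M} : x ∈ S.ctr l ↔ ∃ n, x ∣ S.code l n := Iff.rfl

open Classical in
/-- number of letters of level `s` at the front of `w` -/
noncomputable def lenAt (s : Om) (w : M) : ℕ := if S.lab w = s then S.len w else 0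

open Classical in
/-- member index of the first letter -/
noncomputable def idx (a : M) : ℕ :=
  if h : ∃ x : S.Let × Fin 3 × M, S.Norm x.1 x.2.1 x.2.2 ∧ a = S.cons x.1 x.2.1 x.2.2
  then (h.choose.2.1 : ℕ) else 0

/-- the descent order: lexicographic in (level, length, member index) -/
def Prec (a b : M) : Prop :=
  S.lab a < S.lab b ∨ (S.lab a = S.lab b ∧
    (S.len a < S.len b ∨ (S.len a = S.len b ∧ S.idx a < S.idx b)))

theorem prec_wf : WellFounded S.Prec := by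
  have h : WellFounded (Prod.Lex (fun a b : WithBot Om => a < b)
      (Prod.Lex (fun a b : ℕ => a < b) (fun a b : ℕ => a < b))) :=
    WellFounded.prod_lex wellFounded_lt (WellFounded.prod_lex wellFounded_lt wellFounded_lt)
  refine Subrelation.wf (fun {a b} hab => ?_)
    (InvImage.wf (fun a : M => (S.lab a, S.len a, S.idx a)) h)
  simp only [InvImage, Prod.lex_def]
  exact hab

theorem lab_one : S.lab 1 = ⊥ := (S.lab_bot 1).2 ⟨0, (pow_zero _).symm⟩

theorem lab_one_lt (s : Om) : S.lab 1 < s := by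
  rw [S.lab_one]
  exact WithBot.bot_lt_coe s

theorem exists_norm {a : M} {s : Om} (h : S.lab a = s) :
    ∃ l j w, S.lev l = s ∧ S.Norm l j w ∧ a = S.cons l j w := by
  obtain ⟨l, j, w, h1, h2, h3, h4, h5⟩ := S.exists_cons a s h
  exact ⟨l, j, w, h1, ⟨h2, h3, h4⟩, h5⟩

theorem lab_cons' {l : S.Let} {j : Fin 3} {w : M} (h : S.Norm l j w) :
    S.lab (S.cons l j w) = S.lev l := (S.lab_cons l j w h.1 h.2.1 h.2.2).1

theorem len_cons {l : S.Let} {j : Fin 3} {w : M} (h : S.Norm l j w) :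
    S.len (S.cons l j w) = S.lenAt (S.lev l) w + 1 := by
  rw [(S.lab_cons l j w h.1 h.2.1 h.2.2).2, lenAt]

theorem lenAt_of_eq {s : Om} {a : M} (h : S.lab a = s) : S.lenAt s a = S.len a := by
  rw [lenAt, if_pos h]

theorem lenAt_of_lt {s : Om} {a : M} (h : S.lab a < s) : S.lenAt s a = 0 := by
  rw [lenAt, if_neg h.ne]

theorem lenAt_cons {l : S.Let} {j : Fin 3} {w : M} (h : S.Norm l j w) :
    S.lenAt (S.lev l) (S.cons l j w) = S.lenAt (S.lev l) w + 1 := by
  rw [S.lenAt_of_eq (S.lab_cons' h), S.len_cons h]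

theorem cons_inj' {l l' : S.Let} {j j' : Fin 3} {w w' : M} (h : S.Norm l j w)
    (h' : S.Norm l' j' w') (e : S.cons l j w = S.cons l' j' w') : l = l' ∧ j = j' ∧ w = w' :=
  S.cons_inj l j w l' j' w' h.1 h.2.1 h.2.2 h'.1 h'.2.1 h'.2.2 e

theorem idx_cons {l : S.Let} {j : Fin 3} {w : M} (h : S.Norm l j w) :
    S.idx (S.cons l j w) = j := by
  have hex : ∃ x : S.Let × Fin 3 × M,
      S.Norm x.1 x.2.1 x.2.2 ∧ S.cons l j w = S.cons x.1 x.2.1 x.2.2 := ⟨(l, j, w), h, rfl⟩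
  rw [idx, dif_pos hex]
  exact congrArg _ (S.cons_inj' h hex.choose_spec.1 hex.choose_spec.2).2.1.symm

theorem lev_act {a : M} {l : S.Let} (h : S.lab a < S.lev l) : S.lev (S.act a l) = S.lev l :=
  (S.act_spec a l h).1

theorem tri_act {a : M} {l : S.Let} (h : S.lab a < S.lev l) : S.tri (S.act a l) = S.tri l :=
  (S.act_spec a l h).2.2.2.1

theorem eta_act {a : M} {l : S.Let} (h : S.lab a < S.lev l) : S.eta (S.act a l) = a * S.eta l :=
  (S.act_spec a l h).2.2.1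

theorem norm_act_iff {a : M} {l : S.Let} (h : S.lab a < S.lev l) {j : Fin 3} {w : M} :
    S.Norm (S.act a l) j w ↔ S.Norm l j w := by
  rw [Norm, Norm, S.lev_act h, S.tri_act h]

theorem mul_cons' {a : M} {l : S.Let} {j : Fin 3} {w : M} (ha : S.lab a < S.lev l)
    (h : S.Norm l j w) : a * S.cons l j w = S.cons (S.act a l) j w :=
  S.mul_cons a l j w ha h.1 h.2.1 h.2.2

theorem exists_coe_of_lt {x y : WithBot Om} (h : x < y) : ∃ s : Om, y = s := by
  obtain ⟨s, hs⟩ := WithBot.ne_bot_iff_exists.1 (ne_bot_of_gt h)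
  exact ⟨s, hs.symm⟩

/-- old times new (`mul_cons`) -/
theorem lab_mul_of_lt {a b : M} (h : S.lab a < S.lab b) :
    S.lab (a * b) = S.lab b ∧ S.len (a * b) = S.len b := by
  obtain ⟨s, hs⟩ := exists_coe_of_lt h
  obtain ⟨l, j, w, rfl, hn, rfl⟩ := S.exists_norm hs
  rw [hs] at h
  have hn' := (S.norm_act_iff h).2 hn
  rw [S.mul_cons' h hn, S.lab_cons' hn', S.len_cons hn', S.len_cons hn, S.lev_act h, hs]
  exact ⟨rfl, rfl⟩

/-- division stays inside a stage -/
theorem lab_div (b c : M) : S.lab c ≤ max (S.lab b) (S.lab (b * c)) := by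
  rcases lt_or_ge (S.lab b) (S.lab c) with h | h
  · rw [(S.lab_mul_of_lt h).1]
    exact le_max_right _ _
  · exact h.trans (le_max_left _ _)

theorem lab_div_le {b c : M} {x : WithBot Om} (hb : S.lab b ≤ x) (h : S.lab (b * c) ≤ x) :
    S.lab c ≤ x := (S.lab_div b c).trans (max_le hb h)

theorem lab_mul_le {b c : M} {x : WithBot Om} (hb : S.lab b ≤ x) (h : S.lab c ≤ x) :
    S.lab (b * c) ≤ x := (S.lab_mul b c).trans (max_le hb h)

theorem lab_eq_of_old_mul {b c : M} {x : WithBot Om} (hb : S.lab b < x) (h : S.lab (b * c) = x) :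
    S.lab c = x := by
  refine le_antisymm (S.lab_div_le hb.le h.le) ?_
  by_contra hc
  exact absurd ((S.lab_mul b c).trans_lt (max_lt hb (not_le.1 hc))) (by rw [h]; exact lt_irrefl _)

theorem lenAt_old_mul {s : Om} {a g : M} (ha : S.lab a < s) (hg : S.lab g ≤ s) :
    S.lenAt s (a * g) = S.lenAt s g := by
  rcases hg.eq_or_lt with hg | hg
  · have h := S.lab_mul_of_lt (a := a) (b := g) (hg ▸ ha)
    rw [S.lenAt_of_eq hg, S.lenAt_of_eq (h.1.trans hg), h.2]
  · rw [S.lenAt_of_lt hg, S.lenAt_of_lt ((S.lab_mul a g).trans_lt (max_lt ha hg))]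

theorem ctr_act {a : M} {l : S.Let} (h : S.lab a < S.lev l) :
    S.ctr (S.act a l) = a • S.ctr l := by
  obtain ⟨h1, h2⟩ := (S.act_spec a l h).2.1
  refine Flt.ext' fun x => ?_
  rw [Flt.mem_smul, mem_ctr]
  constructor
  · rintro ⟨n, hn⟩
    obtain ⟨m, hm⟩ := h1 n
    exact ⟨S.code l m, ⟨m, dvd_rfl⟩, hn.trans hm⟩
  · rintro ⟨f, ⟨m, hm⟩, hf⟩
    obtain ⟨n, hn⟩ := h2 m
    exact ⟨n, hf.trans ((mul_dvd_mul_left a hm).trans hn)⟩

theorem admW (l : S.Let) : ∃ K, S.lab K < S.lev l ∧ AdmW (S.ctr l) (S.eta l) K := by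
  obtain ⟨K, h1, h2, h3, h4⟩ := S.adm l
  exact ⟨K, h1, h2, h3, fun D ⟨n, hn⟩ => hn.trans (h4 n)⟩

/-- (B1) the old nodes containing a normal word are the members of the centre -/
theorem old_dvd_cons_iff {a : M} {l : S.Let} {j : Fin 3} {w : M} (ha : S.lab a < S.lev l)
    (h : S.Norm l j w) : a ∣ S.cons l j w ↔ a ∈ S.ctr l := by
  constructor
  · rintro ⟨c, hc⟩
    have hlc : S.lab c = S.lev l := S.lab_eq_of_old_mul ha (by rw [← hc, S.lab_cons' h])
    obtain ⟨l', j', w', hl', hn', rfl⟩ := S.exists_norm hlc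
    rw [← hl'] at ha
    rw [S.mul_cons' ha hn'] at hc
    rw [(S.cons_inj' h ((S.norm_act_iff ha).2 hn') hc).1, S.ctr_act ha]
    exact Flt.self_mem_smul _ _
  · intro hc
    obtain ⟨l', hl', rfl⟩ := S.act_div a l ha hc
    rw [← hl'] at ha
    exact ⟨_, (S.mul_cons' ha ((S.norm_act_iff ha).1 h)).symm⟩

/-- a common sub-node lies in a common sub-node of the stage of the two nodes -/
theorem exists_lower {a b z : M} (ha : a ∣ z) (hb : b ∣ z) :
    ∃ y, S.lab y ≤ max (S.lab a) (S.lab b) ∧ a ∣ y ∧ b ∣ y ∧ y ∣ z := by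
  induction hz : S.lab z using WellFoundedLT.induction generalizing z with
  | ind x ih =>
    subst hz
    rcases le_or_gt (S.lab z) (max (S.lab a) (S.lab b)) with h | h
    · exact ⟨z, h, ha, hb, dvd_rfl⟩
    · obtain ⟨s, hs⟩ := exists_coe_of_lt h
      obtain ⟨l, j, w, rfl, hn, rfl⟩ := S.exists_norm hs
      rw [hs, max_lt_iff] at h
      obtain ⟨n, hn1⟩ := (S.old_dvd_cons_iff h.1 hn).1 ha
      obtain ⟨m, hm1⟩ := (S.old_dvd_cons_iff h.2 hn).1 hb
      obtain ⟨p, hp1, hp2⟩ := S.code_dir l n m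
      obtain ⟨y, h1, h2, h3, h4⟩ := ih (S.lab (S.code l p)) (hs ▸ S.lab_code l p)
        (hn1.trans hp1) (hm1.trans hp2) rfl
      exact ⟨y, h1, h2, h3,
        h4.trans ((S.old_dvd_cons_iff (S.lab_code l p) hn).2 ⟨p, dvd_rfl⟩)⟩

/-- the intersection condition of a triangle for all nodes -/
theorem inter (l : S.Let) {i j j' : Fin 3} (h1 : i ≠ j) (h2 : i ≠ j') (h3 : j ≠ j') {z : M}
    (h : (S.tri l).e i j ∣ z) (h' : (S.tri l).e i j' ∣ z) : (S.tri l).al i ∣ z := by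
  obtain ⟨y, hy, a1, a2, a3⟩ := S.exists_lower h h'
  exact ((S.tri_ok l).inter i j j' h1 h2 h3 y
    (hy.trans_lt (max_lt (S.lab_e l i j) (S.lab_e l i j'))) a1 a2).trans a3

theorem al_dvd_swap (l : S.Let) {i j : Fin 3} (h : i ≠ j) {γ : M}
    (hd : (S.tri l).al i ∣ (S.tri l).e i j * γ) : (S.tri l).al j ∣ (S.tri l).e j i * γ := by
  rw [← (S.tri_ok l).fac i j h, dvd_cancel] at hd
  rw [← (S.tri_ok l).fac j i h.symm, dvd_cancel, ← (S.tri_ok l).symm i j h]
  exact hd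

theorem norm_sib {l : S.Let} {i j : Fin 3} (h : i < j) {γ : M} (hγ : S.lab γ ≤ S.lev l)
    (hd : ¬ (S.tri l).al j ∣ (S.tri l).e j i * γ) : S.Norm l i ((S.tri l).e i j * γ) := by
  have h1 : ¬ (S.tri l).al i ∣ (S.tri l).e i j * γ := fun h' => hd (S.al_dvd_swap l h.ne h')
  refine ⟨S.lab_mul_le (S.lab_e l i j).le hγ, h1, fun i' hi' h' => h1 ?_⟩
  exact S.inter l hi'.ne' h.ne (hi'.trans h).ne h' (Dvd.intro _ rfl)

theorem tricho (l : S.Let) (j : Fin 3) {w : M} (hw : S.lab w ≤ S.lev l) :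
    (∃ γ, S.lab γ ≤ S.lev l ∧ w = (S.tri l).al j * γ) ∨
    (¬ (S.tri l).al j ∣ w ∧ ∃ i < j, ∃ γ, S.lab γ ≤ S.lev l ∧ w = (S.tri l).e j i * γ ∧
      S.Norm l i ((S.tri l).e i j * γ)) ∨ S.Norm l j w := by
  by_cases h1 : (S.tri l).al j ∣ w
  · obtain ⟨γ, rfl⟩ := h1
    exact Or.inl ⟨γ, S.lab_div_le (S.lab_al l j).le hw, rfl⟩
  by_cases h2 : ∃ i < j, (S.tri l).e j i ∣ w
  · obtain ⟨i, hi, γ, rfl⟩ := h2
    have hγ := S.lab_div_le (S.lab_e l j i).le hw
    exact Or.inr (Or.inl ⟨h1, i, hi, γ, hγ, rfl, S.norm_sib hi hγ h1⟩)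
  · exact Or.inr (Or.inr ⟨hw, h1, fun i hi h => h2 ⟨i, hi, h⟩⟩)

/-- the three cases of a product -/
theorem cons_mul_cases {l : S.Let} {j : Fin 3} {w b : M} (h : S.Norm l j w)
    (hb : S.lab b ≤ S.lev l) :
    (∃ γ, w * b = (S.tri l).al j * γ ∧ S.cons l j w * b = S.eta l * γ) ∨
      S.lab (S.cons l j w * b) = S.lev l := by
  obtain ⟨c1, c2, c3⟩ := S.cons_mul l j w b h.1 h.2.1 h.2.2 hb
  rcases S.tricho l j (S.lab_mul_le h.1 hb) with ⟨γ, -, e⟩ | ⟨h1, i, hi, γ, -, e, hn⟩ | hn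
  · exact Or.inl ⟨γ, e, c1 γ e⟩
  · right
    rw [c2 h1 i hi γ e, S.lab_cons' hn]
  · right
    rw [c3 hn.2.1 hn.2.2, S.lab_cons' hn]

/-- induction on `lenAt s a`, using `cons_mul` -/
theorem lab_mul_of_le {a b : M} (h : S.lab a ≤ S.lab b) : S.lab (a * b) = S.lab b := by
  rcases eq_or_ne (S.lab b) ⊥ with hb | hb
  · rw [hb] at h ⊢
    exact le_bot_iff.1 (S.lab_mul_le h hb.le)
  obtain ⟨s, hs⟩ := WithBot.ne_bot_iff_exists.1 hb
  induction hn : S.lenAt s a using Nat.strong_induction_on generalizing a with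
  | _ n ih =>
    rcases h.eq_or_lt with h | h
    · obtain ⟨l, j, w, rfl, hw, rfl⟩ := S.exists_norm (h.trans hs.symm)
      rcases S.cons_mul_cases hw hs.ge with ⟨γ, e1, e2⟩ | h1
      · have h2 : S.lab (w * b) = S.lab b :=
          ih _ (by rw [← hn, S.lenAt_cons hw]; omega) (hs ▸ hw.1) rfl
        rw [e1, ← hs] at h2
        have h3 := S.lab_eq_of_old_mul (S.lab_al l j) h2
        rw [e2, (S.lab_mul_of_lt (h3 ▸ S.lab_eta l)).1, h3, hs]
      · rw [h1, hs]
    · exact (S.lab_mul_of_lt h).1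

include S in
/-- induction on the level of `a`; if `eta l * γ = 1` then `eta l = 1`, then the witness `K` of
`adm` is `1` too, contradiction -/
theorem unit_eq (a b : M) (h : a * b = 1) : a = 1 := by
  induction hx : S.lab a using WellFoundedLT.induction generalizing a b with
  | ind x ih =>
    subst hx
    have hb : S.lab b ≤ S.lab a := S.lab_div_le le_rfl (by rw [h, S.lab_one]; exact bot_le)
    rcases eq_or_ne (S.lab a) ⊥ with ha | ha
    · obtain ⟨n, rfl⟩ := (S.lab_bot a).1 ha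
      obtain ⟨m, rfl⟩ := (S.lab_bot b).1 (le_bot_iff.1 (ha ▸ hb))
      rw [← pow_add, ← pow_zero S.k] at h
      have := S.pow_inj _ _ h
      rw [show n = 0 by omega, pow_zero]
    · exfalso
      obtain ⟨s, hs⟩ := WithBot.ne_bot_iff_exists.1 ha
      obtain ⟨l, j, w, rfl, hw, rfl⟩ := S.exists_norm hs.symm
      rcases S.cons_mul_cases hw (hs ▸ hb) with ⟨γ, -, e2⟩ | h1
      · have h1 : S.eta l = 1 := ih _ (hs ▸ S.lab_eta l) _ γ (e2.symm.trans h) rfl
        obtain ⟨K, k1, ⟨K', k2⟩, k3, -⟩ := S.adm l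
        exact k3 (h1.trans (ih _ (hs ▸ k1) K K' (k2.symm.trans h1) rfl).symm)
      · rw [h, S.lab_one] at h1
        exact WithBot.bot_ne_coe h1

include S in
theorem dvd_antisymm {a b : M} (h1 : a ∣ b) (h2 : b ∣ a) : a = b := by
  obtain ⟨c, rfl⟩ := h1
  obtain ⟨d, hd⟩ := h2
  have : c * d = 1 := mul_left_cancel (a := a) (by rw [← mul_assoc, ← hd, mul_one])
  rw [S.unit_eq c d this, mul_one]

include S in
theorem eq_one_of_dvd_one {a : M} (h : a ∣ 1) : a = 1 := S.dvd_antisymm h (one_dvd a)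

theorem eta_not_mem_ctr (l : S.Let) : S.eta l ∉ S.ctr l := by
  intro h
  obtain ⟨K, -, k1, k2, k3⟩ := S.admW l
  exact k2 (S.dvd_antisymm (k3 _ h) k1)

/-- the product of a member with a node of the stage -/
theorem X_mul_red (l : S.Let) (j : Fin 3) {w : M} (hw : S.lab w ≤ S.lev l) :
    (∀ γ, w = (S.tri l).al j * γ → S.X l j * w = S.eta l * γ) ∧
    (¬ (S.tri l).al j ∣ w → ∀ i < j, ∀ γ, w = (S.tri l).e j i * γ →
      S.X l j * w = S.cons l i ((S.tri l).e i j * γ)) ∧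
    (S.Norm l j w → S.X l j * w = S.cons l j w) := by
  by_cases h1 : (S.tri l).al j ∣ 1
  · have h1' := S.eq_one_of_dvd_one h1
    rw [X, if_pos h1]
    refine ⟨fun γ e => by rw [e, h1', one_mul], fun h => absurd (h1.trans (one_dvd w)) h,
      fun h => absurd (h1.trans (one_dvd w)) h.2.1⟩
  by_cases h2 : ∃ i, i < j ∧ (S.tri l).e j i ∣ 1
  · rw [X, if_neg h1, dif_pos h2]
    obtain ⟨hi, he⟩ := h2.choose_spec
    generalize h2.choose = i0 at hi he
    have he' := S.eq_one_of_dvd_one he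
    have hn : S.Norm l i0 ((S.tri l).e i0 j) := by
      have := S.norm_sib hi (γ := 1) (S.lab_one_lt _).le (by rwa [he', one_mul])
      rwa [mul_one] at this
    obtain ⟨c1, -, c3⟩ := S.cons_mul l i0 _ w hn.1 hn.2.1 hn.2.2 hw
    refine ⟨fun γ e => c1 γ ?_, fun h i hi' γ e => ?_,
      fun h => absurd (he.trans (one_dvd w)) (h.2.2 i0 hi)⟩
    · rw [e, ← mul_assoc, ← (S.tri_ok l).fac i0 j hi.ne, ← (S.tri_ok l).fac j i0 hi.ne', he',
        one_mul, (S.tri_ok l).symm i0 j hi.ne]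
    · by_cases hii : i = i0
      · subst hii
        rw [he', one_mul] at e
        subst e
        have hn' := S.norm_sib hi hw (by rwa [he', one_mul])
        exact c3 hn'.2.1 hn'.2.2
      · exact absurd (S.inter l hi'.ne' hi.ne' hii ⟨γ, e⟩ (he.trans (one_dvd w))) h
  · rw [X, if_neg h1, dif_neg h2]
    have := S.cons_mul l j 1 w (S.lab_one_lt _).le h1 (fun i hi h => h2 ⟨i, hi, h⟩) hw
    rw [one_mul] at this
    exact ⟨this.1, this.2.1, fun h => this.2.2 h.2.1 h.2.2⟩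

theorem X_mul_norm {l : S.Let} {j : Fin 3} {w : M} (h : S.Norm l j w) :
    S.X l j * w = S.cons l j w := (S.X_mul_red l j h.1).2.2 h

theorem X_mul_al (l : S.Let) (j : Fin 3) : S.X l j * (S.tri l).al j = S.eta l := by
  have := (S.X_mul_red l j (S.lab_al l j).le).1 1 (mul_one _).symm
  rwa [mul_one] at this

theorem X_mul_e_of_lt (l : S.Let) {i j : Fin 3} (h : i < j) :
    S.X l i * (S.tri l).e i j = S.X l j * (S.tri l).e j i := by
  by_cases h1 : (S.tri l).al j ∣ (S.tri l).e j i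
  · have h2 : (S.tri l).c j i = 1 := by
      refine S.eq_one_of_dvd_one ((dvd_cancel (a := (S.tri l).e j i)).1 ?_)
      rwa [(S.tri_ok l).fac j i h.ne', mul_one]
    have e1 := (S.tri_ok l).fac j i h.ne'
    have e2 := (S.tri_ok l).fac i j h.ne
    rw [h2, mul_one] at e1
    rw [(S.tri_ok l).symm i j h.ne, h2, mul_one] at e2
    rw [e1, e2, S.X_mul_al, S.X_mul_al]
  · have hn := S.norm_sib h (γ := 1) (S.lab_one_lt _).le (by rwa [mul_one])
    rw [(S.X_mul_red l j (S.lab_e l j i).le).2.1 h1 i h 1 (mul_one _).symm, ← S.X_mul_norm hn,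
      mul_one]

theorem X_mul_e (l : S.Let) {i j : Fin 3} (h : i ≠ j) :
    S.X l i * (S.tri l).e i j = S.X l j * (S.tri l).e j i := by
  rcases lt_or_gt_of_ne h with h | h
  · exact S.X_mul_e_of_lt l h
  · exact (S.X_mul_e_of_lt l h).symm

/-- refined (B2) -/
theorem X_mul_cases (l : S.Let) (j : Fin 3) {w : M} (hw : S.lab w ≤ S.lev l) :
    (∃ γ, S.lab γ ≤ S.lev l ∧ w = (S.tri l).al j * γ ∧ S.X l j * w = S.eta l * γ) ∨
    (∃ i < j, ∃ γ, w = (S.tri l).e j i * γ ∧ ¬ (S.tri l).al j ∣ w ∧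
      S.Norm l i ((S.tri l).e i j * γ) ∧ S.X l j * w = S.cons l i ((S.tri l).e i j * γ)) ∨
    (S.Norm l j w ∧ S.X l j * w = S.cons l j w) := by
  obtain ⟨c1, c2, c3⟩ := S.X_mul_red l j hw
  rcases S.tricho l j hw with ⟨γ, hγ, e⟩ | ⟨h1, i, hi, γ, -, e, hn⟩ | hn
  · exact Or.inl ⟨γ, hγ, e, c1 γ e⟩
  · exact Or.inr (Or.inl ⟨i, hi, γ, e, h1, hn, c2 h1 i hi γ e⟩)
  · exact Or.inr (Or.inr ⟨hn, c3 hn⟩)

theorem lab_X_le (l : S.Let) (j : Fin 3) : S.lab (S.X l j) ≤ S.lev l := by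
  rw [← mul_one (S.X l j)]
  rcases S.X_mul_cases l j (S.lab_one_lt _).le with ⟨γ, hγ, -, e⟩ | ⟨i, -, γ, -, -, hn, e⟩ | ⟨hn, e⟩
  · rw [e]
    exact S.lab_mul_le (S.lab_eta l).le hγ
  · rw [e, S.lab_cons' hn]
  · rw [e, S.lab_cons' hn]

theorem ctr_dvd_cons {l : S.Let} {j : Fin 3} {w D : M} (hn : S.Norm l j w) (h : D ∈ S.ctr l) :
    D ∣ S.cons l j w := by
  obtain ⟨n, hD⟩ := h
  exact hD.trans ((S.old_dvd_cons_iff (S.lab_code l n) hn).2 ⟨n, dvd_rfl⟩)

theorem ctr_dvd_X {l : S.Let} (j : Fin 3) {D : M} (h : D ∈ S.ctr l) : D ∣ S.X l j := by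
  rw [← mul_one (S.X l j)]
  rcases S.X_mul_cases l j (S.lab_one_lt _).le with ⟨γ, -, -, e⟩ | ⟨i, -, γ, -, -, hn, e⟩ | ⟨hn, e⟩
  · obtain ⟨K, -, k1, -, k3⟩ := S.admW l
    rw [e]
    exact ((k3 D h).trans k1).trans (Dvd.intro _ rfl)
  · rw [e]
    exact S.ctr_dvd_cons hn h
  · rw [e]
    exact S.ctr_dvd_cons hn h

theorem act_X {a : M} {l : S.Let} (h : S.lab a < S.lev l) (j : Fin 3) :
    a * S.X l j = S.X (S.act a l) j := by
  obtain ⟨c1, c2, c3⟩ := S.X_mul_red (S.act a l) j (S.lab_one_lt _).le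
  rw [S.tri_act h] at c1 c2
  rw [← mul_one (S.X l j), ← mul_one (S.X (S.act a l) j)]
  rcases S.X_mul_cases l j (S.lab_one_lt _).le with
    ⟨γ, -, e', e⟩ | ⟨i, hi, γ, e', h1, hn, e⟩ | ⟨hn, e⟩
  · rw [e, c1 γ e', S.eta_act h, mul_assoc]
  · rw [e, c2 h1 i hi γ e', S.mul_cons' h hn]
  · rw [e, c3 ((S.norm_act_iff h).2 hn), S.mul_cons' h hn]

/-- (B2) nodes of level at most `lev l` inside a member of the cluster -/
theorem X_dvd_cases {l : S.Let} {j : Fin 3} {z : M} (hz : S.lab z ≤ S.lev l) (h : S.X l j ∣ z) :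
    S.eta l ∣ z ∨ ∃ i w, i ≤ j ∧ S.Norm l i w ∧ z = S.cons l i w := by
  obtain ⟨w, rfl⟩ := h
  rcases S.X_mul_cases l j (S.lab_div_le (S.lab_X_le l j) hz) with
    ⟨γ, -, -, e⟩ | ⟨i, hi, γ, -, -, hn, e⟩ | ⟨hn, e⟩
  · exact Or.inl ⟨γ, e⟩
  · exact Or.inr ⟨i, _, hi.le, hn, e⟩
  · exact Or.inr ⟨j, _, le_rfl, hn, e⟩

/-- (L3) old nodes inside a member lie in the gate -/
theorem eta_dvd_of_old {l : S.Let} {j : Fin 3} {z : M} (hz : S.lab z < S.lev l)
    (h : S.X l j ∣ z) : S.eta l ∣ z := by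
  rcases S.X_dvd_cases hz.le h with h | ⟨i, w, -, hn, rfl⟩
  · exact h
  · exact absurd (S.lab_cons' hn) hz.ne

/-- (L1) an old node containing a piece of a member outside the gate is in the centre -/
theorem mem_ctr_of_new {l : S.Let} {j : Fin 3} {W Z : M} (hW : S.lab W < S.lev l) (h1 : W ∣ Z)
    (h2 : S.X l j ∣ Z) (h3 : ¬ S.eta l ∣ Z) : W ∈ S.ctr l := by
  obtain ⟨y, hy, a1, a2, a3⟩ := S.exists_lower h1 h2
  rcases S.X_dvd_cases (hy.trans (max_le hW.le (S.lab_X_le l j))) a2 with h | ⟨i, w, -, hn, rfl⟩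
  · exact absurd (h.trans a3) h3
  · exact (S.old_dvd_cons_iff hW hn).1 a1

theorem X_meet_sib_of_lt (l : S.Let) {i j : Fin 3} (h : i < j) {z : M} (h1 : S.X l i ∣ z)
    (h2 : S.X l j ∣ z) : S.X l i * (S.tri l).e i j ∣ z := by
  obtain ⟨y, hy, a1, a2, a3⟩ := S.exists_lower h1 h2
  refine Dvd.dvd.trans ?_ a3
  have hy' := hy.trans (max_le (S.lab_X_le l i) (S.lab_X_le l j))
  have heta : S.eta l ∣ y → S.X l i * (S.tri l).e i j ∣ y := fun hd => by
    refine Dvd.dvd.trans ?_ hd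
    rw [← S.X_mul_al l i, ← (S.tri_ok l).fac i j h.ne, ← mul_assoc]
    exact Dvd.intro _ rfl
  obtain ⟨w, hw⟩ := a1
  obtain ⟨w', hw'⟩ := a2
  rcases S.X_mul_cases l i (S.lab_div_le (S.lab_X_le l i) (hw ▸ hy')) with
    ⟨γ, -, -, e⟩ | ⟨i', hi', γ, -, -, hn, e⟩ | ⟨hn, e⟩
  · exact heta ⟨γ, hw.trans e⟩
  · rcases S.X_mul_cases l j (S.lab_div_le (S.lab_X_le l j) (hw' ▸ hy')) with
      ⟨γ', -, -, e'⟩ | ⟨j', hj', γ', -, -, hn', e'⟩ | ⟨hn', e'⟩
    · exact heta ⟨γ', hw'.trans e'⟩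
    · obtain ⟨-, rfl, e3⟩ := S.cons_inj' hn hn' (e.symm.trans (hw.symm.trans (hw'.trans e')))
      exact absurd (S.inter l hi'.ne hj'.ne h.ne (Dvd.intro _ rfl) ⟨γ', e3⟩) hn.2.1
    · obtain ⟨-, rfl, -⟩ := S.cons_inj' hn hn' (e.symm.trans (hw.symm.trans (hw'.trans e')))
      exact absurd (hi'.trans h) (lt_irrefl _)
  · rcases S.X_mul_cases l j (S.lab_div_le (S.lab_X_le l j) (hw' ▸ hy')) with
      ⟨γ', -, -, e'⟩ | ⟨j', hj', γ', -, -, hn', e'⟩ | ⟨hn', e'⟩
    · exact heta ⟨γ', hw'.trans e'⟩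
    · obtain ⟨-, rfl, e3⟩ := S.cons_inj' hn hn' (e.symm.trans (hw.symm.trans (hw'.trans e')))
      exact ⟨γ', by rw [hw, e3, mul_assoc]⟩
    · obtain ⟨-, rfl, -⟩ := S.cons_inj' hn hn' (e.symm.trans (hw.symm.trans (hw'.trans e')))
      exact absurd h (lt_irrefl _)

/-- siblings meet in their edge -/
theorem X_meet_sib (l : S.Let) {i j : Fin 3} (h : i ≠ j) :
    IsMeet (S.X l i) (S.X l j) (S.X l i * (S.tri l).e i j) := by
  intro z
  constructor
  · rintro ⟨h1, h2⟩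
    rcases lt_or_gt_of_ne h with h' | h'
    · exact S.X_meet_sib_of_lt l h' h1 h2
    · rw [S.X_mul_e l h]
      exact S.X_meet_sib_of_lt l h' h2 h1
  · intro hz
    refine ⟨(Dvd.intro _ rfl).trans hz, ?_⟩
    rw [S.X_mul_e l h] at hz
    exact (Dvd.intro _ rfl).trans hz

/-- two gates cannot lie in each other's centres -/
theorem eta_not_mem_or (l l' : S.Let) : S.eta l' ∉ S.ctr l ∨ S.eta l ∉ S.ctr l' := by
  by_contra h
  rw [not_or, not_not, not_not] at h
  obtain ⟨K, -, k1, k2, k3⟩ := S.admW l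
  obtain ⟨K', -, k1', -, k3'⟩ := S.admW l'
  exact k2 (S.dvd_antisymm (((k3' _ h.2).trans k1').trans (k3 _ h.1)) k1)

/-- (L4) different clusters of the same level meet inside a gate -/
theorem X_meet_of_ne {l l' : S.Let} (hl : S.lev l = S.lev l') (hne : l ≠ l')
    (h : S.eta l' ∉ S.ctr l) {j j' : Fin 3} {z : M} (h1 : S.X l j ∣ z) (h2 : S.X l' j' ∣ z) :
    S.eta l ∣ z := by
  obtain ⟨y, hy, a1, a2, a3⟩ := S.exists_lower h1 h2
  have hy' : S.lab y ≤ S.lev l := hy.trans (max_le (S.lab_X_le l j) (hl ▸ S.lab_X_le l' j'))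
  rcases S.X_dvd_cases hy' a1 with h3 | ⟨i, w, -, hn, rfl⟩
  · exact h3.trans a3
  rcases S.X_dvd_cases (hl ▸ hy') a2 with h4 | ⟨i', w', -, hn', e⟩
  · exact absurd ((S.old_dvd_cons_iff (hl ▸ S.lab_eta l') hn).1 h4) h
  · exact absurd (S.cons_inj' hn hn' e).1 hne

theorem isMeet_of_dvd {a b : M} (h : a ∣ b) : IsMeet a b b :=
  fun _ => ⟨fun hz => hz.2, fun hz => ⟨h.trans hz, hz⟩⟩

include S in
theorem meet_unique {a b m m' : M} (h : IsMeet a b m) (h' : IsMeet a b m') : m = m' :=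
  S.dvd_antisymm ((h m').1 ⟨h'.left, h'.right⟩) ((h' m).1 ⟨h.left, h.right⟩)

theorem lab_meet_le {a b m : M} (h : IsMeet a b m) : S.lab m ≤ max (S.lab a) (S.lab b) := by
  obtain ⟨y, hy, a1, a2, a3⟩ := S.exists_lower h.left h.right
  rwa [S.dvd_antisymm ((h y).1 ⟨a1, a2⟩) a3]

/-- if all common sub-nodes of `a` and `b` lie in `g`, one may first intersect with `g` -/
theorem isMeet_via {a b g m₁ m : M} (hg : ∀ z, a ∣ z → b ∣ z → g ∣ z) (h1 : IsMeet g b m₁)
    (h2 : IsMeet a m₁ m) : IsMeet a b m := fun z =>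
  ⟨fun hz => (h2 z).1 ⟨hz.1, (h1 z).1 ⟨hg z hz.1 hz.2, hz.2⟩⟩,
    fun hz => ⟨h2.left.trans hz, h1.right.trans (h2.right.trans hz)⟩⟩

theorem exists_meet_old {s : Om}
    (IH : ∀ a b : M, S.lab a < s → S.lab b < s → ∃ m, IsMeet a b m) {a b : M}
    (ha : S.lab a < s) (hb : S.lab b ≤ s) : ∃ m, IsMeet a b m ∧
      S.lenAt s m ≤ S.lenAt s b ∧ (S.lab b = s → ¬ a ∣ b → S.lenAt s m < S.lenAt s b) := by
  induction hn : S.lenAt s b using Nat.strong_induction_on generalizing a b with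
  | _ n ih =>
    subst hn
    rcases hb.eq_or_lt with hb | hb
    · obtain ⟨l, j, w, rfl, hw, rfl⟩ := S.exists_norm hb
      by_cases hc : a ∈ S.ctr l
      · have hd := (S.old_dvd_cons_iff ha hw).2 hc
        exact ⟨_, isMeet_of_dvd hd, le_rfl, fun _ h => absurd hd h⟩
      obtain ⟨m₁, hm₁, hl₁, -⟩ := ih _ (by rw [S.lenAt_cons hw]; omega) (S.lab_al l j) hw.1 rfl
      obtain ⟨g, rfl⟩ := hm₁.left
      have hg : S.lab g ≤ S.lev l := S.lab_div_le (S.lab_al l j).le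
        ((S.lab_meet_le hm₁).trans (max_le (S.lab_al l j).le hw.1))
      have h1 := hm₁.mul_left (S.X l j)
      rw [← mul_assoc, S.X_mul_al, S.X_mul_norm hw] at h1
      rw [S.lenAt_old_mul (S.lab_al l j) hg] at hl₁
      have hlt : S.lenAt (S.lev l) (S.eta l * g) < S.lenAt (S.lev l) (S.cons l j w) := by
        rw [S.lenAt_old_mul (S.lab_eta l) hg, S.lenAt_cons hw]
        omega
      obtain ⟨m, hm, hl, -⟩ := ih _ hlt ha (S.lab_mul_le (S.lab_eta l).le hg) rfl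
      refine ⟨m, isMeet_via (fun z h2 h3 => ?_) h1 hm, by omega, fun _ _ => by omega⟩
      by_contra h4
      refine hc (S.mem_ctr_of_new (j := j) ha h2 (Dvd.dvd.trans ?_ h3) h4)
      exact ⟨w, (S.X_mul_norm hw).symm⟩
    · obtain ⟨m, hm⟩ := IH a b ha hb
      refine ⟨m, hm, ?_, fun h => absurd h hb.ne⟩
      rw [S.lenAt_of_lt ((S.lab_meet_le hm).trans_lt (max_lt ha hb))]
      exact Nat.zero_le _

theorem exists_meet_step {s : Om}
    (IH : ∀ a b : M, S.lab a < s → S.lab b < s → ∃ m, IsMeet a b m) {a b : M}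
    (ha : S.lab a ≤ s) (hb : S.lab b ≤ s) : ∃ m, IsMeet a b m := by
  induction hn : S.lenAt s a + S.lenAt s b using Nat.strong_induction_on generalizing a b with
  | _ n ih =>
    subst hn
    rcases ha.eq_or_lt with ha' | ha'
    swap
    · obtain ⟨m, hm, -⟩ := S.exists_meet_old IH ha' hb
      exact ⟨m, hm⟩
    rcases hb.eq_or_lt with hb' | hb'
    swap
    · obtain ⟨m, hm, -⟩ := S.exists_meet_old IH hb' ha
      exact ⟨m, hm.symm⟩
    obtain ⟨l, j, w, rfl, hw, rfl⟩ := S.exists_norm ha'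
    obtain ⟨l', j', w', hl', hw', rfl⟩ := S.exists_norm hb'
    have xa : S.X l j ∣ S.cons l j w := ⟨w, (S.X_mul_norm hw).symm⟩
    have xb : S.X l' j' ∣ S.cons l' j' w' := ⟨w', (S.X_mul_norm hw').symm⟩
    by_cases hll : l' = l
    · subst hll
      by_cases hjj : j = j'
      · subst hjj
        obtain ⟨m, hm⟩ := ih _ (by rw [S.lenAt_cons hw, S.lenAt_cons hw']; omega) hw.1 hw'.1 rfl
        have := hm.mul_left (S.X l' j)
        rw [S.X_mul_norm hw, S.X_mul_norm hw'] at this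
        exact ⟨_, this⟩
      · obtain ⟨m₁, hm₁, hl₁, -⟩ := S.exists_meet_old IH (S.lab_e l' j j') hw.1
        obtain ⟨m₂, hm₂, hl₂, -⟩ := S.exists_meet_old IH (S.lab_e l' j' j) hw'.1
        obtain ⟨g, rfl⟩ := hm₁.left
        obtain ⟨g', rfl⟩ := hm₂.left
        have hg : S.lab g ≤ S.lev l' := S.lab_div_le (S.lab_e l' j j').le
          ((S.lab_meet_le hm₁).trans (max_le (S.lab_e l' j j').le hw.1))
        have hg' : S.lab g' ≤ S.lev l' := S.lab_div_le (S.lab_e l' j' j).le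
          ((S.lab_meet_le hm₂).trans (max_le (S.lab_e l' j' j).le hw'.1))
        rw [S.lenAt_old_mul (S.lab_e l' j j') hg] at hl₁
        rw [S.lenAt_old_mul (S.lab_e l' j' j) hg'] at hl₂
        obtain ⟨m, hm⟩ := ih _ (by rw [S.lenAt_cons hw, S.lenAt_cons hw']; omega) hg hg' rfl
        have h1 := hm₁.mul_left (S.X l' j)
        have h2 := hm₂.mul_left (S.X l' j')
        rw [S.X_mul_norm hw, ← mul_assoc] at h1
        rw [S.X_mul_norm hw', ← mul_assoc, ← S.X_mul_e l' hjj] at h2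
        have h3 := hm.mul_left (S.X l' j * (S.tri l').e j j')
        refine ⟨_, fun z => ⟨fun hz => (h3 z).1 ?_, fun hz => ?_⟩⟩
        · have hE := (S.X_meet_sib l' hjj z).1 ⟨xa.trans hz.1, xb.trans hz.2⟩
          exact ⟨(h1 z).1 ⟨hE, hz.1⟩, (h2 z).1 ⟨hE, hz.2⟩⟩
        · exact ⟨h1.right.trans (h3.left.trans hz), h2.right.trans (h3.right.trans hz)⟩
    · rcases S.eta_not_mem_or l l' with he | he
      · obtain ⟨m₁, hm₁, -, hl₁⟩ := S.exists_meet_old IH (S.lab_eta l) ha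
        have hlt := hl₁ ha' fun h => S.eta_not_mem_ctr l ((S.old_dvd_cons_iff (S.lab_eta l) hw).1 h)
        obtain ⟨m, hm⟩ := ih _ (Nat.add_lt_add_right hlt _)
          ((S.lab_meet_le hm₁).trans (max_le (S.lab_eta l).le ha)) hb rfl
        refine ⟨m, (isMeet_via (fun z h2 h3 => ?_) hm₁ hm.symm).symm⟩
        exact S.X_meet_of_ne hl'.symm (Ne.symm hll) he (xa.trans h3) (xb.trans h2)
      · have he' : S.lab (S.eta l') < S.lev l := hl' ▸ S.lab_eta l'
        obtain ⟨m₁, hm₁, -, hl₁⟩ := S.exists_meet_old IH he' hb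
        have hlt := hl₁ hb' fun h =>
          S.eta_not_mem_ctr l' ((S.old_dvd_cons_iff (S.lab_eta l') hw').1 h)
        obtain ⟨m, hm⟩ := ih _ (Nat.add_lt_add_left hlt _) ha
          ((S.lab_meet_le hm₁).trans (max_le he'.le hb)) rfl
        refine ⟨m, isMeet_via (fun z h2 h3 => ?_) hm₁ hm⟩
        exact S.X_meet_of_ne hl' hll he (xb.trans h3) (xa.trans h2)

include S in
theorem exists_isMeet (a b : M) : ∃ m, IsMeet a b m := by
  induction hx : max (S.lab a) (S.lab b) using WellFoundedLT.induction generalizing a b with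
  | ind x ih =>
    have ha : S.lab a ≤ x := hx ▸ le_max_left _ _
    have hb : S.lab b ≤ x := hx ▸ le_max_right _ _
    induction x using WithBot.recBotCoe with
    | bot =>
      obtain ⟨n, rfl⟩ := (S.lab_bot a).1 (le_bot_iff.1 ha)
      obtain ⟨m, rfl⟩ := (S.lab_bot b).1 (le_bot_iff.1 hb)
      rcases le_total n m with h | h
      · exact ⟨_, isMeet_of_dvd (pow_dvd_pow _ h)⟩
      · exact ⟨_, (isMeet_of_dvd (pow_dvd_pow _ h)).symm⟩
    | coe s => exact S.exists_meet_step (fun a b ha hb => ih _ (max_lt ha hb) a b rfl) ha hb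

/-- Intersections exist inside the stage of the two nodes.  Reduction: common sub-nodes `z` of
higher level reduce to older ones through the directed centre of the first letter of `z` (B1).
Then induction on the level, on `lenAt` (first one old node, see `meet_old`, then two new ones:
same letter and index: recurse on the remainders; siblings: go through the edge; different
letters: go through the gate, `X_meet_of_ne`-argument for `z` of level `≤ lev l`). -/
theorem exists_meet (a b : M) : ∃ m, IsMeet a b m ∧ S.lab m ≤ max (S.lab a) (S.lab b) := by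
  obtain ⟨m, hm⟩ := S.exists_isMeet a b
  exact ⟨m, hm, S.lab_meet_le hm⟩

/-- (MO) meeting with an old node `a`: for `b = cons l j w` either `a ∈ ctr l` and the meet is `b`,
or every common sub-node is in the gate and `eta l ∧ b = eta l * γ` where
`al j ∧ w = al j * γ`. -/
theorem meet_old {s : Om} {a b m : M} (ha : S.lab a < s) (hb : S.lab b ≤ s) (h : IsMeet a b m) :
    S.lenAt s m ≤ S.lenAt s b ∧ (S.lab b = s → ¬ a ∣ b → S.lenAt s m < S.lenAt s b) := by
  obtain ⟨m', hm', h'⟩ := S.exists_meet_old (fun a b _ _ => S.exists_isMeet a b) ha hb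
  rwa [S.meet_unique h hm']

theorem prec_of_lab_lt {a b : M} (h : S.lab a < S.lab b) : S.Prec a b := Or.inl h

theorem prec_of_lenAt_lt {s : Om} {a b : M} (ha : S.lab a ≤ s) (hb : S.lab b = s)
    (h : S.lenAt s a < S.lenAt s b) : S.Prec a b := by
  rcases ha.eq_or_lt with ha | ha
  · rw [S.lenAt_of_eq ha, S.lenAt_of_eq hb] at h
    exact Or.inr ⟨ha.trans hb.symm, Or.inl h⟩
  · exact Or.inl (hb ▸ ha)

/-- (DEC) -/
theorem prec_meet {z d m : M} (hz : S.lab z < S.lab d) (hd : ¬ z ∣ d) (h : IsMeet z d m) :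
    S.Prec m d := by
  obtain ⟨s, hs⟩ := exists_coe_of_lt hz
  rw [hs] at hz
  exact S.prec_of_lenAt_lt ((S.lab_meet_le h).trans (max_le hz.le hs.le)) hs
    ((S.meet_old hz hs.le h).2 hs hd)

theorem prec_rest {l : S.Let} {j : Fin 3} {w : M} (h : S.Norm l j w) :
    S.Prec w (S.cons l j w) :=
  S.prec_of_lenAt_lt h.1 (S.lab_cons' h) (by rw [S.lenAt_cons h]; omega)

theorem prec_sib {l : S.Let} {i j : Fin 3} {w γ : M} (h : S.Norm l j w) (hij : i < j)
    (hm : IsMeet w ((S.tri l).e j i) ((S.tri l).e j i * γ)) :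
    S.Prec (S.X l i * ((S.tri l).e i j * γ)) (S.cons l j w) := by
  have hγ : S.lab γ ≤ S.lev l := S.lab_div_le (S.lab_e l j i).le
    ((S.lab_meet_le hm).trans (max_le h.1 (S.lab_e l j i).le))
  have hl := (S.meet_old (S.lab_e l j i) h.1 hm.symm).1
  rw [S.lenAt_old_mul (S.lab_e l j i) hγ] at hl
  by_cases hd : (S.tri l).al j ∣ (S.tri l).e j i * γ
  · have hd' := S.al_dvd_swap l hij.ne' hd
    rw [← (S.tri_ok l).fac i j hij.ne, dvd_cancel] at hd'
    obtain ⟨γ', rfl⟩ := hd'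
    have hγ' := S.lab_div_le (S.lab_c l i j).le hγ
    rw [S.lenAt_old_mul (S.lab_c l i j) hγ'] at hl
    rw [← mul_assoc ((S.tri l).e i j), (S.tri_ok l).fac i j hij.ne, ← mul_assoc, S.X_mul_al]
    refine S.prec_of_lenAt_lt (S.lab_mul_le (S.lab_eta l).le hγ') (S.lab_cons' h) ?_
    rw [S.lenAt_old_mul (S.lab_eta l) hγ', S.lenAt_cons h]
    omega
  · have hn := S.norm_sib hij hγ hd
    rw [S.X_mul_norm hn]
    refine Or.inr ⟨(S.lab_cons' hn).trans (S.lab_cons' h).symm, ?_⟩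
    rw [S.len_cons hn, S.len_cons h, S.idx_cons hn, S.idx_cons h,
      S.lenAt_old_mul (S.lab_e l i j) hγ]
    have : (i : ℕ) < j := hij
    omega

end LSys
end Crest.Agent.R296
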