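import Mathlib

/-!
Row 296 (PP without AC): the combinatorial interface.

A monoid `M` is read as a one-object category of embeddings; `a : M` is a "node" (a sub-stage of
the current stage), and node `b` lies inside node `a` iff `a ∣ b` (that is `b = a * c`).
-/

set_option autoImplicit false

namespace Crest.Agent.R296

open Ordinal

/-- the countable ordinals as a small well-ordered type -/
abbrev Om : Type := (Cardinal.aleph.{0} 1).ord.ToType

theorem Om.countable_Iio (s : Om) : (Set.Iio s).Countable := by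
  have h : Cardinal.mk (Set.Iio s) < Cardinal.aleph 1 :=
    Cardinal.mk_Iio_toType_ord_lt (c := Cardinal.aleph 1) s
  rw [← Cardinal.le_aleph0_iff_set_countable]
  exact Order.lt_succ_iff.1 (h.trans_eq Cardinal.succ_aleph0.symm)

theorem Om.uncountable : Uncountable Om := by
  rw [← Cardinal.aleph0_lt_mk_iff]
  simp

instance : Uncountable Om := Om.uncountable

/-- every countable set of countable ordinals is strictly bounded -/
theorem Om.exists_gt {S : Set Om} (hS : S.Countable) : ∃ r : Om, ∀ s ∈ S, s < r := by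
  by_contra h
  push Not at h
  have : (Set.univ : Set Om) ⊆ ⋃ s ∈ S, Set.Iic s := by
    intro r _
    obtain ⟨s, hs, hr⟩ := h r
    simp only [Set.mem_iUnion]
    exact ⟨s, hs, hr⟩
  have hc : (⋃ s ∈ S, Set.Iic s).Countable := by
    refine hS.biUnion fun s _ => ?_
    rw [← Set.Iio_insert]
    exact (Om.countable_Iio s).insert s
  exact Set.not_countable_univ (hc.mono this)

section Basic
variable {M : Type} [Monoid M]

/-- `m` is the intersection of the nodes `a` and `b` -/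
def IsMeet (a b m : M) : Prop := ∀ z, (a ∣ z ∧ b ∣ z) ↔ m ∣ z

/-- filters of nodes -/
@[ext] structure Flt (M : Type) [Monoid M] where
  carrier : Set M
  one_mem' : (1 : M) ∈ carrier
  up' : ∀ {a b : M}, a ∈ carrier → b ∣ a → b ∈ carrier
  dir' : ∀ {a b : M}, a ∈ carrier → b ∈ carrier → ∃ c ∈ carrier, a ∣ c ∧ b ∣ c

instance : Membership M (Flt M) := ⟨fun F a => a ∈ F.carrier⟩

namespace Flt

theorem ext' {F G : Flt M} (h : ∀ x, x ∈ F ↔ x ∈ G) : F = G := Flt.ext (Set.ext h)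
theorem one_mem (F : Flt M) : (1 : M) ∈ F := F.one_mem'
theorem up {F : Flt M} {a b : M} (h : a ∈ F) (hb : b ∣ a) : b ∈ F := F.up' h hb
theorem dir {F : Flt M} {a b : M} (ha : a ∈ F) (hb : b ∈ F) : ∃ c ∈ F, a ∣ c ∧ b ∣ c :=
  F.dir' ha hb
theorem meet_mem {F : Flt M} {a b m : M} (h : IsMeet a b m) (ha : a ∈ F) (hb : b ∈ F) : m ∈ F := by
  obtain ⟨c, hc, h1, h2⟩ := F.dir ha hb
  exact up hc ((h c).1 ⟨h1, h2⟩)

instance : SMul M (Flt M) where
  smul a F :=
    { carrier := {x | ∃ f ∈ F, x ∣ a * f}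
      one_mem' := ⟨1, F.one_mem, one_dvd _⟩
      up' := by
        rintro x y ⟨f, hf, hx⟩ hy
        exact ⟨f, hf, hy.trans hx⟩
      dir' := by
        rintro x y ⟨f, hf, hx⟩ ⟨g, hg, hy⟩
        obtain ⟨c, hc, h1, h2⟩ := F.dir hf hg
        exact ⟨a * c, ⟨c, hc, dvd_rfl⟩, hx.trans (mul_dvd_mul_left a h1),
          hy.trans (mul_dvd_mul_left a h2)⟩ }

theorem mem_smul {a x : M} {F : Flt M} : x ∈ a • F ↔ ∃ f ∈ F, x ∣ a * f := Iff.rfl

instance : MulAction M (Flt M) where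
  one_smul F := ext' fun x => by
    rw [mem_smul]
    exact ⟨fun ⟨f, hf, h⟩ => up hf (by simpa using h), fun h => ⟨x, h, by simp⟩⟩
  mul_smul a b F := ext' fun x => by
    simp only [mem_smul]
    constructor
    · rintro ⟨f, hf, h⟩
      exact ⟨b * f, ⟨f, hf, dvd_rfl⟩, by simpa [mul_assoc] using h⟩
    · rintro ⟨g, ⟨f, hf, h1⟩, h⟩
      exact ⟨f, hf, by rw [mul_assoc]; exact h.trans (mul_dvd_mul_left a h1)⟩

/-- the principal filter of all nodes containing `a` -/
def princ (a : M) : Flt M where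
  carrier := {x | x ∣ a}
  one_mem' := one_dvd a
  up' := fun h hb => hb.trans h
  dir' := fun ha hb => ⟨a, dvd_rfl, ha, hb⟩

theorem mem_princ {a x : M} : x ∈ princ a ↔ x ∣ a := Iff.rfl

theorem smul_princ (a b : M) : a • princ b = princ (a * b) := ext' fun x => by
  simp only [mem_smul, mem_princ]
  exact ⟨fun ⟨f, hf, h⟩ => h.trans (mul_dvd_mul_left a hf), fun h => ⟨b, dvd_rfl, h⟩⟩

theorem self_mem_smul (a : M) (F : Flt M) : a ∈ a • F := ⟨1, F.one_mem, by simp⟩

theorem mul_mem_smul (a : M) {F : Flt M} {f : M} (h : f ∈ F) : a * f ∈ a • F := ⟨f, h, dvd_rfl⟩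

end Flt

variable [IsLeftCancelMul M]

theorem dvd_cancel {a b c : M} : a * b ∣ a * c ↔ b ∣ c := by
  refine ⟨?_, mul_dvd_mul_left a⟩
  rintro ⟨d, hd⟩
  exact ⟨d, mul_left_cancel (a := a) (by rw [hd, mul_assoc])⟩

namespace Flt

theorem mul_mem_smul_iff {a f : M} {F : Flt M} : a * f ∈ a • F ↔ f ∈ F :=
  ⟨fun ⟨_, hg, h⟩ => up hg (dvd_cancel.1 h), mul_mem_smul a⟩

theorem smul_injective (a : M) : Function.Injective fun F : Flt M => a • F := by
  intro F G h
  refine ext' fun x => ?_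
  have h' : a • F = a • G := h
  rw [← mul_mem_smul_iff (a := a), h', mul_mem_smul_iff]

/-- the filter induced on a member `a` -/
def quot (F : Flt M) (a : M) (h : a ∈ F) : Flt M where
  carrier := {x | a * x ∈ F}
  one_mem' := by simpa using h
  up' := fun hx hb => up hx (mul_dvd_mul_left a hb)
  dir' := by
    intro x y hx hy
    obtain ⟨c, hc, h1, h2⟩ := F.dir hx hy
    obtain ⟨d, rfl⟩ := (Dvd.intro _ rfl : a ∣ a * x).trans h1
    exact ⟨d, hc, dvd_cancel.1 h1, dvd_cancel.1 h2⟩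

theorem mem_quot {F : Flt M} {a x : M} {h : a ∈ F} : x ∈ F.quot a h ↔ a * x ∈ F := Iff.rfl

theorem smul_quot (F : Flt M) (a : M) (h : a ∈ F) : a • F.quot a h = F := ext' fun x => by
  rw [mem_smul]
  constructor
  · rintro ⟨f, hf, hx⟩
    exact up hf hx
  · intro hx
    obtain ⟨c, hc, ⟨d, rfl⟩, h2⟩ := F.dir h hx
    exact ⟨d, hc, h2⟩

theorem mem_iff_exists_smul {a : M} {F : Flt M} : a ∈ F ↔ ∃ G : Flt M, a • G = F :=
  ⟨fun h => ⟨_, smul_quot F a h⟩, fun ⟨G, h⟩ => h ▸ self_mem_smul a G⟩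

end Flt

theorem IsMeet.mul_left {a b m : M} (h : IsMeet a b m) (c : M) :
    IsMeet (c * a) (c * b) (c * m) := by
  intro z
  constructor
  · rintro ⟨h1, h2⟩
    obtain ⟨d, rfl⟩ := (Dvd.intro _ rfl : c ∣ c * a).trans h1
    exact mul_dvd_mul_left c ((h d).1 ⟨dvd_cancel.1 h1, dvd_cancel.1 h2⟩)
  · intro hz
    have := (h m).2 dvd_rfl
    exact ⟨(mul_dvd_mul_left c this.1).trans hz, (mul_dvd_mul_left c this.2).trans hz⟩

omit [IsLeftCancelMul M] in
theorem IsMeet.symm {a b m : M} (h : IsMeet a b m) : IsMeet b a m := fun z => by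
  rw [and_comm]; exact h z

omit [IsLeftCancelMul M] in
theorem IsMeet.left {a b m : M} (h : IsMeet a b m) : a ∣ m := ((h m).2 dvd_rfl).1

omit [IsLeftCancelMul M] in
theorem IsMeet.right {a b m : M} (h : IsMeet a b m) : b ∣ m := ((h m).2 dvd_rfl).2

end Basic

/-- The type of a cluster: three nodes `X 0, X 1, X 2` will be glued along the edges
`X i * e i j = X j * e j i` and contain the gate at address `al i = e i j * c i j`. -/
@[ext] structure Tri (M : Type) where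
  al : Fin 3 → M
  e : Fin 3 → Fin 3 → M
  c : Fin 3 → Fin 3 → M

/-- Validity of a triangle type, the intersection condition being asked for the nodes in `S`. -/
structure Tri.OKOn {M : Type} [Monoid M] (T : Tri M) (S : Set M) : Prop where
  fac : ∀ i j, i ≠ j → T.e i j * T.c i j = T.al i
  symm : ∀ i j, i ≠ j → T.c i j = T.c j i
  inter : ∀ i j l, i ≠ j → i ≠ l → j ≠ l → ∀ z ∈ S, T.e i j ∣ z → T.e i l ∣ z → T.al i ∣ z

abbrev Tri.OK {M : Type} [Monoid M] (T : Tri M) : Prop := T.OKOn Set.univ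

section GeoDef
variable {M : Type} [Monoid M]

/-- `K` witnesses that petals can be attached below the filter `G` along the gate `η` -/
def AdmW (G : Flt M) (η K : M) : Prop := K ∣ η ∧ η ≠ K ∧ ∀ D ∈ G, D ∣ K

def Adm (G : Flt M) (η : M) : Prop := ∃ K, AdmW G η K

/-- holography: a node containing `K` and a piece of `π` outside the gate belongs to `G` -/
def Hol (π K : M) (G : Flt M) (η : M) : Prop :=
  ∀ W Y, W ∣ K → W ∣ Y → π ∣ Y → ¬ η ∣ Y → W ∈ G

/-- two sequences of nodes generate the same filter -/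
def SeqEq (f g : ℕ → M) : Prop := (∀ n, ∃ m, f n ∣ g m) ∧ (∀ m, ∃ n, g m ∣ f n)

end GeoDef

/-- The properties of the monoid that the forcing argument uses. -/
structure Geo (M : Type) [Monoid M] where
  unit_eq : ∀ a b : M, a * b = 1 → a = 1
  meet : ∀ a b : M, ∃ m, IsMeet a b m
  k : M
  k_ne : k ≠ 1
  tri : ∀ T : Tri M, T.OK → ∃ X : Fin 3 → M, ∀ i j, i ≠ j →
    X i * T.e i j = X j * T.e j i ∧ IsMeet (X i) (X j) (X i * T.e i j)
  Tag : Type
  tagM : Nonempty (M ↪ Tag)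
  tagOm : Nonempty (Om ↪ Tag)
  tagSeq : Nonempty ((ℕ → Tag) ↪ Tag)
  gen : Flt M → M → M → Tag → Om → M
  gen_mul : ∀ G η α t r, Adm G η → gen G η α t r * α = η
  gen_le : ∀ G η α t r, Adm G η → ∀ D ∈ G, D ∣ gen G η α t r
  gen_nat : ∀ G η α t r c, Adm G η → c * gen G η α t r = gen (c • G) (c * η) α t r
  gen_meet : ∀ G η α t r α' t' r', Adm G η → (t, r) ≠ (t', r') →
    IsMeet (gen G η α t r) (gen G η α' t' r') η
  gen_hol : ∀ G η α t K, AdmW G η K → ∃ r0, ∀ r, r0 ≤ r → Hol (gen G η α t r) K G η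
  ctbl : ∀ F : Flt M, ∃ f : ℕ → M, (∀ n, f n ∈ F) ∧ ∀ x ∈ F, ∃ n, x ∣ f n
  iso : ∀ F : Flt M, ∃ Z : Set M, Z.Countable ∧ ∀ β β', β ∈ F → β' ∈ F →
    (∀ x, β * x ∈ F ↔ β' * x ∈ F) → ∃ γ, β * γ ∈ F ∧ β * γ ∈ Z ∧ β' * γ ∈ Z

/-- The stage structure ("letter system") of the monoid. -/
structure LSys (M : Type) [Monoid M] where
  Tag : Type
  tagM : Nonempty (M ↪ Tag)
  tagOm : Nonempty (Om ↪ Tag)
  tagSeq : Nonempty ((ℕ → Tag) ↪ Tag)
  /-- the stage at which a node is born -/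
  lab : M → WithBot Om
  k : M
  lab_bot : ∀ a, lab a = ⊥ ↔ ∃ n : ℕ, a = k ^ n
  pow_inj : ∀ n m : ℕ, k ^ n = k ^ m → n = m
  /-- letters (clusters) -/
  Let : Type
  lev : Let → Om
  code : Let → ℕ → M
  eta : Let → M
  tri : Let → Tri M
  tag : Let → Tag
  rho : Let → Om
  lab_code : ∀ l n, lab (code l n) < lev l
  lab_eta : ∀ l, lab (eta l) < lev l
  lab_al : ∀ l i, lab ((tri l).al i) < lev l
  lab_e : ∀ l i j, lab ((tri l).e i j) < lev l
  lab_c : ∀ l i j, lab ((tri l).c i j) < lev l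
  code_dir : ∀ l n m, ∃ p, code l n ∣ code l p ∧ code l m ∣ code l p
  adm : ∀ l, ∃ K, lab K < lev l ∧ K ∣ eta l ∧ eta l ≠ K ∧ ∀ n, code l n ∣ K
  tri_ok : ∀ l, (tri l).OKOn {z | lab z < lev l}
  rho_le : ∀ l, rho l ≤ lev l
  let_ext : ∀ l l', lev l = lev l' → SeqEq (code l) (code l') → eta l = eta l' → tri l = tri l' →
    tag l = tag l' → rho l = rho l' → l = l'
  untreated : ∀ l l0 b, lev l0 < lev l → lab b < lev l → tri l = tri l0 → tag l = tag l0 →
    rho l = rho l0 → SeqEq (code l) (fun n => b * code l0 n) → eta l = b * eta l0 → False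
  complete : ∀ (s : Om) (f : ℕ → M) (η : M) (T : Tri M) (t : Tag) (r : Om),
    (∀ n, lab (f n) < s) → lab η < s → (∀ i, lab (T.al i) < s) → (∀ i j, lab (T.e i j) < s) →
    (∀ i j, lab (T.c i j) < s) → (∀ n m, ∃ p, f n ∣ f p ∧ f m ∣ f p) →
    (∃ K, lab K < s ∧ K ∣ η ∧ η ≠ K ∧ ∀ n, f n ∣ K) → T.OKOn {z | lab z < s} → r ≤ s →
    ∃ l b, lev l ≤ s ∧ lab b < s ∧ (lev l = s → b = 1) ∧ tri l = T ∧ tag l = t ∧ rho l = r ∧
      SeqEq f (fun n => b * code l n) ∧ η = b * eta l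
  /-- old nodes act on letters -/
  act : M → Let → Let
  act_spec : ∀ a l, lab a < lev l → lev (act a l) = lev l ∧
    SeqEq (code (act a l)) (fun n => a * code l n) ∧ eta (act a l) = a * eta l ∧
    tri (act a l) = tri l ∧ tag (act a l) = tag l ∧ rho (act a l) = rho l
  act_div : ∀ a l, lab a < lev l → (∃ n, a ∣ code l n) → ∃ l', lev l' = lev l ∧ act a l' = l
  /-- normal words: a letter, a member index and a normal remainder -/
  cons : Let → Fin 3 → M → M
  len : M → ℕ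
  lab_cons : ∀ l j w, lab w ≤ lev l → ¬ (tri l).al j ∣ w → (∀ i < j, ¬ (tri l).e j i ∣ w) →
    lab (cons l j w) = lev l ∧ len (cons l j w) = (if lab w = lev l then len w else 0) + 1
  cons_inj : ∀ l j w l' j' w', lab w ≤ lev l → ¬ (tri l).al j ∣ w →
    (∀ i < j, ¬ (tri l).e j i ∣ w) → lab w' ≤ lev l' → ¬ (tri l').al j' ∣ w' →
    (∀ i < j', ¬ (tri l').e j' i ∣ w') → cons l j w = cons l' j' w' → l = l' ∧ j = j' ∧ w = w'
  exists_cons : ∀ a (s : Om), lab a = s → ∃ l j w, lev l = s ∧ lab w ≤ lev l ∧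
    ¬ (tri l).al j ∣ w ∧ (∀ i < j, ¬ (tri l).e j i ∣ w) ∧ a = cons l j w
  mul_cons : ∀ a l j w, lab a < lev l → lab w ≤ lev l → ¬ (tri l).al j ∣ w →
    (∀ i < j, ¬ (tri l).e j i ∣ w) → a * cons l j w = cons (act a l) j w
  cons_mul : ∀ l j w b, lab w ≤ lev l → ¬ (tri l).al j ∣ w → (∀ i < j, ¬ (tri l).e j i ∣ w) →
    lab b ≤ lev l →
    (∀ γ, w * b = (tri l).al j * γ → cons l j w * b = eta l * γ) ∧
    (¬ (tri l).al j ∣ w * b → ∀ i < j, ∀ γ, w * b = (tri l).e j i * γ →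
      cons l j w * b = cons l i ((tri l).e i j * γ)) ∧
    (¬ (tri l).al j ∣ w * b → (∀ i < j, ¬ (tri l).e j i ∣ w * b) →
      cons l j w * b = cons l j (w * b))
  lab_mul : ∀ a b, lab (a * b) ≤ max (lab a) (lab b)

end Crest.Agent.R296
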