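import Crest.Agent.R296.Pairs
import Crest.Agent.R296.Geo

/-!
Row 296: the conditions (countable partial functions on filters × countable ordinals), the
restriction lemma, supports.
-/

set_option autoImplicit false
set_option linter.unusedSectionVars false

namespace Crest.Agent.R296

variable {M : Type} [Monoid M] [IsLeftCancelMul M]

/-- conditions -/
@[ext] structure Cond (M : Type) [Monoid M] where
  f : Flt M × Om → Option Bool
  ctb : {x | f x ≠ none}.Countable

namespace Cond

instance : Preorder (Cond M) where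
  le q p := ∀ x b, p.f x = some b → q.f x = some b
  le_refl _ _ _ h := h
  le_trans _ _ _ h1 h2 x b h := h1 x b (h2 x b h)

theorem le_def {p q : Cond M} : q ≤ p ↔ ∀ x b, p.f x = some b → q.f x = some b := Iff.rfl

instance : OrderTop (Cond M) where
  top := ⟨fun _ => none, by simp⟩
  le_top _ _ _ h := by cases h

open Classical in
noncomputable instance : SMul M (Cond M) where
  smul a p :=
    { f := fun x => if h : a ∈ x.1 then p.f (x.1.quot a h, x.2) else none
      ctb := by
        refine (p.ctb.image fun y => (a • y.1, y.2)).mono ?_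
        rintro ⟨i, z⟩ hx
        by_cases h : a ∈ i
        · refine ⟨(i.quot a h, z), by simpa [h] using hx, ?_⟩
          simp [Flt.smul_quot]
        · simp [h] at hx }

open Classical in
theorem smul_f (a : M) (p : Cond M) (x : Flt M × Om) :
    (a • p).f x = if h : a ∈ x.1 then p.f (x.1.quot a h, x.2) else none := rfl

theorem smul_f_smul (a : M) (p : Cond M) (i : Flt M) (z : Om) :
    (a • p).f (a • i, z) = p.f (i, z) := by
  rw [smul_f, dif_pos (Flt.self_mem_smul a i)]
  congr 2
  exact Flt.smul_injective a (Flt.smul_quot _ _ _)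

theorem smul_f_eq_some {a : M} {p : Cond M} {i : Flt M} {z : Om} {b : Bool} :
    (a • p).f (i, z) = some b ↔ ∃ j, i = a • j ∧ p.f (j, z) = some b := by
  constructor
  · intro h
    by_cases ha : a ∈ i
    · obtain ⟨j, rfl⟩ := Flt.mem_iff_exists_smul.1 ha
      exact ⟨j, rfl, by rwa [smul_f_smul] at h⟩
    · simp [smul_f, ha] at h
  · rintro ⟨j, rfl, h⟩
    rwa [smul_f_smul]

theorem ext_some {p q : Cond M} (h : ∀ i z b, p.f (i, z) = some b ↔ q.f (i, z) = some b) :
    p = q := by
  refine Cond.ext (funext ?_)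
  rintro ⟨i, z⟩
  exact Option.ext fun b => h i z b

noncomputable instance : MulAction M (Cond M) where
  one_smul p := ext_some fun i z b => by
    rw [smul_f_eq_some]
    simp
  mul_smul a c p := ext_some fun i z b => by
    simp only [smul_f_eq_some]
    constructor
    · rintro ⟨j, rfl, h⟩
      exact ⟨c • j, mul_smul _ _ _, j, rfl, h⟩
    · rintro ⟨_, rfl, j, rfl, h⟩
      exact ⟨j, (mul_smul _ _ _).symm, h⟩

theorem le_smul_iff {a : M} {p r : Cond M} :
    r ≤ a • p ↔ ∀ i z b, p.f (i, z) = some b → r.f (a • i, z) = some b := by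
  constructor
  · intro h i z b k
    exact h _ b (by rwa [smul_f_smul])
  · rintro h ⟨i, z⟩ b k
    obtain ⟨j, rfl, k'⟩ := smul_f_eq_some.1 k
    exact h j z b k'

instance : Frame M (Cond M) where
  mono c p q h := le_smul_iff.2 fun i z b k => by rw [smul_f_smul]; exact h _ b k
  smul_top c := ext_some fun i z b => by
    rw [smul_f_eq_some]
    constructor
    · rintro ⟨j, _, h⟩; cases h
    · intro h; cases h

/-- restriction of a condition to the node `a` -/
def pull (a : M) (r : Cond M) : Cond M where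
  f x := r.f (a • x.1, x.2)
  ctb := by
    refine Set.Countable.mono ?_ (r.ctb.preimage_of_injOn (f := fun x : Flt M × Om =>
      (a • x.1, x.2)) ?_)
    · intro x hx; exact hx
    · rintro ⟨i, z⟩ _ ⟨j, w⟩ _ h
      simp only [Prod.mk.injEq] at h
      exact Prod.ext (Flt.smul_injective a h.1) h.2

theorem pull_f (a : M) (r : Cond M) (i : Flt M) (z : Om) :
    (pull a r).f (i, z) = r.f (a • i, z) := rfl

theorem le_smul_iff_pull {a : M} {p r : Cond M} : r ≤ a • p ↔ pull a r ≤ p := by
  rw [le_smul_iff]
  exact ⟨fun h ⟨i, z⟩ b k => h i z b k, fun h i z b k => h (i, z) b k⟩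

theorem le_smul_pull (a : M) (r : Cond M) : r ≤ a • pull a r := le_smul_iff_pull.2 le_rfl

theorem pull_mul (a b : M) (r : Cond M) : pull (a * b) r = pull b (pull a r) :=
  ext_some fun i z c => by simp [pull_f, mul_smul]

theorem pull_mono (a : M) {r s : Cond M} (h : r ≤ s) : pull a r ≤ pull a s :=
  fun x b k => h (a • x.1, x.2) b k

theorem pull_smul (a : M) (p : Cond M) : pull a (a • p) = p :=
  ext_some fun i z c => by rw [pull_f, smul_f_smul]

/-- compatibility -/
def Compat (p q : Cond M) : Prop := ∀ x b b', p.f x = some b → q.f x = some b' → b = b'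

theorem Compat.symm {p q : Cond M} (h : Compat p q) : Compat q p :=
  fun x b b' h1 h2 => (h x b' b h2 h1).symm

theorem compat_of_le {p q r : Cond M} (h1 : r ≤ p) (h2 : r ≤ q) : Compat p q := by
  intro x b b' k1 k2
  have := (h1 x b k1).symm.trans (h2 x b' k2)
  simpa using this

theorem Compat.mono {p q p' q' : Cond M} (h : Compat p q) (h1 : p ≤ p') (h2 : q ≤ q') :
    Compat p' q' := fun x b b' k1 k2 => h x b b' (h1 x b k1) (h2 x b' k2)

theorem Compat.pull {p q : Cond M} (h : Compat p q) (a : M) : Compat (pull a p) (pull a q) :=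
  fun x b b' k1 k2 => h (a • x.1, x.2) b b' k1 k2

theorem compat_smul_iff {p q : Cond M} {a : M} : Compat p (a • q) ↔ Compat (pull a p) q := by
  constructor
  · intro h
    simpa [pull_smul] using h.pull a
  · rintro h ⟨i, z⟩ b b' k1 k2
    obtain ⟨j, rfl, k3⟩ := smul_f_eq_some.1 k2
    exact h (j, z) b b' k1 k3

/-- union of two conditions -/
def union (p q : Cond M) : Cond M where
  f x := (p.f x).or (q.f x)
  ctb := (p.ctb.union q.ctb).mono fun x hx => by
    by_contra h
    simp only [Set.mem_union, Set.mem_setOf_eq, not_or, not_not] at h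
    simp [h.1, h.2] at hx

theorem union_le_left (p q : Cond M) : union p q ≤ p := fun x b h => by simp [union, h]

theorem union_le_right {p q : Cond M} (h : Compat p q) : union p q ≤ q := fun x b k => by
  cases e : p.f x with
  | none => simp [union, e, k]
  | some b' => simp [union, e, h x b' b e k]

theorem union_f_eq_some {p q : Cond M} {x : Flt M × Om} {b : Bool}
    (h : (union p q).f x = some b) : p.f x = some b ∨ q.f x = some b := by
  cases e : p.f x with
  | none => right; simpa [union, e] using h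
  | some b' => left; simpa [union, e] using h

theorem Compat.exists_le {p q : Cond M} (h : Compat p q) : ∃ r, r ≤ p ∧ r ≤ q :=
  ⟨union p q, union_le_left p q, union_le_right h⟩

theorem Compat.union {p q r : Cond M} (h1 : Compat p r) (h2 : Compat q r) :
    Compat (union p q) r := fun x b b' k1 k2 =>
  (union_f_eq_some k1).elim (fun k => h1 x b b' k k2) (fun k => h2 x b b' k k2)

theorem compat_of_meet {X0 X1 e0 e1 : M} (he : X0 * e0 = X1 * e1) (hm : IsMeet X0 X1 (X0 * e0))
    {r s : Cond M} (h : Compat (pull e0 r) (pull e1 s)) : Compat (X0 • r) (X1 • s) := by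
  rintro ⟨i, z⟩ b b' k1 k2
  obtain ⟨i0, h0, k1⟩ := smul_f_eq_some.1 k1
  obtain ⟨i1, h1, k2⟩ := smul_f_eq_some.1 k2
  have hi : X0 * e0 ∈ i := Flt.meet_mem hm (h0 ▸ Flt.self_mem_smul _ _) (h1 ▸ Flt.self_mem_smul _ _)
  obtain ⟨j, hj⟩ := Flt.mem_iff_exists_smul.1 hi
  have e0' : i0 = e0 • j := Flt.smul_injective X0 (by
    show X0 • i0 = X0 • e0 • j
    rw [← mul_smul, hj, h0])
  have e1' : i1 = e1 • j := Flt.smul_injective X1 (by
    show X1 • i1 = X1 • e1 • j
    rw [← mul_smul, ← he, hj, h1])
  subst e0' e1'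
  exact h (j, z) b b' k1 k2

theorem le_union {p q r : Cond M} (h1 : r ≤ p) (h2 : r ≤ q) : r ≤ union p q := fun x b k =>
  (union_f_eq_some k).elim (h1 x b) (h2 x b)

theorem pull_union (a : M) (p q : Cond M) : pull a (union p q) = union (pull a p) (pull a q) := rfl

/-- Beck–Chevalley -/
theorem pull_smul_of_meet {X0 X1 e0 e1 : M} (he : X0 * e0 = X1 * e1)
    (hm : IsMeet X0 X1 (X0 * e0)) (p : Cond M) : pull X0 (X1 • p) = e0 • pull e1 p := by
  refine ext_some fun i z b => ?_
  rw [pull_f, smul_f_eq_some, smul_f_eq_some]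
  constructor
  · rintro ⟨i1, h1, k⟩
    have hi : X0 * e0 ∈ X0 • i :=
      Flt.meet_mem hm (Flt.self_mem_smul _ _) (h1 ▸ Flt.self_mem_smul _ _)
    obtain ⟨j, rfl⟩ := Flt.mem_iff_exists_smul.1 (Flt.mul_mem_smul_iff.1 hi)
    have e1' : i1 = e1 • j := Flt.smul_injective X1 (by
      show X1 • i1 = X1 • e1 • j
      rw [← mul_smul, ← he, mul_smul, h1])
    subst e1'
    exact ⟨j, rfl, k⟩
  · rintro ⟨j, rfl, k⟩
    exact ⟨e1 • j, by rw [← mul_smul, ← mul_smul, he], k⟩

/-- countably many pairwise compatible conditions have a common extension -/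
theorem exists_le_seq (g : ℕ → Cond M) (h : ∀ n m, Compat (g n) (g m)) : ∃ q, ∀ n, q ≤ g n := by
  classical
  refine ⟨⟨fun x => if h : ∃ n, (g n).f x ≠ none then (g h.choose).f x else none, ?_⟩, ?_⟩
  · refine (Set.countable_iUnion fun n => (g n).ctb).mono fun x hx => ?_
    by_contra k
    simp only [Set.mem_iUnion, Set.mem_setOf_eq] at k
    simp only [Set.mem_setOf_eq, dif_neg k] at hx
    exact hx rfl
  · intro n x b k
    have h1 : ∃ n, (g n).f x ≠ none := ⟨n, by simp [k]⟩
    obtain ⟨b', hb'⟩ := Option.ne_none_iff_exists'.1 h1.choose_spec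
    show (if h : ∃ n, (g n).f x ≠ none then (g h.choose).f x else none) = some b
    rw [dif_pos h1, hb', h _ _ x b' b hb' k]

/-- a coordinate that a condition does not use -/
theorem exists_fresh (p : Cond M) : ∃ z0 : Om, ∀ z, z0 ≤ z → ∀ i, p.f (i, z) = none := by
  obtain ⟨z0, h⟩ := Om.exists_gt (p.ctb.image Prod.snd)
  refine ⟨z0, fun z hz i => ?_⟩
  by_contra k
  exact absurd (h z ⟨(i, z), k, rfl⟩) (not_lt.2 hz)

open Classical in
/-- a condition with one value -/
noncomputable def single (x : Flt M × Om) (b : Bool) : Cond M where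
  f y := if y = x then some b else none
  ctb := (Set.countable_singleton x).mono fun y hy => by
    by_contra h
    simp only [Set.mem_singleton_iff] at h
    simp [h] at hy

theorem le_single_iff {x : Flt M × Om} {b : Bool} {r : Cond M} :
    r ≤ single x b ↔ r.f x = some b := by
  constructor
  · intro h; exact h x b (by simp [single])
  · intro h y c k
    by_cases e : y = x
    · subst e
      simp [single] at k
      rw [h, k]
    · simp [single, e] at k

theorem compat_single {x : Flt M × Om} {b : Bool} {r : Cond M} (h : r.f x = none) :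
    Compat r (single x b) := by
  intro y c c' k1 k2
  by_cases e : y = x
  · subst e; rw [h] at k1; cases k1
  · simp [single, e] at k2

theorem le_smul_single_iff {a : M} {i : Flt M} {z : Om} {b : Bool} {r : Cond M} :
    r ≤ a • single (i, z) b ↔ r.f (a • i, z) = some b := by
  rw [le_smul_iff_pull, le_single_iff, pull_f]

/-- two different filters can be given different values -/
theorem exists_separate (p : Cond M) {i j : Flt M} (h : i ≠ j) {z : Om}
    (hz : ∀ i, p.f (i, z) = none) :
    ∃ q ≤ p, q.f (i, z) = some true ∧ q.f (j, z) = some false ∧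
      ∀ x b, q.f x = some b → p.f x = some b ∨ x.2 = z := by
  have h1 : Compat p (single (i, z) true) := compat_single (hz i)
  have h2 : Compat (union p (single (i, z) true)) (single (j, z) false) := by
    refine compat_single ?_
    simp [union, hz j, single, h.symm]
  refine ⟨union (union p (single (i, z) true)) (single (j, z) false),
    (union_le_left _ _).trans (union_le_left _ _),
    le_single_iff.1 ((union_le_left _ _).trans (union_le_right h1)),
    le_single_iff.1 (union_le_right h2), fun x b k => ?_⟩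
  rcases union_f_eq_some k with k | k
  · rcases union_f_eq_some k with k | k
    · exact Or.inl k
    · right
      by_contra e
      have : x ≠ (i, z) := fun e' => e (by rw [e'])
      simp [single, this] at k
  · right
    by_contra e
    have : x ≠ (j, z) := fun e' => e (by rw [e'])
    simp [single, this] at k

end Cond

open Cond

/-- terms over the concrete conditions -/
abbrev T (M : Type) [Monoid M] := Tm M (Cond M)

namespace Geo
variable (G : Geo M)
include G

theorem amalg (a b : M) : ∃ X0 X1 : M, X0 * a = X1 * b ∧ IsMeet X0 X1 (X0 * a) := by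
  obtain ⟨X, h⟩ := G.tri ⟨![a, b, 1], fun i _ => ![a, b, 1] i, fun _ _ => 1⟩
    ⟨fun i j _ => mul_one _, fun _ _ _ => rfl, fun i j l _ _ _ z _ h _ => h⟩
  exact ⟨X 0, X 1, h 0 1 (by decide)⟩

theorem dvd_antisymm {a b : M} (h1 : a ∣ b) (h2 : b ∣ a) : a = b := by
  obtain ⟨c, rfl⟩ := h1
  obtain ⟨d, hd⟩ := h2
  have : c * d = 1 := mul_left_cancel (a := a) (by rw [← mul_assoc, ← hd, mul_one])
  rw [G.unit_eq c d this, mul_one]

theorem princ_inj {a b : M} (h : Flt.princ a = Flt.princ b) : a = b :=
  G.dvd_antisymm (Flt.mem_princ.1 (h ▸ Flt.mem_princ.2 dvd_rfl))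
    (Flt.mem_princ.1 (h.symm ▸ Flt.mem_princ.2 dvd_rfl))

/-- the restriction lemma -/
theorem restrict {Φ : M → Cond M → Prop}
    (mono : ∀ c r d s, Φ c r → s ≤ d • r → Φ (d * c) s) {a : M} {r : Cond M} (h : Φ a r) :
    Dense (pull a r) Φ := by
  intro β s hs
  obtain ⟨X0, X1, h1, h2⟩ := G.amalg a β
  have h3 : Compat (X0 • r) (X1 • s) :=
    compat_of_meet h1 h2 (compat_of_le (le_smul_iff_pull.1 hs) le_rfl)
  obtain ⟨u, h4, h5⟩ := h3.exists_le
  exact ⟨X1, u, h5, h1 ▸ mono a r X0 u h h4⟩

theorem teq_pull {a : M} {r : Cond M} {t t' : T M} (h : TEq r (a • t) (a • t')) :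
    TEq (pull a r) t t' :=
  TEq.of_dense (G.restrict (Φ := fun c r => TEq r (c • t) (c • t'))
    (fun c r d s k hs => by simpa only [mul_smul] using k.mono hs) h)

theorem mem_pull {a : M} {r : Cond M} {t t' : T M} (h : Mem r (a • t) (a • t')) :
    Mem (pull a r) t t' :=
  Mem.of_dense (G.restrict (Φ := fun c r => Mem r (c • t) (c • t'))
    (fun c r d s k hs => by simpa only [mul_smul] using k.mono hs) h)

/-- zigzag through a triangle -/
theorem teq_of_disjoint {p r : Cond M} {t u1 u2 : T M} {d1 d2 c1 c2 a b : M}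
    (h1 : TEq p t (d1 • u1)) (h2 : TEq p t (d2 • u2)) (hc : d1 * c1 = d2 * c2)
    (hm : IsMeet d1 d2 (d1 * c1)) (hab : a * c1 = b * c1) (hm' : IsMeet a b (a * c1))
    (ha : r ≤ a • pull d1 p) (hb : r ≤ b • pull d1 p) : TEq r (a • u1) (b • u1) := by
  obtain ⟨X, h⟩ := G.tri ⟨![a * c1, d1 * c1, d1 * c1],
      ![![1, a, b], ![d1, 1, d2], ![d1, d2, 1]], ![![1, c1, c1], ![c1, 1, c2], ![c1, c2, 1]]⟩ (by
    refine ⟨fun i j hij => ?_, fun i j hij => ?_, fun i j l hij hil hjl z _ k1 k2 => ?_⟩
    · fin_cases i <;> fin_cases j <;> simp_all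
    · fin_cases i <;> fin_cases j <;> simp_all
    · fin_cases i <;> fin_cases j <;> fin_cases l <;>
        first
        | exact absurd rfl hij
        | exact absurd rfl hil
        | exact absurd rfl hjl
        | exact (hm' z).1 ⟨k1, k2⟩
        | exact (hm' z).1 ⟨k2, k1⟩
        | exact (hm z).1 ⟨k1, k2⟩
        | exact (hm z).1 ⟨k2, k1⟩)
  obtain ⟨e01, m01⟩ : X 0 * a = X 1 * d1 ∧ IsMeet (X 0) (X 1) (X 0 * a) := h 0 1 (by decide)
  obtain ⟨e02, m02⟩ : X 0 * b = X 2 * d1 ∧ IsMeet (X 0) (X 2) (X 0 * b) := h 0 2 (by decide)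
  obtain ⟨e12, m12⟩ : X 1 * d2 = X 2 * d2 ∧ IsMeet (X 1) (X 2) (X 1 * d2) := h 1 2 (by decide)
  have c01 : Compat (X 0 • r) (X 1 • p) :=
    compat_of_meet e01 m01 (compat_of_le le_rfl (le_smul_iff_pull.1 ha))
  have c02 : Compat (X 0 • r) (X 2 • p) :=
    compat_of_meet e02 m02 (compat_of_le le_rfl (le_smul_iff_pull.1 hb))
  have c12 : Compat (X 1 • p) (X 2 • p) := compat_of_meet e12 m12 (compat_of_le le_rfl le_rfl)
  let s := union (X 0 • r) (union (X 1 • p) (X 2 • p))
  have s0 : s ≤ X 0 • r := union_le_left _ _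
  have s12 : s ≤ union (X 1 • p) (X 2 • p) :=
    union_le_right (Compat.union c01.symm c02.symm).symm
  have s1 : s ≤ X 1 • p := s12.trans (union_le_left _ _)
  have s2 : s ≤ X 2 • p := s12.trans (union_le_right c12)
  have k : TEq s (X 0 • a • u1) (X 0 • b • u1) := by
    have k1 := h1.mono s1
    have k2 := h2.mono s1
    have k3 := h1.mono s2
    have k4 := h2.mono s2
    rw [← mul_smul] at k1 k2 k3 k4
    rw [← mul_smul, ← mul_smul, e01, e02]
    rw [e12] at k2
    exact k1.symm.trans (k2.trans (k4.symm.trans k3))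
  refine (G.teq_pull k).mono1 ?_
  show r ≤ pull (X 0) (union (X 0 • r) (union (X 1 • p) (X 2 • p)))
  rw [pull_union, pull_union, pull_smul, pull_smul_of_meet e01 m01, pull_smul_of_meet e02 m02]
  exact le_union le_rfl (le_union ha hb)

end Geo

end Crest.Agent.R296
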