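import Crest.Agent.R296.Basic

/-!
Row 296: every filter is countably generated, and germs of self-similarities are countably many.
-/

set_option autoImplicit false

namespace Crest.Agent.R296

theorem Om.flt_countable_Iio (x : WithBot Om) : (Set.Iio x).Countable := by
  induction x using WithBot.recBotCoe with
  | bot => simp
  | coe s =>
    refine (((Om.countable_Iio s).image fun t => (t : WithBot Om)).insert ⊥).mono fun y hy => ?_
    induction y using WithBot.recBotCoe with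
    | bot => exact Set.mem_insert _ _
    | coe t => exact Set.mem_insert_of_mem _ ⟨t, WithBot.coe_lt_coe.1 hy, rfl⟩

theorem Om.flt_exists_gt_seq (f : ℕ → WithBot Om) : ∃ r : Om, ∀ n, f n < r := by
  obtain ⟨r, hr⟩ := Om.exists_gt (S := {s : Om | ∃ n, f n = s})
    ((Set.countable_range f).preimage_of_injOn (f := fun t : Om => (t : WithBot Om))
      WithBot.coe_injective.injOn)
  refine ⟨r, fun n => ?_⟩
  induction h : f n using WithBot.recBotCoe with
  | bot => exact WithBot.bot_lt_coe r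
  | coe s => exact WithBot.coe_lt_coe.2 (hr s ⟨n, h⟩)

namespace LSys

variable {M : Type} [Monoid M] [IsLeftCancelMul M] (S : LSys M)

theorem flt_quot_quot (G : Flt M) {a b : M} (ha : a ∈ G) (hb : b ∈ G.quot a ha)
    {c : M} (hc : c ∈ G) (e : a * b = c) : (G.quot a ha).quot b hb = G.quot c hc :=
  Flt.ext' fun x => by simp only [Flt.mem_quot, ← e, mul_assoc]

/-- canonical members of a filter -/
inductive Can : Flt M → M → Prop
  | base {G : Flt M} {n : ℕ} : S.k ^ n ∈ G → Can G (S.k ^ n)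
  | cons {G : Flt M} {l : S.Let} {j : Fin 3} {w : M} (h : S.X l j ∈ G) : S.Norm l j w →
      S.eta l ∉ G → Can (G.quot (S.X l j) h) w → Can G (S.cons l j w)

variable {S}

theorem Can.mem {G : Flt M} {w : M} (h : S.Can G w) : w ∈ G := by
  induction h with
  | base h => exact h
  | cons h hn _ _ ih => rw [← S.X_mul_norm hn]; exact ih

theorem can_cases {G : Flt M} {z : M} (h : S.Can G z) : S.lab z = ⊥ ∨
    ∃ (l : S.Let) (j : Fin 3) (w : M) (h : S.X l j ∈ G), S.Norm l j w ∧ S.eta l ∉ G ∧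
      S.Can (G.quot (S.X l j) h) w ∧ z = S.cons l j w := by
  cases h with
  | base h => exact Or.inl ((S.lab_bot _).2 ⟨_, rfl⟩)
  | cons h hn he hc => exact Or.inr ⟨_, _, _, h, hn, he, hc, rfl⟩

theorem can_cons_iff {G : Flt M} {l : S.Let} {j : Fin 3} {w : M} (hn : S.Norm l j w) :
    S.Can G (S.cons l j w) ↔ ∃ h : S.X l j ∈ G, S.eta l ∉ G ∧ S.Can (G.quot (S.X l j) h) w := by
  refine ⟨fun h => ?_, fun ⟨h, he, hc⟩ => Can.cons h hn he hc⟩
  rcases can_cases h with h | ⟨l', j', w', h, hn', he, hc, e⟩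
  · rw [S.lab_cons' hn] at h
    exact absurd h WithBot.coe_ne_bot
  · obtain ⟨rfl, rfl, rfl⟩ := S.cons_inj _ _ _ _ _ _ hn.1 hn.2.1 hn.2.2 hn'.1 hn'.2.1 hn'.2.2 e
    exact ⟨h, he, hc⟩

theorem can_of_bot {G : Flt M} {z : M} (h : S.lab z = ⊥) (hz : z ∈ G) : S.Can G z := by
  obtain ⟨n, rfl⟩ := (S.lab_bot _).1 h
  exact Can.base hz

theorem flt_lab_cases (a : M) :
    S.lab a = ⊥ ∨ ∃ l j w, S.Norm l j w ∧ a = S.cons l j w ∧ S.lab a = S.lev l := by
  induction h : S.lab a using WithBot.recBotCoe with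
  | bot => exact Or.inl rfl
  | coe s =>
    obtain ⟨l, j, w, h1, h2, h3⟩ := S.exists_norm h
    exact Or.inr ⟨l, j, w, h2, h3, by rw [h1]⟩

/-- old times new -/
theorem can_old_new {G : Flt M} {a z : M} (ha : a ∈ G) (h : S.lab a < S.lab z) :
    S.Can (G.quot a ha) z ↔ S.Can G (a * z) := by
  rcases flt_lab_cases (S := S) z with h0 | ⟨l, j, w, hn, rfl, hl⟩
  · rw [h0] at h; exact absurd h not_lt_bot
  rw [hl] at h
  obtain ⟨e1, -, e2, e3, -, -⟩ := S.act_spec a l h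
  have hn' : S.Norm (S.act a l) j w := by
    unfold Norm
    rw [e1, e3]
    exact hn
  have eX := S.act_X h j
  rw [S.mul_cons a l j w h hn.1 hn.2.1 hn.2.2, can_cons_iff hn, can_cons_iff hn', e2]
  constructor
  · rintro ⟨h1, h2, h3⟩
    have h1' : S.X (S.act a l) j ∈ G := eX ▸ h1
    exact ⟨h1', h2, by rwa [flt_quot_quot G ha h1 h1' eX] at h3⟩
  · rintro ⟨h1, h2, h3⟩
    have h1' : S.X l j ∈ G.quot a ha := by rw [Flt.mem_quot, eX]; exact h1
    exact ⟨h1', h2, by rwa [flt_quot_quot G ha h1' h1 eX]⟩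

theorem flt_X_dvd_cons {l : S.Let} {j : Fin 3} {w : M} (hn : S.Norm l j w) :
    S.X l j ∣ S.cons l j w := ⟨w, (S.X_mul_norm hn).symm⟩

theorem flt_not_eta_dvd_cons {l : S.Let} {j : Fin 3} {w : M} (hn : S.Norm l j w) :
    ¬ S.eta l ∣ S.cons l j w := by
  rw [← S.X_mul_norm hn, ← S.X_mul_al l j, dvd_cancel]
  exact hn.2.1

theorem flt_norm_of_mem {G : Flt M} {l : S.Let} {j : Fin 3} {c : M} (hc : S.X l j * c ∈ G)
    (he : S.eta l ∉ G) (hs : ¬ ∃ i < j, S.X l i ∈ G) (hl : S.lab c ≤ S.lev l) : S.Norm l j c := by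
  refine ⟨hl, fun h => he ?_, fun i hi h => hs ⟨i, hi, ?_⟩⟩
  · rw [← S.X_mul_al l j]
    exact Flt.up hc (mul_dvd_mul_left _ h)
  · have h1 := Flt.up hc (mul_dvd_mul_left _ h)
    rw [S.X_mul_e l hi.ne'] at h1
    exact Flt.up h1 (Dvd.intro _ rfl)

omit [IsLeftCancelMul M] in
theorem Prec.flt_lab_le {a b : M} (h : S.Prec a b) : S.lab a ≤ S.lab b := by
  rcases h with h | h
  · exact h.le
  · exact h.1.le

/-- (1) the canonical members are coinitial -/
theorem can_coinitial (E : M) : ∀ G : Flt M, E ∈ G → ∃ c, S.Can G c ∧ E ∣ c := by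
  induction E using S.prec_wf.induction with
  | _ E ih =>
  intro G hE
  rcases flt_lab_cases (S := S) E with h0 | ⟨l, j, w, hn, rfl, hl⟩
  · exact ⟨E, can_of_bot h0 hE, dvd_rfl⟩
  have hX : S.X l j ∈ G := Flt.up hE (flt_X_dvd_cons hn)
  have hw : w ∈ G.quot _ hX := by rw [Flt.mem_quot, S.X_mul_norm hn]; exact hE
  by_cases he : S.eta l ∈ G
  · obtain ⟨m, hm, -⟩ := S.exists_meet (S.eta l) (S.cons l j w)
    obtain ⟨c, h1, h2⟩ := ih m (S.prec_meet (hl ▸ S.lab_eta l) (flt_not_eta_dvd_cons hn) hm) G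
      (Flt.meet_mem hm he hE)
    exact ⟨c, h1, hm.right.trans h2⟩
  by_cases hs : ∃ i < j, S.X l i ∈ G
  · obtain ⟨i, hij, hi⟩ := hs
    have h1 : (S.tri l).e j i ∈ G.quot _ hX :=
      Flt.mem_quot.2 (Flt.meet_mem (S.X_meet_sib l hij.ne') hX hi)
    obtain ⟨m, hm, -⟩ := S.exists_meet w ((S.tri l).e j i)
    obtain ⟨γ, rfl⟩ := hm.right
    have h2 : S.X l j * ((S.tri l).e j i * γ) ∈ G := Flt.mem_quot.1 (Flt.meet_mem hm hw h1)
    have e : S.X l i * ((S.tri l).e i j * γ) = S.X l j * ((S.tri l).e j i * γ) := by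
      rw [← mul_assoc, S.X_mul_e l hij.ne, mul_assoc]
    obtain ⟨c, h3, h4⟩ := ih _ (S.prec_sib hn hij hm) G (e ▸ h2)
    refine ⟨c, h3, Dvd.dvd.trans ?_ h4⟩
    rw [e, ← S.X_mul_norm hn]
    exact mul_dvd_mul_left _ hm.left
  · obtain ⟨c, h1, h2⟩ := ih w (S.prec_rest hn) _ hw
    refine ⟨S.X l j * c, ?_, by rw [← S.X_mul_norm hn]; exact mul_dvd_mul_left _ h2⟩
    rcases le_or_gt (S.lab c) (S.lev l) with h | h
    · have hn' := flt_norm_of_mem h1.mem he hs h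
      rw [S.X_mul_norm hn']
      exact Can.cons hX hn' he h1
    · exact (can_old_new hX ((S.lab_X_le l j).trans_lt h)).1 h1

variable (S) in
/-- essential letters of a filter -/
def Ess (G : Flt M) (l : S.Let) : Prop := (∃ j, S.X l j ∈ G) ∧ S.eta l ∉ G

theorem Ess.unique {G : Flt M} {l l' : S.Let} (h : S.Ess G l) (h' : S.Ess G l')
    (hl : S.lev l = S.lev l') : l = l' := by
  by_contra hne
  obtain ⟨j, hj⟩ := h.1
  obtain ⟨j', hj'⟩ := h'.1
  obtain ⟨z, hz, h1, h2⟩ := G.dir hj hj'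
  rcases S.eta_not_mem_or l l' with h3 | h3
  · exact h.2 (Flt.up hz (S.X_meet_of_ne hl hne h3 h1 h2))
  · exact h'.2 (Flt.up hz (S.X_meet_of_ne hl.symm (Ne.symm hne) h3 h2 h1))

theorem Ess.mem_ctr_iff {G : Flt M} {l : S.Let} (h : S.Ess G l) {W : M} (hW : S.lab W < S.lev l) :
    W ∈ S.ctr l ↔ W ∈ G := by
  obtain ⟨j, hj⟩ := h.1
  refine ⟨fun h1 => Flt.up hj (S.ctr_dvd_X j h1), fun h1 => ?_⟩
  obtain ⟨z, hz, h2, h3⟩ := G.dir h1 hj
  exact S.mem_ctr_of_new hW h2 h3 fun h4 => h.2 (Flt.up hz h4)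

theorem Ess.old_dvd {G : Flt M} {l : S.Let} (h : S.Ess G l) {W : M} (hW : S.lab W < S.lev l)
    (h1 : W ∈ G) (j : Fin 3) : W ∣ S.X l j := S.ctr_dvd_X j ((h.mem_ctr_iff hW).2 h1)

/-- (2) countably many canonical members below every level -/
theorem can_countable (x : WithBot Om) :
    ∀ G : Flt M, {w | S.Can G w ∧ S.lab w ≤ x}.Countable := by
  induction x using WellFoundedLT.induction with
  | _ x ih =>
  have low : ∀ G : Flt M, {w | S.Can G w ∧ S.lab w < x}.Countable := fun G =>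
    ((Om.flt_countable_Iio x).biUnion fun y hy => ih y hy G).mono fun w hw =>
      Set.mem_iUnion₂.2 ⟨S.lab w, hw.2, And.intro hw.1 le_rfl⟩
  induction x using WithBot.recBotCoe with
  | bot =>
    intro G
    refine (Set.countable_range fun n : ℕ => S.k ^ n).mono fun w hw => ?_
    obtain ⟨n, rfl⟩ := (S.lab_bot w).1 (le_bot_iff.1 hw.2)
    exact ⟨n, rfl⟩
  | coe s =>
    have key : ∀ (n : ℕ) (G : Flt M),
        {w | S.Can G w ∧ S.lab w ≤ s ∧ S.lenAt s w ≤ n}.Countable := by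
      intro n
      induction n with
      | zero =>
        intro G
        refine (low G).mono fun w hw => And.intro hw.1 (lt_of_le_of_ne hw.2.1 fun h => ?_)
        obtain ⟨l, j, w', rfl, hn, rfl⟩ := S.exists_norm h
        have := hw.2.2
        rw [S.lenAt_cons hn] at this
        omega
      | succ n ihn =>
        intro G
        have hT : {p : S.Let × Fin 3 | S.Ess G p.1 ∧ S.lev p.1 = s}.Countable := by
          have h1 : {l : S.Let | S.Ess G l ∧ S.lev l = s}.Subsingleton :=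
            fun l hl l' hl' => hl.1.unique hl'.1 (hl.2.trans hl'.2.symm)
          exact (h1.countable.prod (Set.countable_univ (α := Fin 3))).mono
            fun p hp => And.intro hp trivial
        have hU := hT.biUnion (t := fun p _ => ⋃ h : S.X p.1 p.2 ∈ G, S.cons p.1 p.2 ''
          {w | S.Can (G.quot _ h) w ∧ S.lab w ≤ s ∧ S.lenAt s w ≤ n})
          fun p _ => Set.countable_iUnion fun h => (ihn _).image _
        refine ((low G).union hU).mono fun w hw => ?_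
        rcases hw.2.1.eq_or_lt with h | h
        · obtain ⟨l, j, w', rfl, hn, rfl⟩ := S.exists_norm h
          obtain ⟨h1, h2, h3⟩ := (can_cons_iff hn).1 hw.1
          have h4 := hw.2.2
          rw [S.lenAt_cons hn] at h4
          refine Or.inr (Set.mem_iUnion₂.2 ⟨(l, j), ⟨⟨⟨j, h1⟩, h2⟩, rfl⟩, ?_⟩)
          exact Set.mem_iUnion.2 ⟨h1, w', ⟨h3, hn.1, by omega⟩, rfl⟩
        · exact Or.inl ⟨hw.1, h⟩
    intro G
    exact (Set.countable_iUnion fun n => key n G).mono fun w hw =>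
      Set.mem_iUnion.2 ⟨S.lenAt s w, And.intro hw.1 (And.intro hw.2 le_rfl)⟩

variable (S) in
/-- the essential levels are unbounded -/
def Tall (G : Flt M) : Prop := ∀ r : Om, ∃ l, S.Ess G l ∧ r < S.lev l

/-- every sequence of members has a common multiple -/
def SeqCl (G : Flt M) : Prop := ∀ f : ℕ → M, (∀ n, f n ∈ G) → ∃ D ∈ G, ∀ n, f n ∣ D

omit [IsLeftCancelMul M] in
theorem Tall.above {G : Flt M} (h : S.Tall G) (f : ℕ → WithBot Om) :
    ∃ l, S.Ess G l ∧ ∀ n, f n < S.lev l := by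
  obtain ⟨r, hr⟩ := Om.flt_exists_gt_seq f
  obtain ⟨l, h1, h2⟩ := h r
  exact ⟨l, h1, fun n => (hr n).trans (WithBot.coe_lt_coe.2 h2)⟩

theorem Tall.seqCl {G : Flt M} (h : S.Tall G) : SeqCl G := by
  intro f hf
  obtain ⟨l, h1, h2⟩ := h.above fun n => S.lab (f n)
  obtain ⟨j, hj⟩ := h1.1
  exact ⟨_, hj, fun n => h1.old_dvd (h2 n) (hf n) j⟩

theorem countable_of_not_tall {G : Flt M} (h : ¬ S.Tall G) : {w | S.Can G w}.Countable := by
  unfold Tall at h
  push Not at h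
  obtain ⟨r, hr⟩ := h
  refine (can_countable (S := S) r G).mono fun w hw => And.intro hw ?_
  rcases can_cases hw with h0 | ⟨l, j, w', h1, hn, he, -, rfl⟩
  · rw [h0]; exact bot_le
  · rw [S.lab_cons' hn]
    exact WithBot.coe_le_coe.2 (hr l ⟨⟨j, h1⟩, he⟩)

theorem ctbl_of_not_tall {G : Flt M} (h : ¬ S.Tall G) :
    ∃ f : ℕ → M, (∀ n, f n ∈ G) ∧ ∀ x ∈ G, ∃ n, x ∣ f n := by
  obtain ⟨c, hc, -⟩ := can_coinitial (S := S) 1 G G.one_mem
  obtain ⟨f, hf⟩ := (countable_of_not_tall h).exists_eq_range ⟨c, hc⟩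
  refine ⟨f, fun n => Can.mem (S := S) ?_, fun x hx => ?_⟩
  · have : f n ∈ {w | S.Can G w} := hf ▸ Set.mem_range_self n
    exact this
  · obtain ⟨c, h1, h2⟩ := can_coinitial (S := S) x G hx
    have : c ∈ Set.range f := hf ▸ h1
    obtain ⟨n, rfl⟩ := this
    exact ⟨n, h2⟩

variable (S) in
/-- the trace of a filter on a node -/
def trace (F : Flt M) (Z : M) : Flt M where
  carrier := {x | ∃ D ∈ F, ∀ z, Z ∣ z → D ∣ z → x ∣ z}
  one_mem' := ⟨1, F.one_mem, fun _ _ _ => one_dvd _⟩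
  up' := by
    rintro a b ⟨D, hD, h⟩ hb
    exact ⟨D, hD, fun z h1 h2 => hb.trans (h z h1 h2)⟩
  dir' := by
    rintro a b ⟨D, hD, h⟩ ⟨D', hD', h'⟩
    obtain ⟨c, hc, h1, h2⟩ := F.dir hD hD'
    obtain ⟨m, hm, -⟩ := S.exists_meet Z c
    exact ⟨m, ⟨c, hc, fun z h3 h4 => (hm z).1 ⟨h3, h4⟩⟩, h m hm.left (h1.trans hm.right),
      h' m hm.left (h2.trans hm.right)⟩

theorem mem_trace {F : Flt M} {Z x : M} :
    x ∈ S.trace F Z ↔ ∃ D ∈ F, ∀ z, Z ∣ z → D ∣ z → x ∣ z := Iff.rfl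

theorem SeqCl.trace {F : Flt M} (h : SeqCl F) (Z : M) : SeqCl (S.trace F Z) := by
  intro f hf
  choose D hD h1 using hf
  obtain ⟨c, hc, h2⟩ := h D hD
  obtain ⟨m, hm, -⟩ := S.exists_meet Z c
  exact ⟨m, ⟨c, hc, fun z h3 h4 => (hm z).1 ⟨h3, h4⟩⟩,
    fun n => h1 n m hm.left ((h2 n).trans hm.right)⟩

/-- the core of the boundedness argument -/
theorem tall_core {F : Flt M} (hF : S.Tall F)
    (H : ∀ Z ∉ F, ∃ D ∈ F, ∀ z, Z ∣ z → D ∣ z → ∀ x ∈ F, x ∣ z) : False := by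
  classical
  choose! D hD hDz using H
  -- the sequence of essential letters
  have nxt : ∀ l : {l // S.Ess F l}, ∃ l' : {l // S.Ess F l},
      S.lev l.1 < S.lev l'.1 ∧ S.lab (D (S.eta l.1)) < S.lev l'.1 := by
    intro l
    obtain ⟨l', h1, h2⟩ := hF.above fun n => if n = 0 then S.lev l.1 else S.lab (D (S.eta l.1))
    exact ⟨⟨l', h1⟩, WithBot.coe_lt_coe.1 (by simpa using h2 0), by simpa using h2 1⟩
  choose g hg1 hg2 using nxt
  obtain ⟨l0, hl0, -⟩ := hF.above fun _ => ⊥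
  let L : ℕ → S.Let := fun n => (g^[n] ⟨l0, hl0⟩).1
  have hL : ∀ n, S.Ess F (L n) := fun n => (g^[n] ⟨l0, hl0⟩).2
  have hL1 : ∀ n, S.lev (L n) < S.lev (L (n + 1)) := fun n => by
    simp only [L, Function.iterate_succ_apply']; exact hg1 _
  have hL2 : ∀ n, S.lab (D (S.eta (L n))) < S.lev (L (n + 1)) := fun n => by
    simp only [L, Function.iterate_succ_apply']; exact hg2 _
  choose J hJ using fun n => (hL n).1
  let X : ℕ → M := fun n => S.X (L n) (J n)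
  have hX : ∀ n, X n ∈ F := hJ
  have hXl : ∀ n, S.lab (X n) ≤ S.lev (L n) := fun n => S.lab_X_le _ _
  have hXl' : ∀ n, S.lab (X n) < S.lev (L (n + 1)) := fun n =>
    (hXl n).trans_lt (WithBot.coe_lt_coe.2 (hL1 n))
  have hX1 : ∀ n, X n ∣ X (n + 1) := fun n => (hL (n + 1)).old_dvd (hXl' n) (hX n) _
  have hXm : ∀ n n', n ≤ n' → X n ∣ X n' := by
    intro n n' h
    induction h with
    | refl => exact dvd_rfl
    | step _ ih => exact ih.trans (hX1 _)
  choose m hm hml using fun n => S.exists_meet (S.eta (L n)) (D (S.eta (L n)))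
  have hm1 : ∀ n, S.lab (m n) < S.lev (L (n + 1)) := fun n =>
    (hml n).trans_lt (max_lt ((S.lab_eta _).trans (WithBot.coe_lt_coe.2 (hL1 n))) (hL2 n))
  have hm2 : ∀ n, ∀ x ∈ F, x ∣ m n := fun n => hDz _ (hL n).2 _ (hm n).left (hm n).right
  -- the least essential level above the sequence
  obtain ⟨ls, ⟨hs1, hs2⟩, hs3⟩ := (InvImage.wf S.lev (wellFounded_lt (α := Om))).has_min
    {l | S.Ess F l ∧ ∀ n, S.lev (L n) < S.lev l} (by
      obtain ⟨l, h1, h2⟩ := hF.above fun n => S.lev (L n)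
      exact ⟨l, h1, fun n => WithBot.coe_lt_coe.1 (h2 n)⟩)
  have high : ∀ W : M, (¬ ∃ n, S.lab W < S.lev (L n)) →
      ∃ l j w, S.Norm l j w ∧ W = S.cons l j w ∧ S.lab W = S.lev l ∧
        ∀ n, S.lev (L n) < S.lev l := by
    intro W hW
    push Not at hW
    rcases flt_lab_cases (S := S) W with h0 | ⟨l, j, w, hn, e, hl⟩
    · have := hW 0
      rw [h0] at this
      exact absurd this (WithBot.not_coe_le_bot _)
    · refine ⟨l, j, w, hn, e, hl, fun n => (hL1 n).trans_le (WithBot.coe_le_coe.1 ?_)⟩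
      rw [← hl]; exact hW _
  -- (a)
  have A : ∀ W : M, W ∈ F → S.lab W < S.lev ls → ∃ n, W ∣ X n := by
    intro W
    induction W using S.prec_wf.induction with
    | _ W ih =>
    intro hW hWl
    by_cases h : ∃ n, S.lab W < S.lev (L n)
    · obtain ⟨n, h⟩ := h
      exact ⟨n, (hL n).old_dvd h hW _⟩
    obtain ⟨l, j, w, hn, rfl, hl, hup⟩ := high W h
    have he : S.eta l ∈ F := by
      by_contra he
      refine hs3 l ⟨⟨⟨j, Flt.up hW (flt_X_dvd_cons hn)⟩, he⟩, hup⟩ ?_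
      rw [hl] at hWl
      exact WithBot.coe_lt_coe.1 hWl
    obtain ⟨q, hq, -⟩ := S.exists_meet (S.eta l) (S.cons l j w)
    have hp := S.prec_meet (hl ▸ S.lab_eta l) (flt_not_eta_dvd_cons hn) hq
    obtain ⟨n, h1⟩ := ih q hp (Flt.meet_mem hq he hW) (hp.flt_lab_le.trans_lt hWl)
    exact ⟨n, hq.right.trans h1⟩
  let Cen : S.Let → Prop := fun l => (∀ n, S.lev (L n) < S.lev l) ∧
    ∀ W, S.lab W < S.lev l → (W ∈ S.ctr l ↔ W ∈ F)
  -- (B')
  have B : ∀ W : M, W ∉ F → S.lab W < S.lev ls → ∃ n,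
      (∃ n', ∀ z, W ∣ z → X n ∣ z → m n' ∣ z) ∨
      ∃ l j, Cen l ∧ (S.lev l : WithBot Om) ≤ S.lab W ∧ ∀ z, W ∣ z → X n ∣ z → S.X l j ∣ z := by
    intro W
    induction W using S.prec_wf.induction with
    | _ W ih =>
    intro hW hWl
    by_cases h : ∃ n, S.lab W < S.lev (L n)
    · obtain ⟨n, h⟩ := h
      refine ⟨n + 1, Or.inl ⟨n, fun z h1 h2 => (hm n z).1 ⟨?_, ?_⟩⟩⟩
      · by_contra h3
        exact hW (((hL n).mem_ctr_iff h).1 (S.mem_ctr_of_new h h1 ((hX1 n).trans h2) h3))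
      · exact ((hL (n + 1)).old_dvd (hL2 n) (hD _ (hL n).2) _).trans h2
    obtain ⟨l, j, w, hn, e, hl, hup⟩ := high W h
    have hXW : ∀ n, S.lab (X n) < S.lev l := fun n =>
      (hXl n).trans_lt (WithBot.coe_lt_coe.2 (hup n))
    by_cases h' : ∃ n, ¬ X n ∣ W
    · obtain ⟨n, h'⟩ := h'
      obtain ⟨q, hq, -⟩ := S.exists_meet (X n) W
      have hp := S.prec_meet (hl ▸ hXW n) h' hq
      obtain ⟨n2, h2⟩ := ih q hp (fun h3 => hW (Flt.up h3 hq.right)) (hp.flt_lab_le.trans_lt hWl)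
      have k1 : ∀ z, W ∣ z → X (max n n2) ∣ z → q ∣ z ∧ X n2 ∣ z := fun z h3 h4 =>
        ⟨(hq z).1 ⟨(hXm _ _ (le_max_left _ _)).trans h4, h3⟩,
          (hXm _ _ (le_max_right _ _)).trans h4⟩
      refine ⟨max n n2, ?_⟩
      rcases h2 with ⟨n', h2⟩ | ⟨l', j', c1, c2, c3⟩
      · exact Or.inl ⟨n', fun z h3 h4 => h2 z (k1 z h3 h4).1 (k1 z h3 h4).2⟩
      · exact Or.inr ⟨l', j', c1, c2.trans hp.flt_lab_le,
          fun z h3 h4 => c3 z (k1 z h3 h4).1 (k1 z h3 h4).2⟩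
    push Not at h'
    have hXc : ∀ n, X n ∈ S.ctr l := fun n => (S.old_dvd_cons_iff (hXW n) hn).1 (e ▸ h' n)
    have hXd : S.X l j ∣ W := e ▸ flt_X_dvd_cons hn
    by_cases hc : Cen l
    · exact ⟨0, Or.inr ⟨l, j, hc, hl.ge, fun z h3 _ => hXd.trans h3⟩⟩
    have : ∃ W', S.lab W' < S.lev l ∧ W' ∈ S.ctr l ∧ W' ∉ F := by
      by_contra h3
      push Not at h3
      refine hc ⟨hup, fun W' h4 => ⟨h3 W' h4, fun h5 => ?_⟩⟩
      obtain ⟨n, h6⟩ := A W' h5 (h4.trans (hl ▸ hWl))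
      exact Flt.up (hXc n) h6
    obtain ⟨W', h3, h4, h5⟩ := this
    have h6 : S.lab W' < S.lab W := hl ▸ h3
    have h7 : W' ∣ W := (S.ctr_dvd_X j h4).trans hXd
    obtain ⟨n, h2⟩ := ih W' (S.prec_of_lab_lt h6) h5 (h6.trans hWl)
    refine ⟨n, ?_⟩
    rcases h2 with ⟨n', h2⟩ | ⟨l', j', c1, c2, c3⟩
    · exact Or.inl ⟨n', fun z h8 h9 => h2 z (h7.trans h8) h9⟩
    · exact Or.inr ⟨l', j', c1, c2.trans h6.le, fun z h8 h9 => c3 z (h7.trans h8) h9⟩
  -- (C)
  have C : ∀ l : S.Let, Cen l → S.lev l ≤ S.lev ls → ∃ n, ∀ j, ¬ S.X l j ∣ m n := by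
    intro l
    induction l using (InvImage.wf S.lev (wellFounded_lt (α := Om))).induction with
    | _ l ih =>
    intro hc hl
    obtain ⟨K, k1, k2, k3, k4⟩ := S.admW l
    have k5 : S.lab K < S.lev ls := k1.trans_le (WithBot.coe_le_coe.2 hl)
    have hXK : ∀ n, X n ∣ K := fun n =>
      k4 _ ((hc.2 _ ((hXl n).trans_lt (WithBot.coe_lt_coe.2 (hc.1 n)))).2 (hX n))
    have hK : K ∉ F := by
      intro hK
      obtain ⟨n, h1⟩ := A K hK k5
      exact (hL (n + 1)).2 (Flt.up (hX n) (S.eta_dvd_of_old (hXl' n) ((hXK (n + 1)).trans h1)))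
    have hem : ∀ n j, S.X l j ∣ m n → S.eta l ∣ m n := fun n j h =>
      S.eta_dvd_of_old ((hm1 n).trans (WithBot.coe_lt_coe.2 (hc.1 _))) h
    obtain ⟨n, ⟨n', h2⟩ | ⟨l', j', c1, c2, c3⟩⟩ := B K hK k5
    · exact ⟨n', fun j h => k3 (S.dvd_antisymm ((hem n' j h).trans (h2 K dvd_rfl (hXK n))) k2)⟩
    · have c4 : S.lev l' < S.lev l := WithBot.coe_lt_coe.1 (c2.trans_lt k1)
      obtain ⟨n'', h3⟩ := ih l' c4 c1 (c4.le.trans hl)
      exact ⟨n'', fun j h => h3 j' ((c3 K dvd_rfl (hXK n)).trans (k2.trans (hem n'' j h)))⟩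
  obtain ⟨n, hn⟩ := C ls ⟨hs2, fun W hW => hs1.mem_ctr_iff hW⟩ le_rfl
  obtain ⟨j, hj⟩ := hs1.1
  exact hn j (hm2 n _ hj)

theorem Tall.step {F : Flt M} (hF : S.Tall F) : ∃ Z ∉ F, S.Tall (S.trace F Z) := by
  by_contra h
  push Not at h
  refine tall_core hF fun Z hZ => ?_
  obtain ⟨f, h1, h2⟩ := ctbl_of_not_tall (h Z hZ)
  obtain ⟨a, ⟨D, hD, h3⟩, h4⟩ := hF.seqCl.trace (S := S) Z f h1
  refine ⟨D, hD, fun z h5 h6 x hx => ?_⟩
  obtain ⟨n, h7⟩ := h2 x ⟨x, hx, fun _ _ h => h⟩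
  exact h7.trans ((h4 n).trans (h3 z h5 h6))

/-- (3) the essential levels of a filter are bounded -/
theorem not_tall (F : Flt M) : ¬ S.Tall F := by
  intro hF
  choose Zf hZ1 hZ2 using fun G : {G : Flt M // S.Tall G} => G.2.step
  let G : ℕ → {G : Flt M // S.Tall G} := fun n =>
    (fun G => ⟨S.trace G.1 (Zf G), hZ2 G⟩)^[n] ⟨F, hF⟩
  have hG : ∀ n, (G (n + 1)).1 = S.trace (G n).1 (Zf (G n)) := fun n => by
    simp only [G, Function.iterate_succ_apply']
  choose mt hmt using fun a b : M => S.exists_meet a b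
  let it : M → ℕ → M := fun D n => Nat.rec D (fun n x => mt (Zf (G n)) x) n
  have hit : ∀ D n, IsMeet (Zf (G n)) (it D n) (it D (n + 1)) := fun D n => (hmt _ _).1
  have pull : ∀ n, ∀ y ∈ (G n).1, ∃ D ∈ F, ∀ D', D ∣ D' → y ∣ it D' n := by
    intro n
    induction n with
    | zero => exact fun y hy => ⟨y, hy, fun _ h => h⟩
    | succ n ih =>
      intro y hy
      rw [hG] at hy
      obtain ⟨D1, h1, h2⟩ := hy
      obtain ⟨D, h3, h4⟩ := ih D1 h1
      exact ⟨D, h3, fun D' h5 => h2 _ (hit D' n).left ((h4 D' h5).trans (hit D' n).right)⟩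
  have mem : ∀ D ∈ F, ∀ n, it D n ∈ (G n).1 := by
    intro D hD n
    induction n with
    | zero => exact hD
    | succ n ih =>
      rw [hG]
      exact ⟨_, ih, fun z h1 h2 => (hit D n z).1 ⟨h1, h2⟩⟩
  choose l hl1 hl2 using fun n => (G n).2.above fun _ => S.lab (Zf (G n))
  choose j hj using fun n => (hl1 n).1
  choose D hD1 hD2 using fun n => pull n _ (hj n)
  obtain ⟨E, hE1, hE2⟩ := hF.seqCl D hD1
  have desc : ∀ n, S.Prec (it E (n + 1)) (it E n) := by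
    intro n
    refine S.prec_meet ((hl2 n 0).trans_le (not_lt.1 fun h => ?_))
      (fun h => hZ1 _ (Flt.up (mem E hE1 n) h)) (hit E n)
    exact (hl1 n).2 (Flt.up (mem E hE1 n) (S.eta_dvd_of_old h (hD2 n E (hE2 n))))
  obtain ⟨_, ⟨n, rfl⟩, h⟩ := S.prec_wf.has_min (Set.range (it E)) ⟨_, 0, rfl⟩
  exact h _ ⟨n + 1, rfl⟩ (desc n)

variable (S) in
/-- far inside `b` the canonical members of `G` and of its quotient agree -/
def MergeAt (G : Flt M) (b : M) : Prop :=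
  ∀ h : b ∈ G, ∃ d ∈ G.quot b h, ∀ z ∈ G.quot b h, d ∣ z → (S.Can (G.quot b h) z ↔ S.Can G (b * z))

theorem MergeAt.mul {G : Flt M} {b c : M} (h1 : S.MergeAt G b) (h2 : ∀ G', S.MergeAt G' c) :
    S.MergeAt G (b * c) := by
  intro h
  have hb : b ∈ G := Flt.up h (Dvd.intro _ rfl)
  have hc : c ∈ G.quot b hb := h
  obtain ⟨d1, a1, a2⟩ := h1 hb
  obtain ⟨d2, b1, b2⟩ := h2 _ hc
  obtain ⟨e, e1, e2, ⟨u, rfl⟩⟩ := (G.quot b hb).dir a1 (b1 : c * d2 ∈ G.quot b hb)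
  rw [flt_quot_quot G hb hc h rfl] at b2
  refine ⟨d2 * u, by simpa only [Flt.mem_quot, mul_assoc] using e1, fun z hz hd => ?_⟩
  rw [b2 z hz ((Dvd.intro _ rfl).trans hd), mul_assoc]
  refine a2 _ (by simpa only [Flt.mem_quot, mul_assoc] using hz) (e2.trans ?_)
  rw [mul_assoc]
  exact mul_dvd_mul_left _ hd

theorem MergeAt.div {G : Flt M} {b c : M} (h : b * c ∈ G) (h1 : S.MergeAt G (b * c))
    (h2 : ∀ G', S.MergeAt G' c) : S.MergeAt G b := by
  intro hb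
  have hc : c ∈ G.quot b hb := h
  obtain ⟨d1, a1, a2⟩ := h1 h
  obtain ⟨d2, b1, b2⟩ := h2 _ hc
  rw [flt_quot_quot G hb hc h rfl] at b1 b2
  obtain ⟨e, e1, e2, e3⟩ := (G.quot _ h).dir a1 b1
  refine ⟨c * e, by simpa only [Flt.mem_quot, mul_assoc] using e1, fun z hz hd => ?_⟩
  obtain ⟨u, rfl⟩ := hd
  have hz' : e * u ∈ G.quot _ h := by simpa only [Flt.mem_quot, mul_assoc] using hz
  rw [mul_assoc, ← b2 _ hz' (e3.trans (Dvd.intro _ rfl)), a2 _ hz' (e2.trans (Dvd.intro _ rfl)),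
    mul_assoc]

theorem merge_X {l : S.Let} (old : ∀ c, S.lab c < S.lev l → ∀ G, S.MergeAt G c) (j : Fin 3)
    (G : Flt M) : S.MergeAt G (S.X l j) := by
  induction j using WellFoundedLT.induction with
  | _ j ih =>
  by_cases he : S.eta l ∈ G
  · rw [← S.X_mul_al l j] at he
    refine MergeAt.div he ?_ (old _ (S.lab_al l j))
    rw [S.X_mul_al]
    exact old _ (S.lab_eta l) G
  intro hX
  by_cases hs : ∃ i < j, S.X l i ∈ G
  · obtain ⟨i, hij, hi⟩ := hs
    refine MergeAt.div (Flt.meet_mem (S.X_meet_sib l hij.ne') hX hi) ?_ (old _ (S.lab_e l j i)) hX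
    rw [S.X_mul_e l hij.ne']
    exact (ih i hij).mul (old _ (S.lab_e l i j))
  refine ⟨1, Flt.one_mem _, fun z hz _ => ?_⟩
  rcases le_or_gt (S.lab z) (S.lev l) with h | h
  · have hn := flt_norm_of_mem hz he hs h
    rw [S.X_mul_norm hn, can_cons_iff hn]
    exact ⟨fun h => ⟨hX, he, h⟩, fun ⟨_, _, h⟩ => h⟩
  · exact can_old_new hX ((S.lab_X_le l j).trans_lt h)

theorem merge (b : M) : ∀ G : Flt M, S.MergeAt G b := by
  induction b using S.prec_wf.induction with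
  | _ b ih =>
  intro G
  rcases flt_lab_cases (S := S) b with h0 | ⟨l, j, w, hn, rfl, hl⟩
  · refine fun hb => ⟨1, Flt.one_mem _, fun z hz _ => ?_⟩
    rcases eq_or_ne (S.lab z) ⊥ with h | h
    · have h1 : S.lab (b * z) = ⊥ := by
        have := S.lab_mul b z
        rwa [h0, h, max_self, le_bot_iff] at this
      exact ⟨fun _ => can_of_bot h1 hz, fun _ => can_of_bot h hz⟩
    · exact can_old_new hb (h0 ▸ bot_lt_iff_ne_bot.2 h)
  · have h1 := merge_X (fun c hc => ih c (S.prec_of_lab_lt (hl ▸ hc))) j G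
    have h2 := h1.mul (ih w (S.prec_rest hn))
    rwa [S.X_mul_norm hn] at h2

variable (S)

include S in
theorem ctbl (F : Flt M) : ∃ f : ℕ → M, (∀ n, f n ∈ F) ∧ ∀ x ∈ F, ∃ n, x ∣ f n :=
  ctbl_of_not_tall (not_tall (S := S) F)

include S in
theorem iso (F : Flt M) : ∃ Z : Set M, Z.Countable ∧ ∀ β β', β ∈ F → β' ∈ F →
    (∀ x, β * x ∈ F ↔ β' * x ∈ F) → ∃ γ, β * γ ∈ F ∧ β * γ ∈ Z ∧ β' * γ ∈ Z := by
  refine ⟨{w | S.Can F w}, countable_of_not_tall (not_tall F), fun β β' h h' e => ?_⟩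
  have eq : F.quot β' h' = F.quot β h := Flt.ext' fun x => (e x).symm
  obtain ⟨d, a1, a2⟩ := merge (S := S) β F h
  obtain ⟨d', b1, b2⟩ := merge (S := S) β' F h'
  rw [eq] at b1 b2
  obtain ⟨c0, c1, c2, c3⟩ := (F.quot β h).dir a1 b1
  obtain ⟨c, hc, h4⟩ := can_coinitial (S := S) c0 _ c1
  exact ⟨c, hc.mem, (a2 c hc.mem (c2.trans h4)).1 hc, (b2 c hc.mem (c3.trans h4)).1 hc⟩

end LSys
end Crest.Agent.R296
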