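import Mathlib
import Crest.Prelude.Def_SetTheory

/-!
Row 296: forcing over a monoid `M` acting on a preorder `P` of conditions (the category whose
objects are conditions `p` and whose arrows `r → p` are the `c : M` with `r ≤ c • p`), with the
dense topology.  Names, atomic forcing, forcing of first-order formulas.
-/

set_option autoImplicit false

namespace Crest.Agent.R296

open FirstOrder FirstOrder.Language Crest.LogicCS.SetTheory

/-- the action of `M` on conditions is monotone and fixes the trivial condition -/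
class Frame (M P : Type) [Monoid M] [Preorder P] [OrderTop P] [MulAction M P] : Prop where
  mono : ∀ (c : M) {p q : P}, p ≤ q → c • p ≤ c • q
  smul_top : ∀ c : M, c • (⊤ : P) = ⊤

/-- names: a family of (arrow, condition, term) -/
inductive Name (M P : Type) : Type 1
  | mk (ι : Type) (a : ι → M) (q : ι → P) (b : ι → M) (s : ι → Name M P) : Name M P

/-- terms: a name pushed forward along an arrow -/
@[ext] structure Tm (M P : Type) : Type 1 where
  b : M
  n : Name M P

variable {M P : Type}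

namespace Name
def ι : Name M P → Type | mk ι _ _ _ _ => ι
def a : (x : Name M P) → x.ι → M | mk _ a _ _ _ => a
def q : (x : Name M P) → x.ι → P | mk _ _ q _ _ => q
def ch : (x : Name M P) → x.ι → Tm M P | mk _ _ _ b s => fun i => ⟨b i, s i⟩
noncomputable def rank : Name M P → Ordinal.{0}
  | mk _ _ _ _ s => ⨆ i, Order.succ (rank (s i))

theorem rank_ch_lt (x : Name M P) (i : x.ι) : (x.ch i).n.rank < x.rank := by
  cases x with
  | mk ι a q b s =>
    show rank (s i) < ⨆ i, Order.succ (rank (s i))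
    exact Order.succ_le_iff.1 (Ordinal.le_iSup (fun i => Order.succ (rank (s i))) i)
end Name

variable [Monoid M]

instance : SMul M (Tm M P) := ⟨fun c t => ⟨c * t.b, t.n⟩⟩

@[simp] theorem Tm.smul_b (c : M) (t : Tm M P) : (c • t).b = c * t.b := rfl
@[simp] theorem Tm.smul_n (c : M) (t : Tm M P) : (c • t).n = t.n := rfl

instance : MulAction M (Tm M P) where
  one_smul t := Tm.ext (one_mul _) rfl
  mul_smul a b t := Tm.ext (mul_assoc _ _ _) rfl

/-- the term with the given family of (arrow, condition, member) -/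
def Tm.of {ι : Type} (a : ι → M) (q : ι → P) (t : ι → Tm M P) : Tm M P :=
  ⟨1, Name.mk ι a q (fun i => (t i).b) (fun i => (t i).n)⟩

noncomputable def Tm.rank (t : Tm M P) : Ordinal.{0} := t.n.rank

@[simp] theorem Tm.rank_smul (c : M) (t : Tm M P) : (c • t).rank = t.rank := rfl

/-- potential members of a term -/
structure PM (t : Tm M P) : Type where
  i : t.n.ι
  st : M
  g : M
  h : st * t.b = g * t.n.a i

variable [MulAction M P]

namespace PM
variable {t : Tm M P}
def cd (j : PM t) : P := j.g • t.n.q j.i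
def mem (j : PM t) : Tm M P := j.g • t.n.ch j.i

/-- push a potential member forward -/
def shift (j : PM t) (c : M) : PM t := ⟨j.i, c * j.st, c * j.g, by rw [mul_assoc, j.h, mul_assoc]⟩
@[simp] theorem shift_st (j : PM t) (c : M) : (j.shift c).st = c * j.st := rfl
@[simp] theorem shift_cd (j : PM t) (c : M) : (j.shift c).cd = c • j.cd := by
  simp [cd, shift, mul_smul]
@[simp] theorem shift_mem (j : PM t) (c : M) : (j.shift c).mem = c • j.mem := by
  simp [mem, shift, mul_smul]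

/-- a potential member of `c • t` is one of `t` -/
def down {c : M} (j : PM (c • t)) : PM t := ⟨j.i, j.st * c, j.g, by rw [mul_assoc]; exact j.h⟩
@[simp] theorem down_st {c : M} (j : PM (c • t)) : j.down.st = j.st * c := rfl
@[simp] theorem down_cd {c : M} (j : PM (c • t)) : j.down.cd = j.cd := rfl
@[simp] theorem down_mem {c : M} (j : PM (c • t)) : j.down.mem = j.mem := rfl

/-- a potential member of `t` at a stage beyond `c` is one of `c • t` -/
def up (j : PM t) (c d : M) (h : j.st = d * c) : PM (c • t) :=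
  ⟨j.i, d, j.g, by rw [Tm.smul_b, ← mul_assoc, ← h]; exact j.h⟩
@[simp] theorem up_st (j : PM t) (c d : M) (h : j.st = d * c) : (j.up c d h).st = d := rfl
@[simp] theorem up_cd (j : PM t) (c d : M) (h : j.st = d * c) : (j.up c d h).cd = j.cd := rfl
@[simp] theorem up_mem (j : PM t) (c d : M) (h : j.st = d * c) : (j.up c d h).mem = j.mem := rfl

omit [MulAction M P] in
theorem rank_mem_lt (j : PM t) : j.mem.rank < t.rank := t.n.rank_ch_lt j.i
end PM

variable [Preorder P]

/-- forced equality of `(β, x)` and `(β', y)` -/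
def Eqv : Name M P → Name M P → P → M → M → Prop
  | .mk _ a q b s, .mk _ a' q' b' s', p, β, β' =>
    (∀ i α γ r, α * β = γ * a i → r ≤ α • p → r ≤ γ • q i →
      ∃ i' α' γ' r', α' * (α * β') = γ' * a' i' ∧ r' ≤ α' • r ∧ r' ≤ γ' • q' i' ∧
        Eqv (s i) (s' i') r' (α' * (γ * b i)) (γ' * b' i')) ∧
    (∀ i' α γ r, α * β' = γ * a' i' → r ≤ α • p → r ≤ γ • q' i' →
      ∃ i α' γ' r', α' * (α * β) = γ' * a i ∧ r' ≤ α' • r ∧ r' ≤ γ' • q i ∧
        Eqv (s i) (s' i') r' (γ' * b i) (α' * (γ * b' i')))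

/-- `p` forces `t = t'` -/
def TEq (p : P) (t t' : Tm M P) : Prop := Eqv t.n t'.n p t.b t'.b

theorem Eqv.symm {x : Name M P} : ∀ {y : Name M P} {p : P} {β β' : M}, Eqv x y p β β' →
    Eqv y x p β' β := by
  induction x with
  | mk ι a q b s ih =>
    intro y p β β' h
    cases y with
    | mk ι' a' q' b' s' =>
      refine ⟨fun i' α γ r h1 h2 h3 => ?_, fun i α γ r h1 h2 h3 => ?_⟩
      · obtain ⟨i, α', γ', r', k1, k2, k3, k4⟩ := h.2 i' α γ r h1 h2 h3
        exact ⟨i, α', γ', r', k1, k2, k3, ih i k4⟩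
      · obtain ⟨i', α', γ', r', k1, k2, k3, k4⟩ := h.1 i α γ r h1 h2 h3
        exact ⟨i', α', γ', r', k1, k2, k3, ih i k4⟩

theorem TEq.symm {p : P} {t t' : Tm M P} (h : TEq p t t') : TEq p t' t := Eqv.symm h

/-- some extension of `p` makes `m` equal to a potential member of `t` -/
def Mem0 (p : P) (m t : Tm M P) : Prop :=
  ∃ (j : PM t) (r : P), r ≤ j.st • p ∧ r ≤ j.cd ∧ TEq r (j.st • m) j.mem

/-- `p` forces `m ∈ t` -/
def Mem (p : P) (m t : Tm M P) : Prop := ∀ (c : M) (r : P), r ≤ c • p → Mem0 r (c • m) (c • t)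

/-- every potential member of `t` is put into `t'` -/
def Sub0 (p : P) (t t' : Tm M P) : Prop :=
  ∀ (j : PM t) (r : P), r ≤ j.st • p → r ≤ j.cd → Mem0 r j.mem (j.st • t')

theorem teq_iff {p : P} {t t' : Tm M P} : TEq p t t' ↔ Sub0 p t t' ∧ Sub0 p t' t := by
  obtain ⟨β, ⟨ι, a, q, b, s⟩⟩ := t
  obtain ⟨β', ⟨ι', a', q', b', s'⟩⟩ := t'
  constructor
  · rintro ⟨h1, h2⟩
    constructor
    · rintro ⟨i, α, γ, h⟩ r k1 k2
      obtain ⟨i', α', γ', r', l1, l2, l3, l4⟩ := h1 i α γ r h k1 k2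
      exact ⟨⟨i', α', γ', l1⟩, r', l2, l3, l4⟩
    · rintro ⟨i, α, γ, h⟩ r k1 k2
      obtain ⟨i', α', γ', r', l1, l2, l3, l4⟩ := h2 i α γ r h k1 k2
      exact ⟨⟨i', α', γ', l1⟩, r', l2, l3, l4.symm⟩
  · rintro ⟨h1, h2⟩
    constructor
    · intro i α γ r h k1 k2
      obtain ⟨⟨i', α', γ', l1⟩, r', l2, l3, l4⟩ := h1 ⟨i, α, γ, h⟩ r k1 k2
      exact ⟨i', α', γ', r', l1, l2, l3, l4⟩
    · intro i α γ r h k1 k2
      obtain ⟨⟨i', α', γ', l1⟩, r', l2, l3, l4⟩ := h2 ⟨i, α, γ, h⟩ r k1 k2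
      exact ⟨i', α', γ', r', l1, l2, l3, Eqv.symm l4⟩

/-- `Φ` holds densely below `p` -/
def Dense (p : P) (Φ : M → P → Prop) : Prop :=
  ∀ (c : M) (r : P), r ≤ c • p → ∃ (d : M) (s : P), s ≤ d • r ∧ Φ (d * c) s

variable [OrderTop P] [Frame M P]

theorem smul_le_smul_cond (c : M) {p q : P} (h : p ≤ q) : c • p ≤ c • q := Frame.mono c h

theorem ext_trans {p r s : P} {c d : M} (h1 : r ≤ c • p) (h2 : s ≤ d • r) : s ≤ (d * c) • p := by
  rw [mul_smul]; exact h2.trans (Frame.mono d h1)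

theorem le_smul_top (c : M) (r : P) : r ≤ c • (⊤ : P) := by rw [Frame.smul_top]; exact le_top

omit [OrderTop P] [Frame M P] in
theorem le_one_smul (p : P) : p ≤ (1 : M) • p := by rw [one_smul]

theorem Sub0.mono {p r : P} {c : M} {t t' : Tm M P} (h : Sub0 p t t') (hr : r ≤ c • p) :
    Sub0 r (c • t) (c • t') := by
  intro j s h1 h2
  have := h j.down s (by simpa using ext_trans hr h1) h2
  simpa [mul_smul] using this

theorem TEq.mono {p r : P} {c : M} {t t' : Tm M P} (h : TEq p t t') (hr : r ≤ c • p) :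
    TEq r (c • t) (c • t') := by
  rw [teq_iff] at h ⊢
  exact ⟨h.1.mono hr, h.2.mono hr⟩

theorem TEq.mono1 {p r : P} {t t' : Tm M P} (h : TEq p t t') (hr : r ≤ p) : TEq r t t' := by
  simpa using h.mono (c := (1 : M)) (by simpa using hr)

theorem Mem.mono {p r : P} {c : M} {m t : Tm M P} (h : Mem p m t) (hr : r ≤ c • p) :
    Mem r (c • m) (c • t) := by
  intro d s hs
  have := h (d * c) s (ext_trans hr hs)
  simpa [mul_smul] using this

theorem Mem.mono1 {p r : P} {m t : Tm M P} (h : Mem p m t) (hr : r ≤ p) : Mem r m t := by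
  simpa using h.mono (c := (1 : M)) (by simpa using hr)

omit [OrderTop P] [Frame M P] in
theorem Mem.mem0 {p : P} {m t : Tm M P} (h : Mem p m t) : Mem0 p m t := by
  simpa using h 1 p (le_one_smul p)

theorem Mem0.of_ext {p r : P} {c : M} {m t : Tm M P} (hr : r ≤ c • p)
    (h : Mem0 r (c • m) (c • t)) : Mem0 p m t := by
  obtain ⟨j, s, h1, h2, h3⟩ := h
  exact ⟨j.down, s, by simpa using ext_trans hr h1, h2, by simpa [mul_smul] using h3⟩

omit [OrderTop P] [Frame M P] in
theorem TEq.refl (p : P) (t : Tm M P) : TEq p t t := by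
  induction h : t.rank using Ordinal.induction generalizing p t with
  | h o ih =>
    have : Sub0 p t t := by
      intro j r _ h2
      refine ⟨j.up j.st 1 (one_mul _).symm, r, by simp, h2, ?_⟩
      simp only [PM.up_st, one_smul, PM.up_mem]
      exact ih _ (h ▸ j.rank_mem_lt) r _ rfl
    exact teq_iff.2 ⟨this, this⟩

theorem TEq.trans {p : P} {t1 t2 t3 : Tm M P} (h12 : TEq p t1 t2) (h23 : TEq p t2 t3) :
    TEq p t1 t3 := by
  induction h : t2.rank using Ordinal.induction generalizing p t1 t2 t3 with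
  | h o ih =>
    have key : ∀ {p : P} {u1 u3 : Tm M P}, Sub0 p u1 t2 → Sub0 p t2 u3 → Sub0 p u1 u3 := by
      intro p u1 u3 k1 k2 j r h1 h2
      obtain ⟨j', r', l1, l2, l3⟩ := k1 j r h1 h2
      obtain ⟨j'', r'', m1, m2, m3⟩ := k2 j'.down r' (by simpa using ext_trans h1 l1) l2
      have e : j''.down.st = (j''.st * j'.st) * j.st := by simp [mul_assoc]
      refine ⟨j''.down.up j.st (j''.st * j'.st) e, r'', ext_trans l1 m1, m2, ?_⟩
      have := ih _ (h ▸ (show (j''.st • j'.mem).rank < t2.rank from j'.rank_mem_lt))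
        (l3.mono m1) m3 rfl
      simpa [mul_smul] using this
    rw [teq_iff] at h12 h23 ⊢
    exact ⟨key h12.1 h23.1, key h23.2 h12.2⟩

theorem Dense.mono {p r : P} {c : M} {Φ : M → P → Prop} (h : Dense p Φ) (hr : r ≤ c • p) :
    Dense r (fun d s => Φ (d * c) s) := by
  intro d s hs
  obtain ⟨e, u, h1, h2⟩ := h (d * c) s (ext_trans hr hs)
  exact ⟨e, u, h1, by simpa [mul_assoc] using h2⟩

omit [OrderTop P] [Frame M P] in
theorem Dense.imp {p : P} {Φ Ψ : M → P → Prop} (h : Dense p Φ) (hi : ∀ c r, Φ c r → Ψ c r) :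
    Dense p Ψ := fun c r hr => let ⟨d, s, h1, h2⟩ := h c r hr; ⟨d, s, h1, hi _ _ h2⟩

theorem Dense.imp' {p : P} {Φ Ψ : M → P → Prop} (h : Dense p Φ)
    (hi : ∀ c r, r ≤ c • p → Φ c r → ∃ d s, s ≤ d • r ∧ Ψ (d * c) s) : Dense p Ψ := by
  intro c r hr
  obtain ⟨d, s, h1, h2⟩ := h c r hr
  obtain ⟨e, u, h3, h4⟩ := hi _ _ (ext_trans hr h1) h2
  exact ⟨e * d, u, ext_trans h1 h3, by simpa [mul_assoc] using h4⟩

omit [OrderTop P] [Frame M P] in
theorem Dense.exists {p : P} {Φ : M → P → Prop} (h : Dense p Φ) : ∃ c r, r ≤ c • p ∧ Φ c r := by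
  obtain ⟨d, s, h1, h2⟩ := h 1 p (le_one_smul p)
  exact ⟨d, s, h1, by simpa using h2⟩

omit [OrderTop P] [Frame M P] in
theorem Dense.of_forall {p : P} {Φ : M → P → Prop} (h : ∀ c r, r ≤ c • p → Φ c r) : Dense p Φ :=
  fun c r hr => ⟨1, r, le_one_smul r, by simpa using h c r hr⟩

theorem TEq.of_dense {p : P} {t t' : Tm M P}
    (h : Dense p fun (c : M) r => TEq r (c • t) (c • t')) : TEq p t t' := by
  have key : ∀ {u u' : Tm M P}, (Dense p fun (c : M) r => Sub0 r (c • u) (c • u')) →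
      Sub0 p u u' := by
    intro u u' k j r h1 h2
    obtain ⟨d, s, l1, l2⟩ := k j.st r h1
    have := l2 ((j.shift d).up (d * j.st) 1 (by simp)) s (by simp)
      (by simpa using l1.trans (Frame.mono d h2))
    refine Mem0.of_ext l1 ?_
    simpa [mul_smul] using this
  rw [teq_iff]
  exact ⟨key (h.imp fun c r k => (teq_iff.1 k).1), key (h.imp fun c r k => (teq_iff.1 k).2)⟩

theorem Mem.of_dense {p : P} {m t : Tm M P}
    (h : Dense p fun (c : M) r => Mem r (c • m) (c • t)) : Mem p m t := by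
  intro c r hr
  obtain ⟨d, s, h1, h2⟩ := h c r hr
  refine Mem0.of_ext h1 ?_
  simpa [mul_smul] using h2.mem0

theorem PM.mem_of_le {t : Tm M P} (j : PM t) {r : P} (h : r ≤ j.cd) : Mem r j.mem (j.st • t) := by
  intro c s hs
  rw [← mul_smul]
  refine ⟨(j.shift c).up (c * j.st) 1 (by simp), s, by simp,
    by simpa using hs.trans (Frame.mono c h), ?_⟩
  simpa using TEq.refl _ _

theorem Mem.congr_left {p : P} {m m' t : Tm M P} (h : Mem p m t) (e : TEq p m m') :
    Mem p m' t := by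
  intro c r hr
  obtain ⟨j, s, h1, h2, h3⟩ := h c r hr
  exact ⟨j, s, h1, h2, ((e.mono hr).mono h1).symm.trans h3⟩

theorem Mem.congr_right {p : P} {m t t' : Tm M P} (h : Mem p m t) (e : TEq p t t') :
    Mem p m t' := by
  intro c r hr
  obtain ⟨j, s, h1, h2, h3⟩ := h c r hr
  obtain ⟨j', s', k1, k2, k3⟩ := (teq_iff.1 (e.mono hr)).1 j s h1 h2
  exact ⟨j'.down, s', by simpa using ext_trans h1 k1, k2,
    by simpa [mul_smul] using (h3.mono k1).trans k3⟩

/-- membership: densely equal to a potential member -/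
theorem mem_iff_dense {p : P} {m t : Tm M P} : Mem p m t ↔
    Dense p fun (c : M) r => ∃ j : PM t, j.st = c ∧ r ≤ j.cd ∧ TEq r (c • m) j.mem := by
  constructor
  · intro h c r hr
    obtain ⟨j, s, h1, h2, h3⟩ := h c r hr
    exact ⟨j.st, s, h1, j.down, rfl, h2, by simpa [mul_smul] using h3⟩
  · intro h
    refine Mem.of_dense (h.imp ?_)
    rintro c r ⟨j, rfl, h2, h3⟩
    exact (j.mem_of_le h2).congr_left h3.symm

/-- extensionality -/
theorem TEq.of_mem_iff {p : P} {t t' : Tm M P}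
    (h : ∀ (c : M) r, r ≤ c • p → ∀ m, Mem r m (c • t) ↔ Mem r m (c • t')) : TEq p t t' := by
  rw [teq_iff]
  exact ⟨fun j r h1 h2 => ((h _ r h1 _).1 (j.mem_of_le h2)).mem0,
    fun j r h1 h2 => ((h _ r h1 _).2 (j.mem_of_le h2)).mem0⟩

/-- extensionality, checked on potential members only -/
theorem TEq.of_pm {p : P} {t t' : Tm M P}
    (h1 : ∀ (j : PM t) r, r ≤ j.st • p → r ≤ j.cd → Mem r j.mem (j.st • t'))
    (h2 : ∀ (j : PM t') r, r ≤ j.st • p → r ≤ j.cd → Mem r j.mem (j.st • t)) : TEq p t t' :=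
  teq_iff.2 ⟨fun j r k1 k2 => (h1 j r k1 k2).mem0, fun j r k1 k2 => (h2 j r k1 k2).mem0⟩

/-- membership in a term built with `Tm.of` -/
theorem mem_of_iff {ι : Type} {a : ι → M} {q : ι → P} {t : ι → Tm M P} {p : P} {m : Tm M P}
    {β : M} : Mem p m (β • Tm.of a q t) ↔ Dense p fun (c : M) r =>
      ∃ i γ, c * β = γ * a i ∧ r ≤ γ • q i ∧ TEq r (c • m) (γ • t i) := by
  rw [mem_iff_dense]
  constructor
  · refine fun h => h.imp ?_
    rintro c r ⟨⟨i, st, g, hj⟩, rfl, h2, h3⟩
    exact ⟨i, g, by simpa [Tm.of, Name.a] using hj, h2, h3⟩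
  · refine fun h => h.imp ?_
    rintro c r ⟨i, γ, h1, h2, h3⟩
    exact ⟨⟨i, c, γ, by simpa [Tm.of, Name.a] using h1⟩, rfl, h2, h3⟩

theorem mem_of {ι : Type} {a : ι → M} {q : ι → P} {t : ι → Tm M P} {p : P} {β γ : M} (i : ι)
    (h : β = γ * a i) (hp : p ≤ γ • q i) : Mem p (γ • t i) (β • Tm.of a q t) := by
  rw [mem_of_iff]
  refine Dense.of_forall fun c r hr => ⟨i, c * γ, by rw [h, mul_assoc], ext_trans hp hr, ?_⟩
  rw [mul_smul]
  exact TEq.refl _ _

end Crest.Agent.R296
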