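import Crest.Agent.R296.Force

/-!
Row 296: forcing of first-order formulas.  The environment is a function on `ℕ`; the quantifier of
a formula with `n` variables in scope updates index `n`.
-/

set_option autoImplicit false
set_option linter.unusedSectionVars false

namespace Crest.Agent.R296

open FirstOrder FirstOrder.Language Crest.LogicCS.SetTheory

variable {M P : Type} [Monoid M] [MulAction M P] [Preorder P]

/-- the index of the variable that a term of the language of set theory is -/
def tidx {n : ℕ} : setL.Term (Empty ⊕ Fin n) → ℕ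
  | .var (.inl e) => e.elim
  | .var (.inr i) => i
  | .func f _ => (show Empty from f).elim

/-- forcing of a relation symbol -/
def RelF (p : P) : {l : ℕ} → setL.Relations l → (Fin l → Tm M P) → Prop
  | _, SetRel.mem, x => Mem p (x 0) (x 1)

/-- the forcing relation -/
def Forces : {n : ℕ} → setL.BoundedFormula Empty n → P → (ℕ → Tm M P) → Prop
  | _, .falsum, _, _ => False
  | _, .equal t1 t2, p, v => TEq p (v (tidx t1)) (v (tidx t2))
  | _, .rel R ts, p, v => RelF p R fun i => v (tidx (ts i))
  | _, .imp φ ψ, p, v => ∀ (c : M) r, r ≤ c • p → Forces φ r (c • v) → Forces ψ r (c • v)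
  | n, .all φ, p, v => ∀ (c : M) r, r ≤ c • p → ∀ t, Forces φ r (Function.update (c • v) n t)

@[simp] theorem smul_update (c : M) (v : ℕ → Tm M P) (n : ℕ) (t : Tm M P) :
    c • Function.update v n t = Function.update (c • v) n (c • t) := by
  funext i
  by_cases h : i = n
  · subst h; simp
  · simp [Function.update_of_ne h]

variable {n : ℕ}

@[simp] theorem forces_bot {p : P} {v : ℕ → Tm M P} :
    Forces (⊥ : setL.BoundedFormula Empty n) p v ↔ False := Iff.rfl

@[simp] theorem forces_vmem {i j : Fin n} {p : P} {v : ℕ → Tm M P} :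
    Forces (vmem i j) p v ↔ Mem p (v i) (v j) := Iff.rfl

@[simp] theorem forces_veq {i j : Fin n} {p : P} {v : ℕ → Tm M P} :
    Forces (veq i j) p v ↔ TEq p (v i) (v j) := Iff.rfl

theorem forces_imp {φ ψ : setL.BoundedFormula Empty n} {p : P} {v : ℕ → Tm M P} :
    Forces (φ ⟹ ψ) p v ↔
      ∀ (c : M) r, r ≤ c • p → Forces φ r (c • v) → Forces ψ r (c • v) := Iff.rfl

theorem forces_all {φ : setL.BoundedFormula Empty (n + 1)} {p : P} {v : ℕ → Tm M P} :
    Forces (∀' φ) p v ↔
      ∀ (c : M) r, r ≤ c • p → ∀ t, Forces φ r (Function.update (c • v) n t) := Iff.rfl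

theorem forces_not {φ : setL.BoundedFormula Empty n} {p : P} {v : ℕ → Tm M P} :
    Forces (∼φ) p v ↔ ∀ (c : M) r, r ≤ c • p → ¬ Forces φ r (c • v) := Iff.rfl

variable [OrderTop P] [Frame M P]

theorem Forces.mono {φ : setL.BoundedFormula Empty n} {p r : P} {c : M} {v : ℕ → Tm M P}
    (h : Forces φ p v) (hr : r ≤ c • p) : Forces φ r (c • v) := by
  induction φ generalizing p r c v with
  | falsum => exact h
  | equal t1 t2 => exact TEq.mono h hr
  | rel R ts => cases R; exact Mem.mono h hr
  | imp φ ψ _ _ =>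
    intro d s hs h1
    have := h (d * c) s (ext_trans hr hs)
    rw [mul_smul] at this
    exact this h1
  | all φ _ =>
    intro d s hs t
    have := h (d * c) s (ext_trans hr hs) t
    rwa [mul_smul] at this

theorem Forces.mono1 {φ : setL.BoundedFormula Empty n} {p r : P} {v : ℕ → Tm M P}
    (h : Forces φ p v) (hr : r ≤ p) : Forces φ r v := by
  simpa using h.mono (c := (1 : M)) (by simpa using hr)

theorem Forces.of_dense {φ : setL.BoundedFormula Empty n} {p : P} {v : ℕ → Tm M P}
    (h : Dense p fun (c : M) r => Forces φ r (c • v)) : Forces φ p v := by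
  induction φ generalizing p v with
  | falsum => obtain ⟨_, _, _, h⟩ := h.exists; exact h
  | equal t1 t2 => exact TEq.of_dense h
  | rel R ts => cases R; exact Mem.of_dense h
  | imp φ ψ _ ih =>
    intro d s hs h1
    refine ih fun e u hu => ?_
    obtain ⟨f, w, k1, k2⟩ := h (e * d) u (ext_trans hs hu)
    refine ⟨f, w, k1, ?_⟩
    have := k2 1 w (le_one_smul w)
    simp only [one_smul] at this
    have h2 := h1.mono (ext_trans hu k1)
    simp only [← mul_smul, mul_assoc] at h2 this ⊢
    exact this h2
  | all φ ih =>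
    intro d s hs t
    refine ih fun e u hu => ?_
    obtain ⟨f, w, k1, k2⟩ := h (e * d) u (ext_trans hs hu)
    refine ⟨f, w, k1, ?_⟩
    have := k2 1 w (le_one_smul w) ((f * e) • t)
    simp only [one_smul] at this
    simpa only [smul_update, ← mul_smul, mul_assoc] using this

/-- if `φ` is not forced, some extension forces its negation -/
theorem exists_forces_not {φ : setL.BoundedFormula Empty n} {p : P} {v : ℕ → Tm M P}
    (h : ¬ Forces φ p v) : ∃ (c : M) (r : P), r ≤ c • p ∧ Forces (∼φ) r (c • v) := by
  by_contra hc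
  push Not at hc
  refine h (Forces.of_dense fun c r hr => ?_)
  have := hc c r hr
  rw [forces_not] at this
  push Not at this
  obtain ⟨d, s, h1, h2⟩ := this
  exact ⟨d, s, h1, by simpa only [mul_smul] using h2⟩

theorem forces_inf {φ ψ : setL.BoundedFormula Empty n} {p : P} {v : ℕ → Tm M P} :
    Forces (φ ⊓ ψ) p v ↔ Forces φ p v ∧ Forces ψ p v := by
  change Forces (∼(φ ⟹ ∼ψ)) p v ↔ _
  constructor
  · intro h
    constructor
    · by_contra hc
      obtain ⟨c, r, h1, h2⟩ := exists_forces_not hc
      refine h c r h1 fun d s hs h3 => ?_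
      exact (h2 d s hs h3).elim
    · by_contra hc
      obtain ⟨c, r, h1, h2⟩ := exists_forces_not hc
      exact h c r h1 fun d s hs _ => h2.mono hs
  · rintro ⟨h1, h2⟩ c r hr h3
    have := h3 1 r (le_one_smul r) (by simpa using h1.mono hr) 1 r (le_one_smul r)
    exact this (by simpa using h2.mono hr)

theorem forces_sup {φ ψ : setL.BoundedFormula Empty n} {p : P} {v : ℕ → Tm M P} :
    Forces (φ ⊔ ψ) p v ↔
      Dense p fun (c : M) r => Forces φ r (c • v) ∨ Forces ψ r (c • v) := by
  change Forces (∼φ ⟹ ψ) p v ↔ _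
  constructor
  · intro h c r hr
    by_cases h1 : Forces φ r (c • v)
    · exact ⟨1, r, le_one_smul r, Or.inl (by simpa using h1)⟩
    · obtain ⟨d, s, h2, h3⟩ := exists_forces_not h1
      refine ⟨d, s, h2, Or.inr ?_⟩
      refine h (d * c) s (ext_trans hr h2) ?_
      rwa [mul_smul]
  · intro h c r hr h1
    refine Forces.of_dense fun d s hs => ?_
    obtain ⟨e, u, h2, h3⟩ := h (d * c) s (ext_trans hr hs)
    refine ⟨e, u, h2, ?_⟩
    rcases h3 with h3 | h3
    · refine (h1 (e * d) u (ext_trans hs h2) ?_).elim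
      simpa only [← mul_smul, mul_assoc] using h3
    · simpa only [← mul_smul, mul_assoc] using h3

theorem forces_ex {φ : setL.BoundedFormula Empty (n + 1)} {p : P} {v : ℕ → Tm M P} :
    Forces (∃' φ) p v ↔
      Dense p fun (c : M) r => ∃ t, Forces φ r (Function.update (c • v) n t) := by
  change Forces (∼(∀' ∼φ)) p v ↔ _
  constructor
  · intro h c r hr
    have := h c r hr
    by_contra hc
    push Not at hc
    refine this fun d s hs t e u hu h1 => ?_
    refine hc (e * d) u (ext_trans hs hu) (e • t) ?_
    simpa only [smul_update, ← mul_smul, mul_assoc] using h1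
  · intro h c r hr h1
    obtain ⟨d, s, h2, t, h3⟩ := h c r hr
    refine h1 d s h2 t 1 s (le_one_smul s) ?_
    simpa only [one_smul, ← mul_smul] using h3

theorem forces_ex_of {φ : setL.BoundedFormula Empty (n + 1)} {p : P} {v : ℕ → Tm M P}
    (t : Tm M P) (h : Forces φ p (Function.update v n t)) : Forces (∃' φ) p v := by
  rw [forces_ex]
  exact Dense.of_forall fun c r hr => ⟨c • t, by simpa using h.mono hr⟩

theorem forces_iff {φ ψ : setL.BoundedFormula Empty n} {p : P} {v : ℕ → Tm M P} :
    Forces (φ ⇔ ψ) p v ↔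
      ∀ (c : M) r, r ≤ c • p → (Forces φ r (c • v) ↔ Forces ψ r (c • v)) := by
  change Forces ((φ ⟹ ψ) ⊓ (ψ ⟹ φ)) p v ↔ _
  rw [forces_inf, forces_imp, forces_imp]
  exact ⟨fun h c r hr => ⟨h.1 c r hr, h.2 c r hr⟩,
    fun h => ⟨fun c r hr => (h c r hr).1, fun c r hr => (h c r hr).2⟩⟩

/-- `∀ x, (φ → ψ)` with one layer of extensions -/
theorem forces_all_imp {φ ψ : setL.BoundedFormula Empty (n + 1)} {p : P} {v : ℕ → Tm M P} :
    Forces (∀' (φ ⟹ ψ)) p v ↔ ∀ (c : M) r, r ≤ c • p → ∀ t,
      Forces φ r (Function.update (c • v) n t) → Forces ψ r (Function.update (c • v) n t) := by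
  rw [forces_all]
  constructor
  · intro h c r hr t
    simpa using h c r hr t 1 r (le_one_smul r)
  · intro h c r hr t d s hs
    simpa only [smul_update, ← mul_smul] using h (d * c) s (ext_trans hr hs) (d • t)

/-- `∀ x, (φ ↔ ψ)` with one layer of extensions -/
theorem forces_all_iff {φ ψ : setL.BoundedFormula Empty (n + 1)} {p : P} {v : ℕ → Tm M P} :
    Forces (∀' (φ ⇔ ψ)) p v ↔ ∀ (c : M) r, r ≤ c • p → ∀ t,
      (Forces φ r (Function.update (c • v) n t) ↔ Forces ψ r (Function.update (c • v) n t)) := by
  rw [forces_all]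
  constructor
  · intro h c r hr t
    simpa using forces_iff.1 (h c r hr t) 1 r (le_one_smul r)
  · intro h c r hr t
    rw [forces_iff]
    intro d s hs
    simpa only [smul_update, ← mul_smul] using h (d * c) s (ext_trans hr hs) (d • t)

/-- `∀ x y, φ` with one layer of extensions -/
theorem forces_all_all {φ : setL.BoundedFormula Empty (n + 1 + 1)} {p : P} {v : ℕ → Tm M P} :
    Forces (∀' ∀' φ) p v ↔ ∀ (c : M) r, r ≤ c • p → ∀ t t',
      Forces φ r (Function.update (Function.update (c • v) n t) (n + 1) t') := by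
  rw [forces_all]
  constructor
  · intro h c r hr t t'
    simpa using h c r hr t 1 r (le_one_smul r) t'
  · intro h c r hr t d s hs t'
    simpa only [smul_update, ← mul_smul] using h (d * c) s (ext_trans hr hs) (d • t) t'

end Crest.Agent.R296
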