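import Crest.Agent.R296.Filt

/-!
Row 296: clusters for arbitrary admissible data; the letter system gives a `Geo`.
-/

set_option autoImplicit false

namespace Crest.Agent.R296
namespace LSys

variable {M : Type} [Monoid M] [IsLeftCancelMul M] (S : LSys M)

/-- centre and gate of `l'` are those of `l`, moved by `g` -/
def Rel0 (g : M) (l l' : S.Let) : Prop := S.ctr l' = g • S.ctr l ∧ S.eta l' = g * S.eta l

/-- same type, tag and index -/
def Same (l l' : S.Let) : Prop := S.tri l' = S.tri l ∧ S.tag l' = S.tag l ∧ S.rho l' = S.rho l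

variable {S}

omit [IsLeftCancelMul M] in
theorem Same.symm {l l' : S.Let} (h : S.Same l l') : S.Same l' l :=
  ⟨h.1.symm, h.2.1.symm, h.2.2.symm⟩

omit [IsLeftCancelMul M] in
theorem Same.trans {l l' l'' : S.Let} (h : S.Same l l') (h' : S.Same l' l'') : S.Same l l'' :=
  ⟨h'.1.trans h.1, h'.2.1.trans h.2.1, h'.2.2.trans h.2.2⟩

omit [IsLeftCancelMul M] in
theorem Rel0.trans {a b : M} {l l' l'' : S.Let} (h : S.Rel0 a l l') (h' : S.Rel0 b l' l'') :
    S.Rel0 (b * a) l l'' :=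
  ⟨by rw [h'.1, h.1, mul_smul], by rw [h'.2, h.2, mul_assoc]⟩

theorem Rel0.cancel {a b : M} {l l' l'' : S.Let} (h : S.Rel0 (b * a) l l'')
    (h' : S.Rel0 b l' l'') : S.Rel0 a l l' :=
  ⟨Flt.smul_injective b (by
      change b • S.ctr l' = b • a • S.ctr l
      rw [← h'.1, h.1, mul_smul]),
    mul_left_cancel (a := b) (by rw [← h'.2, h.2, mul_assoc])⟩

omit [IsLeftCancelMul M] in
theorem Rel0.of_same_src {a b : M} {l l' l'' : S.Let} (h : S.Rel0 (b * a) l l'')
    (h' : S.Rel0 a l l') : S.Rel0 b l' l'' :=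
  ⟨by rw [h.1, h'.1, mul_smul], by rw [h.2, h'.2, mul_assoc]⟩

omit [IsLeftCancelMul M] in
theorem gen_code_mem (l : S.Let) (n : ℕ) : S.code l n ∈ S.ctr l := ⟨n, dvd_rfl⟩

omit [IsLeftCancelMul M] in
theorem gen_mem_smul_ctr {b x : M} {l : S.Let} : x ∈ b • S.ctr l ↔ ∃ n, x ∣ b * S.code l n :=
  ⟨fun ⟨_, ⟨n, hn⟩, hx⟩ => ⟨n, hx.trans (mul_dvd_mul_left b hn)⟩,
    fun ⟨n, hn⟩ => ⟨_, gen_code_mem l n, hn⟩⟩

omit [IsLeftCancelMul M] in
theorem gen_seqEq {b : M} {l l' : S.Let} (h : S.ctr l' = b • S.ctr l) :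
    SeqEq (S.code l') fun n => b * S.code l n :=
  ⟨fun n => gen_mem_smul_ctr.1 (h ▸ gen_code_mem l' n),
    fun m => S.mem_ctr.1 (h ▸ Flt.mul_mem_smul b (gen_code_mem l m))⟩

theorem gen_act {a : M} {l : S.Let} (h : S.lab a < S.lev l) : ∃ l', S.lev l' = S.lev l ∧
    S.Rel0 a l l' ∧ S.Same l l' ∧ ∀ j, S.X l' j = a * S.X l j := by
  obtain ⟨h1, -, h2, h3⟩ := S.act_spec a l h
  exact ⟨S.act a l, h1, ⟨S.ctr_act h, h2⟩, h3, fun j => (S.act_X h j).symm⟩

theorem gen_div (l : S.Let) (n : ℕ) : ∃ l', S.lev l' = S.lev l ∧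
    S.Rel0 (S.code l n) l' l ∧ S.Same l' l ∧ ∀ j, S.X l j = S.code l n * S.X l' j := by
  obtain ⟨l', h1, h2⟩ := S.act_div _ l (S.lab_code l n) ⟨n, dvd_rfl⟩
  have h : S.lab (S.code l n) < S.lev l' := h1 ▸ S.lab_code l n
  generalize S.code l n = a at *
  subst h2
  obtain ⟨-, -, h2, h3⟩ := S.act_spec a l' h
  exact ⟨l', h1, ⟨S.ctr_act h, h2⟩, h3, fun j => (S.act_X h j).symm⟩

theorem gen_lab_lt {g h : M} (hg : S.lab (g * h) < S.lab g) : S.lab h < S.lab g := by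
  by_contra hc
  rw [not_lt] at hc
  rw [S.lab_mul_of_le hc] at hg
  exact absurd hc hg.not_ge

/-- dividing a letter by a member of its centre that is older than `s` -/
theorem gen_div' {l : S.Let} {h : M} {s : WithBot Om} (hm : h ∈ S.ctr l) (hh : S.lab h < s)
    (hl : S.lev l ≤ s) : ∃ h' l', S.lab h' < s ∧ S.Rel0 (h * h') l' l ∧ S.Same l' l ∧
      ∀ j, S.X l j = h * h' * S.X l' j := by
  obtain ⟨m, h', e⟩ := hm
  obtain ⟨l', -, h1, h2, h3⟩ := gen_div l m
  rw [e] at h1 h3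
  refine ⟨h', l', (S.lab_div h h').trans_lt (max_lt hh ?_), h1, h2, h3⟩
  rw [← e]
  exact (S.lab_code l m).trans_le hl

/-- the descent step -/
theorem gen_desc {g : M} {l l' : S.Let} (h : S.Rel0 g l l') (h1 : S.lev l ≤ S.lab g)
    (h2 : S.lev l' ≤ S.lab g) : ∃ a b l2 l2', S.lab b < S.lab g ∧ S.Rel0 b l2 l2' ∧
      S.Same l2 l ∧ S.Same l2' l' ∧ S.eta l' = a * S.eta l2' ∧
      (∀ j, g * S.X l j = a * (b * S.X l2 j)) ∧ ∀ j, S.X l' j = a * S.X l2' j := by
  obtain ⟨n, c, e⟩ : g ∈ S.ctr l' := h.1 ▸ Flt.self_mem_smul g _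
  have hc : S.lab c < S.lab g := gen_lab_lt (e ▸ (S.lab_code l' n).trans_le h2)
  have hm : c ∈ S.ctr l := Flt.mul_mem_smul_iff.1 (h.1 ▸ e ▸ gen_code_mem l' n)
  obtain ⟨b, l2, hb, r1, s1, x1⟩ := gen_div' hm hc h1
  obtain ⟨l2', -, r2, s2, x2⟩ := gen_div l' n
  rw [e] at r2 x2
  have r3 := r1.trans h
  rw [← mul_assoc] at r3
  exact ⟨g * c, b, l2, l2', hb, r3.cancel r2, s1, s2, r2.2,
    fun j => by rw [x1]; simp only [mul_assoc], x2⟩

theorem gen_lab_one (l : S.Let) : S.lab 1 < S.lev l := by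
  rw [S.lab_one]; exact WithBot.bot_lt_coe _

omit [IsLeftCancelMul M] in
theorem gen_untreated {g : M} {l l' : S.Let} (h : S.Rel0 g l l') (hs : S.Same l l')
    (h1 : S.lev l < S.lev l') (h2 : S.lab g < S.lev l') : False :=
  S.untreated l' l g h1 h2 hs.1 hs.2.1 hs.2.2 (gen_seqEq h.1) h.2

theorem gen_ext {l l' : S.Let} (h1 : S.ctr l' = S.ctr l) (h2 : S.eta l' = S.eta l)
    (hs : S.Same l l') : l' = l := by
  have r1 : S.Rel0 1 l l' := ⟨by rw [one_smul, h1], by rw [one_mul, h2]⟩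
  have r2 : S.Rel0 1 l' l := ⟨by rw [one_smul, h1], by rw [one_mul, h2]⟩
  rcases lt_trichotomy (S.lev l) (S.lev l') with h | h | h
  · exact (gen_untreated r1 hs h (gen_lab_one _)).elim
  · refine S.let_ext l' l h.symm ?_ h2 hs.1 hs.2.1 hs.2.2
    simpa only [one_mul] using gen_seqEq r1.1
  · exact (gen_untreated r2 hs.symm h (gen_lab_one _)).elim

theorem gen_X_rel (j : Fin 3) : ∀ (s : WithBot Om) (g : M) (l l' : S.Let), S.lab g = s →
    S.Rel0 g l l' → S.Same l l' → S.X l' j = g * S.X l j := by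
  intro s
  induction s using WellFoundedLT.induction with
  | _ s ih =>
    rintro g l l' rfl hr hs
    rcases lt_or_ge (S.lab g) (S.lev l) with h1 | h1
    · obtain ⟨l3, -, r, s3, x⟩ := gen_act h1
      rw [gen_ext (hr.1.trans r.1.symm) (hr.2.trans r.2.symm) (s3.symm.trans hs), x]
    rcases lt_or_ge (S.lab g) (S.lev l') with h2 | h2
    · exact (gen_untreated hr hs (WithBot.coe_lt_coe.1 (h1.trans_lt h2)) h2).elim
    obtain ⟨a, b, l2, l2', hb, r, s1, s2, -, x1, x2⟩ := gen_desc hr h1 h2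
    rw [x1, x2, ih _ hb b l2 l2' rfl r ((s1.trans hs).trans s2.symm)]

theorem gen_X_not_mem (l : S.Let) (j : Fin 3) : S.X l j ∉ S.ctr l := fun ⟨n, hn⟩ =>
  S.eta_not_mem_ctr l ⟨n, S.eta_dvd_of_old (S.lab_code l n) hn⟩

theorem gen_meet_one {l l' : S.Let} (h1 : S.ctr l' = S.ctr l) (h2 : S.eta l' = S.eta l)
    (hne : l ≠ l') {j j' : Fin 3} {z : M} (hz : S.X l j ∣ z) (hz' : S.X l' j' ∣ z) :
    S.eta l' ∣ z := by
  by_contra hc
  rcases lt_trichotomy (S.lev l) (S.lev l') with h | h | h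
  · exact gen_X_not_mem l j (h1 ▸ S.mem_ctr_of_new
      ((S.lab_X_le l j).trans_lt (WithBot.coe_lt_coe.2 h)) hz hz' hc)
  · exact hc (S.X_meet_of_ne h.symm hne.symm (h2 ▸ S.eta_not_mem_ctr l') hz' hz)
  · exact gen_X_not_mem l' j' (h1 ▸ S.mem_ctr_of_new
      ((S.lab_X_le l' j').trans_lt (WithBot.coe_lt_coe.2 h)) hz' hz (h2 ▸ hc))

theorem gen_meet_rel (j j' : Fin 3) : ∀ (s : WithBot Om) (g : M) (l l' : S.Let), S.lab g = s →
    S.Rel0 g l l' → ¬ S.Same l l' → ∀ z, g * S.X l j ∣ z → S.X l' j' ∣ z → S.eta l' ∣ z := by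
  intro s
  induction s using WellFoundedLT.induction with
  | _ s ih =>
    rintro g l l' rfl hr hs z hz hz'
    rcases lt_or_ge (S.lab g) (S.lev l) with h1 | h1
    · obtain ⟨l3, -, r, s3, x⟩ := gen_act h1
      exact gen_meet_one (hr.1.trans r.1.symm) (hr.2.trans r.2.symm)
        (fun e => hs (e ▸ s3)) (x j ▸ hz) hz'
    rcases lt_or_ge (S.lab g) (S.lev l') with h2 | h2
    · by_contra hc
      have := S.mem_ctr_of_new ((S.lab_mul _ _).trans_lt
        (max_lt h2 (((S.lab_X_le l j).trans h1).trans_lt h2))) hz hz' hc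
      rw [hr.1, Flt.mul_mem_smul_iff] at this
      exact gen_X_not_mem l j this
    obtain ⟨a, b, l2, l2', hb, r, s1, s2, e, x1, x2⟩ := gen_desc hr h1 h2
    rw [x1] at hz
    rw [x2] at hz'
    obtain ⟨y, rfl⟩ := (Dvd.intro _ rfl : a ∣ a * _).trans hz
    rw [e]
    exact mul_dvd_mul_left a (ih _ hb b l2 l2' rfl r
      (fun h => hs ((s1.symm.trans h).trans s2)) y (dvd_cancel.1 hz) (dvd_cancel.1 hz'))

variable (S) in
/-- `(c, l)` represents the data -/
structure Rep (G : Flt M) (η : M) (T : Tri M) (t : S.Tag) (r : Om) (c : M) (l : S.Let) :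
    Prop where
  ctr : G = c • S.ctr l
  eta : η = c * S.eta l
  tri : S.tri l = T
  tag : S.tag l = t
  rho : S.rho l = r

omit [IsLeftCancelMul M] in
theorem gen_bound {A : Set M} (hA : A.Countable) (r : Om) :
    ∃ s : Om, r ≤ s ∧ ∀ a ∈ A, S.lab a < s := by
  obtain ⟨s, hs⟩ := Om.exists_gt ((hA.image fun a => (S.lab a).unbotD r).insert r)
  refine ⟨s, (hs r (Set.mem_insert _ _)).le, fun a ha => ?_⟩
  have : (S.lab a).unbotD r < s := hs _ (Set.mem_insert_of_mem _ ⟨a, ha, rfl⟩)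
  revert this
  induction S.lab a using WithBot.recBotCoe with
  | bot => exact fun _ => WithBot.bot_lt_coe _
  | coe x => exact fun h => WithBot.coe_lt_coe.2 h

theorem gen_exists {G : Flt M} {η : M} (h : Adm G η) {T : Tri M} (hT : T.OK) (t : S.Tag)
    (r : Om) : ∃ c l, S.Rep G η T t r c l := by
  obtain ⟨K, h1, h2, h3⟩ := h
  obtain ⟨f, hf, hf'⟩ := S.ctbl G
  obtain ⟨s, hr, hs⟩ := gen_bound (S := S) (A := Set.range f ∪ {η, K} ∪ Set.range T.al ∪
    Set.range (Function.uncurry T.e) ∪ Set.range (Function.uncurry T.c))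
    (((((Set.countable_range _).union (Set.toFinite _).countable).union
      (Set.countable_range _)).union (Set.countable_range _)).union (Set.countable_range _)) r
  obtain ⟨l, b, -, -, -, e1, e2, e3, e4, e5⟩ := S.complete s f η T t r
    (fun n => hs _ (by simp)) (hs _ (by simp)) (fun i => hs _ (by simp))
    (fun i j => hs _ (Or.inl (Or.inr ⟨(i, j), rfl⟩))) (fun i j => hs _ (Or.inr ⟨(i, j), rfl⟩))
    (fun n m => by
      obtain ⟨c, hc, h4, h5⟩ := G.dir (hf n) (hf m)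
      obtain ⟨p, hp⟩ := hf' c hc
      exact ⟨p, h4.trans hp, h5.trans hp⟩)
    ⟨K, hs _ (by simp), h1, h2, fun n => h3 _ (hf n)⟩
    ⟨hT.fac, hT.symm, fun i j l a b c z _ => hT.inter i j l a b c z trivial⟩ hr
  refine ⟨b, l, Flt.ext' fun x => ?_, e5, e1, e2, e3⟩
  rw [gen_mem_smul_ctr]
  constructor
  · intro hx
    obtain ⟨n, hn⟩ := hf' x hx
    obtain ⟨m, hm⟩ := e4.1 n
    exact ⟨m, hn.trans hm⟩
  · rintro ⟨m, hm⟩
    obtain ⟨n, hn⟩ := e4.2 m
    exact Flt.up (hf n) (hm.trans hn)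

theorem gen_compare {c c' : M} {l l' : S.Let} (h1 : c • S.ctr l = c' • S.ctr l')
    (h2 : c * S.eta l = c' * S.eta l') : ∃ g l1, S.Rel0 g l1 l' ∧ S.Same l1 l ∧
      ∀ j, c * S.X l j = c' * (g * S.X l1 j) := by
  obtain ⟨n, g, e⟩ := gen_mem_smul_ctr.1 (h1 ▸ Flt.self_mem_smul c' (S.ctr l'))
  obtain ⟨l1, -, r, s, x⟩ := gen_div l n
  refine ⟨g, l1, ⟨Flt.smul_injective c' ?_, mul_left_cancel (a := c') ?_⟩, s, fun j => ?_⟩
  · change c' • S.ctr l' = c' • g • S.ctr l1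
    rw [← h1, r.1, ← mul_smul, ← mul_smul, e]
  · rw [← h2, r.2, ← mul_assoc, ← mul_assoc, e]
  · rw [x, ← mul_assoc, ← mul_assoc, e]

theorem Rep.unique {G : Flt M} {η : M} {T : Tri M} {t : S.Tag} {r : Om} {c c' : M} {l l' : S.Let}
    (h : S.Rep G η T t r c l) (h' : S.Rep G η T t r c' l') (j : Fin 3) :
    c * S.X l j = c' * S.X l' j := by
  obtain ⟨g, l1, r1, s, x⟩ := gen_compare (h.ctr.symm.trans h'.ctr) (h.eta.symm.trans h'.eta)
  rw [x, gen_X_rel j _ g l1 l' rfl r1 (s.trans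
    ⟨h'.tri.trans h.tri.symm, h'.tag.trans h.tag.symm, h'.rho.trans h.rho.symm⟩)]

omit [IsLeftCancelMul M] in
theorem Rep.smul {G : Flt M} {η : M} {T : Tri M} {t : S.Tag} {r : Om} {c : M} {l : S.Let}
    (h : S.Rep G η T t r c l) (a : M) : S.Rep (a • G) (a * η) T t r (a * c) l :=
  ⟨by rw [h.ctr, mul_smul], by rw [h.eta, mul_assoc], h.tri, h.tag, h.rho⟩

theorem Rep.mul_al {G : Flt M} {η : M} {T : Tri M} {t : S.Tag} {r : Om} {c : M} {l : S.Let}
    (h : S.Rep G η T t r c l) (j : Fin 3) : c * S.X l j * T.al j = η := by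
  rw [mul_assoc, ← h.tri, S.X_mul_al, h.eta]

theorem Rep.meet {G : Flt M} {η : M} {T T' : Tri M} {t t' : S.Tag} {r r' : Om} {c c' : M}
    {l l' : S.Let} (h : S.Rep G η T t r c l) (h' : S.Rep G η T' t' r' c' l')
    (hne : (t, r) ≠ (t', r')) (j j' : Fin 3) : IsMeet (c * S.X l j) (c' * S.X l' j') η := by
  intro z
  refine ⟨fun ⟨hz, hz'⟩ => ?_, fun hz =>
    ⟨(Dvd.intro _ (h.mul_al j)).trans hz, (Dvd.intro _ (h'.mul_al j')).trans hz⟩⟩
  obtain ⟨g, l1, r1, s, x⟩ := gen_compare (h.ctr.symm.trans h'.ctr) (h.eta.symm.trans h'.eta)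
  rw [x] at hz
  obtain ⟨y, rfl⟩ := (Dvd.intro _ rfl : c' ∣ c' * _).trans hz
  rw [h'.eta]
  refine mul_dvd_mul_left c' (gen_meet_rel j j' _ g l1 l' rfl r1 (fun hs => hne ?_) y
    (dvd_cancel.1 hz) (dvd_cancel.1 hz'))
  have hs' := s.symm.trans hs
  rw [← h.tag, ← h'.tag, ← h.rho, ← h'.rho, hs'.2.1, hs'.2.2]

/-- data whose filter is generated below the index are represented by a letter -/
theorem gen_rep_one : ∀ (s : WithBot Om) (c : M) (l : S.Let), S.lab c = s →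
    (∀ x ∈ c • S.ctr l, ∃ y ∈ c • S.ctr l, x ∣ y ∧ S.lab y < S.rho l) →
    ∃ l', S.Rel0 c l l' ∧ S.Same l l' := by
  intro s
  induction s using WellFoundedLT.induction with
  | _ s ih =>
    rintro c l rfl hlow
    rcases lt_or_ge (S.lab c) (S.lev l) with h1 | h1
    · obtain ⟨l3, -, r, s3, -⟩ := gen_act h1
      exact ⟨l3, r, s3⟩
    obtain ⟨y, hy, ⟨h, rfl⟩, hl⟩ := hlow c (Flt.self_mem_smul _ _)
    have hh : S.lab h < S.lab c :=
      gen_lab_lt ((hl.trans_le (WithBot.coe_le_coe.2 (S.rho_le l))).trans_le h1)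
    obtain ⟨h', l2, hb, r1, s1, -⟩ := gen_div' (Flt.mul_mem_smul_iff.1 hy) hh h1
    have e : c • S.ctr l = (c * h) • h' • S.ctr l2 := by
      rw [r1.1, ← mul_smul, ← mul_smul, mul_assoc]
    obtain ⟨l3, r3, s3⟩ := ih _ hb h' l2 rfl fun x hx => by
      obtain ⟨w, hw, ⟨v, rfl⟩, hw'⟩ := hlow (c * h * x) (e ▸ Flt.mul_mem_smul _ hx)
      rw [mul_assoc] at hw hw'
      rw [e, Flt.mul_mem_smul_iff] at hw
      refine ⟨x * v, hw, Dvd.intro _ rfl, (S.lab_div (c * h) _).trans_lt ?_⟩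
      rw [← s1.2.2]
      exact max_lt hl hw'
    have h3 : S.lab (c * h) < S.lev l3 := by
      refine hl.trans_le (WithBot.coe_le_coe.2 ?_)
      rw [s1.2.2, ← s3.2.2]
      exact S.rho_le l3
    obtain ⟨l4, -, r4, s4, -⟩ := gen_act h3
    have r5 := r3.trans r4
    rw [mul_assoc] at r5
    exact ⟨l4, r5.of_same_src r1, (s1.symm.trans s3).trans s4⟩

theorem gen_hol_let {l : S.Let} (j : Fin 3) {K : M} (hK : S.lab K < S.lev l)
    (hK' : ¬ S.eta l ∣ K) : Hol (S.X l j) K (S.ctr l) (S.eta l) := by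
  intro W
  induction W using S.prec_wf.induction with
  | _ W ih =>
    intro Y h1 h2 h3 h4
    rcases lt_or_ge (S.lab W) (S.lev l) with h | h
    · exact S.mem_ctr_of_new h h2 h3 h4
    obtain ⟨s, hs⟩ := WithBot.ne_bot_iff_exists.1 ((WithBot.bot_lt_coe _).trans_le h).ne'
    obtain ⟨u, i, w, rfl, hn, e⟩ := S.exists_norm hs.symm
    have hX : S.X u i ∣ W := Dvd.intro _ ((S.X_mul_norm hn).trans e.symm)
    rw [← hs] at h
    have hu : S.eta u ∣ K := S.eta_dvd_of_old (hK.trans_le h) (hX.trans h1)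
    have hW : ¬ S.eta u ∣ W := fun hd =>
      S.eta_not_mem_ctr u ((S.old_dvd_cons_iff (S.lab_eta u) hn).1 (e ▸ hd))
    have hY : S.eta u ∣ Y := by
      rcases (WithBot.coe_le_coe.1 h).eq_or_lt with h | h
      · have hne : l ≠ u := fun e => hK' (e ▸ hu)
        rcases S.eta_not_mem_or l u with h5 | h5
        · exact (h4 (S.X_meet_of_ne h hne h5 h3 (hX.trans h2))).elim
        · exact S.X_meet_of_ne h.symm hne.symm h5 (hX.trans h2) h3
      · by_contra hc
        have := S.mem_ctr_of_new ((S.lab_X_le l j).trans_lt (WithBot.coe_lt_coe.2 h)) h3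
          (hX.trans h2) hc
        exact hK' (S.eta_dvd_of_old hK ((S.ctr_dvd_X i this).trans (hX.trans h1)))
    obtain ⟨m, hm, -⟩ := S.exists_meet (S.eta u) W
    exact Flt.up (ih m (S.prec_meet (hs ▸ S.lab_eta u) hW hm) Y ((hm K).1 ⟨hu, h1⟩)
      ((hm Y).1 ⟨hY, h2⟩) h3 h4) hm.right

variable (S)

open Classical in
/-- the members of the cluster attached to the data -/
noncomputable def Gen (G : Flt M) (η : M) (T : Tri M) (t : S.Tag) (r : Om) (j : Fin 3) : M :=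
  if h : ∃ p : M × S.Let, S.Rep G η T t r p.1 p.2 then h.choose.1 * S.X h.choose.2 j else 1

variable {S} in
theorem Rep.gen_eq {G : Flt M} {η : M} {T : Tri M} {t : S.Tag} {r : Om} {c : M} {l : S.Let}
    (h : S.Rep G η T t r c l) (j : Fin 3) : S.Gen G η T t r j = c * S.X l j := by
  have h' : ∃ p : M × S.Let, S.Rep G η T t r p.1 p.2 := ⟨(c, l), h⟩
  rw [Gen, dif_pos h']
  exact h'.choose_spec.unique h j

/-- the degenerate triangle -/
def genTri (α : M) : Tri M := ⟨fun _ => α, fun _ _ => α, fun _ _ => 1⟩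

omit [IsLeftCancelMul M] in
theorem genTri_ok (α : M) : (genTri α).OK :=
  ⟨fun _ _ _ => mul_one α, fun _ _ _ => rfl, fun _ _ _ _ _ _ _ _ h _ => h⟩

include S in
theorem nonempty_geo : Nonempty (Geo M) := by
  have hk : S.k ≠ 1 := fun h => absurd (S.pow_inj 1 0 (by simpa using h)) one_ne_zero
  refine ⟨{ unit_eq := S.unit_eq
            meet := fun a b => (S.exists_meet a b).imp fun _ h => h.1
            k := S.k
            k_ne := hk
            tri := fun T hT => ?_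
            Tag := S.Tag
            tagM := S.tagM
            tagOm := S.tagOm
            tagSeq := S.tagSeq
            gen := fun G η α t r => S.Gen G η (genTri α) t r 0
            gen_mul := fun G η α t r h => ?_
            gen_le := fun G η α t r h D hD => ?_
            gen_nat := fun G η α t r a h => ?_
            gen_meet := fun G η α t r α' t' r' h hne => ?_
            gen_hol := fun G η α t K h => ?_
            ctbl := S.ctbl
            iso := S.iso }⟩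
  · obtain ⟨c, l, h⟩ := gen_exists (S := S) (G := Flt.princ 1) (η := S.k)
      ⟨1, one_dvd _, hk, fun _ h => h⟩ hT (S.tagM.some 1) (Classical.arbitrary _)
    refine ⟨fun j => c * S.X l j, fun i j hij => ?_⟩
    rw [← h.tri, mul_assoc, mul_assoc]
    exact ⟨congrArg _ (S.X_mul_e l hij), (S.X_meet_sib l hij).mul_left c⟩
  · obtain ⟨c, l, hr⟩ := gen_exists (S := S) h (genTri_ok α) t r
    rw [hr.gen_eq]
    exact hr.mul_al 0
  · obtain ⟨c, l, hr⟩ := gen_exists (S := S) h (genTri_ok α) t r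
    rw [hr.gen_eq]
    obtain ⟨f, hf, hD⟩ := hr.ctr ▸ hD
    exact hD.trans (mul_dvd_mul_left c (S.ctr_dvd_X 0 hf))
  · obtain ⟨c, l, hr⟩ := gen_exists (S := S) h (genTri_ok α) t r
    rw [hr.gen_eq, (hr.smul a).gen_eq, mul_assoc]
  · obtain ⟨c, l, hr⟩ := gen_exists (S := S) h (genTri_ok α) t r
    obtain ⟨c', l', hr'⟩ := gen_exists (S := S) h (genTri_ok α') t' r'
    rw [hr.gen_eq, hr'.gen_eq]
    exact hr.meet hr' hne 0 0
  · obtain ⟨f, hf, hf'⟩ := S.ctbl G
    obtain ⟨r0, -, hs⟩ := gen_bound (S := S) ((Set.countable_range f).insert K)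
      (Classical.arbitrary _)
    refine ⟨r0, fun r hr0 => ?_⟩
    obtain ⟨c, l, hr⟩ := gen_exists (S := S) ⟨K, h⟩ (genTri_ok α) t r
    obtain ⟨l', r1, s1⟩ := gen_rep_one _ c l rfl fun x hx => by
      rw [← hr.ctr] at hx ⊢
      obtain ⟨n, hn⟩ := hf' x hx
      refine ⟨f n, hf n, hn, (hs _ (by simp)).trans_le (WithBot.coe_le_coe.2 ?_)⟩
      rwa [hr.rho]
    have e1 : G = S.ctr l' := hr.ctr.trans r1.1.symm
    have e2 : η = S.eta l' := hr.eta.trans r1.2.symm
    have hr' : S.Rep G η (genTri α) t r 1 l' := ⟨by rw [one_smul, e1], by rw [one_mul, e2],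
      s1.1.trans hr.tri, s1.2.1.trans hr.tag, s1.2.2.trans hr.rho⟩
    rw [hr'.gen_eq, one_mul]
    subst e1 e2
    refine gen_hol_let 0 ((hs K (by simp)).trans_le (WithBot.coe_le_coe.2 ?_))
      fun hd => h.2.1 (S.dvd_antisymm hd h.1)
    exact (hr0.trans hr'.rho.ge).trans (S.rho_le l')

end LSys
end Crest.Agent.R296
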