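import Crest.Agent.R296.Formula

/-!
Row 296: a theory all of whose sentences are forced has a (countable) model.
-/

set_option autoImplicit false

namespace Crest.Agent.R296

open FirstOrder FirstOrder.Language Crest.LogicCS.SetTheory

variable {M P : Type} [Monoid M] [MulAction M P] [Preorder P] [OrderTop P] [Frame M P]

theorem gen_countable_symbols : Countable setL.Symbols := by
  have h1 : ∀ l, Countable (setL.Functions l) := fun _ => inferInstanceAs (Countable Empty)
  have h2 : ∀ l, Countable (setL.Relations l) := fun l => by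
    have : Subsingleton (setL.Relations l) := ⟨fun a b => by cases a; cases b; rfl⟩
    infer_instance
  unfold Language.Symbols
  infer_instance

omit [Frame M P] in
/-- a sequence of conditions meeting countably many dense requirements infinitely often -/
theorem gen_exists_seq {ι : Type} [Countable ι] [Nonempty ι]
    (D : ι → P → (ℕ → Tm M P) → Tm M P → Prop)
    (hD : ∀ i p w, ∃ (c : M) (r : P) (t : Tm M P), r ≤ c • p ∧ D i r (c • w) t) :
    ∃ (p : ℕ → P) (w : ℕ → ℕ → Tm M P) (c : ℕ → M) (t : ℕ → Tm M P),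
      (∀ s, p (s + 1) ≤ c s • p s) ∧ (∀ s, w (s + 1) = Function.update (c s • w s) s (t s)) ∧
      ∀ i N, ∃ s, N ≤ s ∧ D i (p (s + 1)) (c s • w s) (t s) := by
  obtain ⟨f, hf⟩ := exists_surjective_nat ι
  choose c r t h1 h2 using hD
  let st : ℕ → P × (ℕ → Tm M P) := fun s => Nat.rec
    (⊤, fun _ => ⟨1, Name.mk Empty Empty.elim Empty.elim Empty.elim Empty.elim⟩)
    (fun s x => (r (f s.unpair.1) x.1 x.2,
      Function.update (c (f s.unpair.1) x.1 x.2 • x.2) s (t (f s.unpair.1) x.1 x.2))) s
  refine ⟨fun s => (st s).1, fun s => (st s).2, fun s => c (f s.unpair.1) (st s).1 (st s).2,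
    fun s => t (f s.unpair.1) (st s).1 (st s).2, fun s => h1 _ _ _, fun s => rfl, fun i N => ?_⟩
  obtain ⟨k, rfl⟩ := hf i
  refine ⟨Nat.pair k N, Nat.right_le_pair k N, ?_⟩
  have := h2 (f (Nat.pair k N).unpair.1) (st (Nat.pair k N)).1 (st (Nat.pair k N)).2
  conv at this => arg 1; rw [Nat.unpair_pair]
  exact this

/-- every formula can be decided, with a witness if a universal formula is refuted -/
theorem gen_decide {n : ℕ} (φ : setL.BoundedFormula Empty n) (p : P) (v : ℕ → Tm M P) :
    ∃ (c : M) (r : P) (t : Tm M P), r ≤ c • p ∧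
      (Forces φ r (c • v) ∨ Forces (∼φ) r (c • v)) ∧ ∀ ψ, φ = ∀' ψ →
        Forces φ r (c • v) ∨ Forces (∼ψ) r (Function.update (c • v) n t) := by
  by_cases h : Forces φ p v
  · have h' : Forces φ p ((1 : M) • v) := by rwa [one_smul]
    exact ⟨1, p, v 0, le_one_smul p, Or.inl h', fun _ _ => Or.inl h'⟩
  · obtain ⟨c, r, h1, h2⟩ := exists_forces_not h
    by_cases h3 : ∃ ψ, φ = ∀' ψ
    · obtain ⟨ψ, rfl⟩ := h3
      have h4 := forces_not.1 h2 1 r (le_one_smul r)
      rw [one_smul, forces_all] at h4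
      push Not at h4
      obtain ⟨d, s, h5, t, h6⟩ := h4
      obtain ⟨e, u, h7, h8⟩ := exists_forces_not h6
      refine ⟨e * d * c, u, e • t, ext_trans h1 (ext_trans h5 h7), Or.inr ?_, fun ψ' hψ => Or.inr ?_⟩
      · rw [mul_smul]
        exact h2.mono (ext_trans h5 h7)
      · cases hψ
        simpa only [smul_update, mul_smul] using h8
    · exact ⟨c, r, v 0, h1, Or.inr h2, fun ψ hψ => absurd ⟨ψ, hψ⟩ h3⟩

section Model
open Filter
variable (p : ℕ → P) (w : ℕ → ℕ → Tm M P)

/-- eventually forced equality -/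
def genSetoid : Setoid ℕ where
  r i j := ∀ᶠ s in atTop, TEq (p s) (w s i) (w s j)
  iseqv := ⟨fun _ => Eventually.of_forall fun _ => TEq.refl _ _,
    fun h => h.mono fun _ h => h.symm,
    fun h h' => (h.and h').mono fun _ h => h.1.trans h.2⟩

/-- the generic model -/
def GenM : Type := Quotient (genSetoid p w)

/-- the element given by a pool index -/
def genMk (i : ℕ) : GenM p w := Quotient.mk (genSetoid p w) i

theorem genMk_eq {i j : ℕ} :
    genMk p w i = genMk p w j ↔ ∀ᶠ s in atTop, TEq (p s) (w s i) (w s j) := Quotient.eq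

theorem genMk_surj : Function.Surjective (genMk p w) := Quotient.mk_surjective

instance : Nonempty (GenM p w) := ⟨genMk p w 0⟩

/-- interpretation of membership -/
def genRel : {l : ℕ} → setL.Relations l → (Fin l → GenM p w) → Prop
  | _, SetRel.mem, x => ∃ i j, x 0 = genMk p w i ∧ x 1 = genMk p w j ∧
      ∀ᶠ s in atTop, Mem (p s) (w s i) (w s j)

instance : setL.Structure (GenM p w) where
  funMap f := (show Empty from f).elim
  RelMap := genRel p w

theorem gen_realize_term {n : ℕ} (idx : ℕ → ℕ) (t : setL.Term (Empty ⊕ Fin n)) :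
    t.realize (Sum.elim default fun i : Fin n => genMk p w (idx i)) = genMk p w (idx (tidx t)) := by
  rcases t with (e | i) | f
  · exact e.elim
  · rfl
  · exact (show Empty from f).elim

variable {p w}

theorem gen_truth {c : ℕ → M} {t : ℕ → Tm M P} (hp : ∀ s, p (s + 1) ≤ c s • p s)
    (hw : ∀ s, w (s + 1) = Function.update (c s • w s) s (t s))
    (hD : ∀ (n : ℕ) (φ : setL.BoundedFormula Empty n) (idx : ℕ →₀ ℕ) (N : ℕ), ∃ s, N ≤ s ∧
      (Forces φ (p (s + 1)) (c s • (w s ∘ idx)) ∨ Forces (∼φ) (p (s + 1)) (c s • (w s ∘ idx))) ∧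
      ∀ ψ, φ = ∀' ψ → Forces φ (p (s + 1)) (c s • (w s ∘ idx)) ∨
        Forces (∼ψ) (p (s + 1)) (Function.update (c s • (w s ∘ idx)) n (t s)))
    {n : ℕ} (φ : setL.BoundedFormula Empty n) (idx : ℕ →₀ ℕ) :
    φ.Realize default (fun i : Fin n => genMk p w (idx i)) ↔
      ∀ᶠ s in atTop, Forces φ (p s) (w s ∘ idx) := by
  have hstep : ∀ (idx : ℕ → ℕ) s, (∀ i, idx i < s) → w (s + 1) ∘ idx = c s • (w s ∘ idx) := by
    intro idx s h
    funext i
    rw [hw, Function.comp_apply, Function.update_of_ne (h i).ne]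
    rfl
  have hpers : ∀ {n : ℕ} (φ : setL.BoundedFormula Empty n) (idx : ℕ → ℕ) s, (∀ i, idx i < s) →
      Forces φ (p s) (w s ∘ idx) → ∀ᶠ s in atTop, Forces φ (p s) (w s ∘ idx) := by
    intro n φ idx s h h0
    refine eventually_atTop.2 ⟨s, fun s' hs => ?_⟩
    induction s', hs using Nat.le_induction with
    | base => exact h0
    | succ s' hs ih =>
      rw [hstep idx s' fun i => (h i).trans_le hs]
      exact ih.mono (hp s')
  have hbd : ∀ idx : ℕ →₀ ℕ, ∃ N, ∀ i, idx i < N := fun idx => by
    obtain ⟨N, hN⟩ := idx.finite_range.bddAbove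
    exact ⟨N + 1, fun i => Nat.lt_succ_of_le (hN ⟨i, rfl⟩)⟩
  induction φ generalizing idx with
  | falsum => exact ⟨False.elim, fun h => let ⟨_, h⟩ := h.exists; h⟩
  | equal t1 t2 =>
    change t1.realize _ = t2.realize _ ↔ _
    rw [gen_realize_term, gen_realize_term, genMk_eq]
    rfl
  | rel R ts =>
    cases R
    change (∃ i j, (ts 0).realize _ = genMk p w i ∧ (ts 1).realize _ = genMk p w j ∧
      ∀ᶠ s in atTop, Mem (p s) (w s i) (w s j)) ↔
      ∀ᶠ s in atTop, Mem (p s) (w s (idx (tidx (ts 0)))) (w s (idx (tidx (ts 1))))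
    rw [gen_realize_term, gen_realize_term]
    refine ⟨?_, fun h => ⟨_, _, rfl, rfl, h⟩⟩
    rintro ⟨i, j, h1, h2, h3⟩
    filter_upwards [(genMk_eq p w).1 h1, (genMk_eq p w).1 h2, h3] with s k1 k2 k3
    exact (k3.congr_left k1.symm).congr_right k2.symm
  | imp φ ψ ih1 ih2 =>
    rw [BoundedFormula.realize_imp, propext (ih1 idx), propext (ih2 idx)]
    constructor
    · intro h
      obtain ⟨N, hN⟩ := hbd idx
      obtain ⟨s, hs, h1, -⟩ := hD _ φ idx N
      rw [← hstep idx s fun i => (hN i).trans_le hs] at h1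
      have hN' : ∀ i, idx i < s + 1 := fun i => ((hN i).trans_le hs).trans (Nat.lt_succ_self s)
      rcases h1 with h1 | h1
      · exact (h (hpers φ idx _ hN' h1)).mono fun s k d r hr _ => k.mono hr
      · exact (hpers _ idx _ hN' h1).mono fun s k d r hr k' => (k d r hr k').elim
    · intro h h1
      filter_upwards [h, h1] with s k1 k2
      simpa using k1 1 _ (le_one_smul _) (by simpa using k2)
  | @all n φ ih =>
    have e1 : ∀ k, (Fin.snoc (fun i : Fin n => genMk p w (idx i)) (genMk p w k) :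
        Fin (n + 1) → GenM p w) = fun i : Fin (n + 1) => genMk p w (idx.update n k i) := by
      intro k
      funext i
      refine Fin.lastCases ?_ (fun i => ?_) i
      · simp
      · simp [Function.update_of_ne i.2.ne]
    have e2 : ∀ k s, w s ∘ idx.update n k = Function.update (w s ∘ idx) n (w s k) := by
      intro k s
      rw [Finsupp.coe_update, Function.comp_update]
    rw [BoundedFormula.realize_all]
    constructor
    · intro h
      obtain ⟨N, hN⟩ := hbd idx
      obtain ⟨s, hs, -, h1⟩ := hD _ (∀' φ) idx N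
      rw [← hstep idx s fun i => (hN i).trans_le hs] at h1
      have hN' : ∀ i, idx i < s + 1 := fun i => ((hN i).trans_le hs).trans (Nat.lt_succ_self s)
      rcases h1 φ rfl with h1 | h1
      · exact hpers _ idx _ hN' h1
      · have h2 := h (genMk p w s)
        rw [e1, propext (ih (idx.update n s))] at h2
        have h3 : t s = w (s + 1) s := by rw [hw, Function.update_self]
        rw [h3, ← e2] at h1
        have h4 := hpers _ (idx.update n s) (s + 1) (fun i => by
          rw [Finsupp.coe_update]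
          rcases eq_or_ne i n with rfl | hi
          · simp
          · rw [Function.update_of_ne hi]
            exact hN' i) h1
        obtain ⟨s', k1, k2⟩ := (h2.and h4).exists
        exact (k2 1 _ (le_one_smul _) (by simpa using k1)).elim
    · intro h a
      obtain ⟨k, rfl⟩ := genMk_surj p w a
      rw [e1, propext (ih (idx.update n k))]
      refine h.mono fun s k1 => ?_
      rw [e2]
      simpa using k1 1 _ (le_one_smul _) (w s k)

end Model

theorem isSatisfiable_of_forced (T : setL.Theory)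
    (h : ∀ φ ∈ T, ∀ (p : P) (v : ℕ → Tm M P), Forces φ p v) : T.IsSatisfiable := by
  have := gen_countable_symbols
  have : Nonempty (Σ n, setL.BoundedFormula Empty n) := ⟨⟨0, ⊥⟩⟩
  obtain ⟨p, w, c, t, hp, hw, hD⟩ := gen_exists_seq (M := M) (P := P)
    (ι := (Σ n, setL.BoundedFormula Empty n) × (ℕ →₀ ℕ))
    (fun i r w t => (Forces i.1.2 r (w ∘ i.2) ∨ Forces (∼i.1.2) r (w ∘ i.2)) ∧ ∀ ψ, i.1.2 = ∀' ψ →
      Forces i.1.2 r (w ∘ i.2) ∨ Forces (∼ψ) r (Function.update (w ∘ i.2) i.1.1 t))
    (fun i p w => gen_decide i.1.2 p (w ∘ i.2))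
  have : GenM p w ⊨ T := ⟨fun φ hφ => by
    have := (gen_truth hp hw (fun n φ idx N => hD (⟨n, φ⟩, idx) N) φ 0).2
      (Filter.Eventually.of_forall fun s => h φ hφ _ _)
    rwa [Subsingleton.elim (fun i : Fin 0 => genMk p w ((0 : ℕ →₀ ℕ) i)) default] at this⟩
  exact Theory.Model.isSatisfiable (GenM p w)

end Crest.Agent.R296
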