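import Crest.Agent.R296.Supp

/-!
Row 296: the negation of the choice principle is forced.
-/

set_option autoImplicit false
set_option linter.unusedSectionVars false

namespace Crest.Agent.R296

open Cond FirstOrder FirstOrder.Language Crest.LogicCS.SetTheory

variable {M : Type} [Monoid M] [IsLeftCancelMul M]

/-- the generic sets of the filters that avoid the current node, marked by that node -/
noncomputable def petalSet : T M :=
  Tm.of (ι := {x : M × Flt M // x.1 ∉ x.2}) (fun x => x.1.1) (fun _ => ⊤)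
    (fun x => opair (gs (Flt.princ x.1.1)) (gs x.1.2))

theorem mem_petalSet {p : Cond M} {m : T M} {β : M} : Mem p m (β • petalSet) ↔
    Dense p fun (c : M) r => ∃ i : Flt M, c * β ∉ i ∧
      TEq r (c • m) (opair (gs (Flt.princ (c * β))) (gs i)) := by
  rw [petalSet, mem_of_iff]
  constructor
  · refine fun h => h.imp ?_
    rintro c r ⟨⟨⟨b, i⟩, hb⟩, γ, h1, -, h3⟩
    refine ⟨γ • i, by rw [h1, Flt.mul_mem_smul_iff]; exact hb, ?_⟩
    refine h3.trans ((smul_opair _ _ _ _).trans (opair_congr ?_ (smul_gs _ _ _)))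
    rw [h1, ← Flt.smul_princ]
    exact smul_gs _ _ _
  · refine fun h => h.imp ?_
    rintro c r ⟨i, h1, h2⟩
    exact ⟨⟨(c * β, i), h1⟩, 1, (one_mul _).symm, le_smul_top _ _, by simpa using h2⟩

/-- the family without a choice set -/
noncomputable def badFam : T M :=
  Tm.of (ι := M) (fun a => a) (fun _ => ⊤) (fun _ => petalSet)

theorem mem_badFam {p : Cond M} {m : T M} {β : M} : Mem p m (β • badFam) ↔
    Dense p fun (c : M) r => ∃ γ, γ ∣ c * β ∧ TEq r (c • m) (γ • petalSet) := by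
  rw [badFam, mem_of_iff]
  constructor
  · refine fun h => h.imp ?_
    rintro c r ⟨a, γ, h1, -, h3⟩
    exact ⟨γ, ⟨a, h1⟩, h3⟩
  · refine fun h => h.imp ?_
    rintro c r ⟨γ, ⟨a, h1⟩, h2⟩
    exact ⟨a, γ, h1, le_smul_top _ _, h2⟩

theorem Geo.badFam_nonempty (G : Geo M) {p : Cond M} {A : T M} {β : M}
    (h : Mem p A (β • badFam)) : Dense p fun (c : M) r => ∃ t, Mem r t (c • A) := by
  refine (mem_badFam.1 h).imp' ?_
  rintro c r - ⟨γ, -, h2⟩
  refine ⟨G.k, G.k • r, le_rfl, opair (gs (Flt.princ (G.k * γ))) (gs (Flt.princ 1)), ?_⟩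
  have h3 := h2.mono (le_refl (G.k • r))
  rw [← mul_smul, ← mul_smul] at h3
  refine Mem.congr_right ?_ h3.symm
  have : G.k * γ ∉ Flt.princ (1 : M) := by
    rintro ⟨d, hd⟩
    exact G.k_ne (G.unit_eq _ (γ * d) (by rw [← mul_assoc, hd]))
  simpa [petalSet] using mem_of (ι := {x : M × Flt M // x.1 ∉ x.2}) (a := fun x => x.1.1)
    (q := fun _ => (⊤ : Cond M)) (t := fun x => opair (gs (Flt.princ x.1.1)) (gs x.1.2))
    (p := G.k • r) (β := G.k * γ) (γ := 1) ⟨(G.k * γ, Flt.princ 1), this⟩ (one_mul _).symm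
    (le_smul_top _ _)

theorem Geo.badFam_disj (G : Geo M) {p : Cond M} {A B : T M} {β : M}
    (hA : Mem p A (β • badFam)) (hB : Mem p B (β • badFam))
    (h : Dense p fun (c : M) r => ∃ t, Mem r t (c • A) ∧ Mem r t (c • B)) : TEq p A B := by
  refine TEq.of_dense (h.imp' ?_)
  rintro c r hr ⟨t, h1, h2⟩
  obtain ⟨c1, r1, hr1, γ, -, k1⟩ := mem_badFam.1 hA c r hr
  obtain ⟨c2, r2, hr2, γ', -, k2⟩ := mem_badFam.1 hB _ r1 (ext_trans hr hr1)
  have k1' := k1.mono hr2
  have h1' := (h1.mono (ext_trans hr1 hr2))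
  have h2' := (h2.mono (ext_trans hr1 hr2))
  simp only [← mul_smul, mul_assoc] at k1' h1' h2' k2
  obtain ⟨c3, r3, hr3, i, -, l1⟩ := (mem_petalSet.1 (h1'.congr_right k1')).exists
  obtain ⟨c4, r4, hr4, i', -, l2⟩ := mem_petalSet.1 (h2'.congr_right k2) c3 r3 hr3
  have l1' := (l1.mono hr4).trans (smul_opair _ _ _ _)
  rw [← mul_smul] at l1'
  have l3 := (smul_gs _ _ _).symm.trans (opair_inj_left (l1'.symm.trans l2))
  have e := G.princ_inj (by simpa [Flt.smul_princ] using gs_inj l3)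
  have e' : c2 * γ = γ' := by simpa [mul_assoc] using e
  refine ⟨c2 * c1, r2, ext_trans hr1 hr2, ?_⟩
  simp only [mul_assoc]
  exact k1'.trans (e' ▸ k2.symm)

theorem Geo.no_choice (G : Geo M) {p : Cond M} {C : T M}
    (h : Dense p fun (c : M) r => ∃ t, (Mem r t (c • petalSet) ∧ Mem r t (c • C)) ∧
      ∀ (d : M) s, s ≤ d • r → ∀ u, Mem s u ((d * c) • petalSet) → Mem s u ((d * c) • C) →
        TEq s u (d • t)) : False := by
  obtain ⟨c, r, -, t, ⟨h1, h2⟩, h3⟩ := h.exists
  obtain ⟨d, s, hs, i, hi, k⟩ := (mem_petalSet.1 h1).exists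
  obtain ⟨X0, X1, e, hX⟩ := G.amalg (d * c) (d * c)
  obtain ⟨u, hu0, hu1⟩ :=
    (compat_of_meet e hX (compat_of_le (le_refl (pull (d * c) s)) le_rfl)).exists_le
  have a1 := h1.mono (ext_trans hs hu1)
  have a2 := h2.mono (ext_trans hs hu1)
  rw [← mul_smul, mul_assoc, ← e, ← mul_assoc] at a1 a2
  have a3 := h3 _ u (ext_trans hs hu0) _ a1 a2
  rw [mul_smul, mul_smul] at a3
  have a4 := ((smul_opair _ _ _ _).symm.trans ((k.mono hu1).symm.trans
    (a3.trans (k.mono hu0)))).trans (smul_opair _ _ _ _)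
  have a5 := gs_inj (((smul_gs _ _ _).symm.trans (opair_inj_right a4)).trans (smul_gs _ _ _))
  have a6 : X0 * (d * c) ∈ X0 • i :=
    Flt.meet_mem hX (Flt.self_mem_smul _ _) (a5 ▸ Flt.self_mem_smul _ _)
  exact hi (Flt.mul_mem_smul_iff.1 a6)

theorem Geo.forces_not_ac (G : Geo M) (p : Cond M) (v : ℕ → T M) : Forces (∼acAx) p v := by
  rw [forces_not]
  intro c r _ h
  rw [acAx, forces_all_imp] at h
  have h1 := h 1 r (le_one_smul r) badFam
  rw [forces_inf, forces_all_imp, forces_all_all, forces_ex] at h1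
  simp only [forces_all_imp, forces_ex, forces_inf, forces_imp, forces_vmem, forces_veq,
    smul_update] at h1
  simp [Function.update_of_ne] at h1
  obtain ⟨d, s, -, C, hC⟩ := (h1 (fun d s _ t ht => G.badFam_nonempty ht)
    (fun d s _ t t' e u _ k1 k2 k3 => by
      rw [← mul_smul] at k1 k2
      exact G.badFam_disj k1 k2 k3)).exists
  have h2 := hC 1 s (le_one_smul s) petalSet (by
    rw [one_smul, mem_badFam]
    exact Dense.of_forall fun e u _ => ⟨e, Dvd.intro _ rfl, TEq.refl _ _⟩)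
  refine G.no_choice (p := s) (C := C) ?_
  simpa only [one_smul, mul_smul] using h2

end Crest.Agent.R296
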