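import Crest.Agent.R296.Supp

/-!
Row 296: tools for the partition principle: local supports, separation of germs, holography.
-/

set_option autoImplicit false
set_option linter.unusedSectionVars false

namespace Crest.Agent.R296

open Cond

variable {M : Type} [Monoid M] [IsLeftCancelMul M]

namespace Geo
variable (G : Geo M)
include G

/-- the part of the support of `y` made of nodes that contain `b` -/
def Loc (s : Cond M) (y : T M) (b : M) : Flt M where
  carrier := {δ | δ ∈ G.Supp s y ∧ δ ∣ b}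
  one_mem' := ⟨Flt.one_mem _, one_dvd _⟩
  up' := fun h k => ⟨Flt.up h.1 k, k.trans h.2⟩
  dir' := by
    intro a a' h h'
    obtain ⟨m, hm⟩ := G.meet a a'
    exact ⟨m, ⟨Flt.meet_mem hm h.1 h'.1, (hm b).1 ⟨h.2, h'.2⟩⟩, hm.left, hm.right⟩

theorem mem_loc {s : Cond M} {y : T M} {b δ : M} :
    δ ∈ G.Loc s y b ↔ δ ∈ G.Supp s y ∧ δ ∣ b := Iff.rfl

theorem loc_congr {s : Cond M} {y y' : T M} (h : TEq s y y') (b : M) :
    G.Loc s y b = G.Loc s y' b := Flt.ext' fun x => by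
  rw [mem_loc, mem_loc, G.supp_congr h]

theorem loc_smul {s s' : Cond M} {y : T M} {c : M} (h : G.Stable s y) (hs : s' ≤ c • s) (b : M) :
    G.Loc s' (c • y) (c * b) = c • G.Loc s y b := Flt.ext' fun x => by
  rw [mem_loc, G.supp_smul h hs]
  constructor
  · rintro ⟨⟨δ, h1, h2⟩, h3⟩
    obtain ⟨m, hm⟩ := G.meet c x
    obtain ⟨γ, rfl⟩ := hm.left
    exact ⟨γ, ⟨Flt.up h1 (dvd_cancel.1 ((hm _).1 ⟨Dvd.intro _ rfl, h2⟩)),
      dvd_cancel.1 ((hm _).1 ⟨Dvd.intro _ rfl, h3⟩)⟩, hm.right⟩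
  · rintro ⟨γ, ⟨h1, h2⟩, h3⟩
    exact ⟨⟨γ, h1, h3⟩, h3.trans (mul_dvd_mul_left c h2)⟩

theorem admW_loc (s : Cond M) (y : T M) (b : M) : AdmW (G.Loc s y b) (b * G.k) b :=
  ⟨Dvd.intro _ rfl, fun h => G.k_ne (mul_left_cancel (a := b) (by rw [h, mul_one])),
    fun _ h => h.2⟩

theorem adm_loc (s : Cond M) (y : T M) (b : M) : Adm (G.Loc s y b) (b * G.k) :=
  ⟨b, G.admW_loc s y b⟩

theorem hol_smul_iff {π K η c : M} {F : Flt M} :
    Hol (c * π) (c * K) (c • F) (c * η) ↔ Hol π K F η := by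
  constructor
  · intro h W Z h1 h2 h3 h4
    exact Flt.mul_mem_smul_iff.1 (h (c * W) (c * Z) (mul_dvd_mul_left c h1)
      (mul_dvd_mul_left c h2) (mul_dvd_mul_left c h3) (by rwa [dvd_cancel]))
  · intro h W Z h1 h2 h3 h4
    obtain ⟨m, hm⟩ := G.meet c W
    obtain ⟨γ, rfl⟩ := hm.left
    obtain ⟨Z', rfl⟩ := (Dvd.intro _ rfl : c ∣ c * π).trans h3
    exact ⟨γ, h γ Z' (dvd_cancel.1 ((hm _).1 ⟨Dvd.intro _ rfl, h1⟩))
      (dvd_cancel.1 ((hm _).1 ⟨Dvd.intro _ rfl, h2⟩)) (dvd_cancel.1 h3)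
      (by rwa [dvd_cancel] at h4), hm.right⟩

end Geo

/-- `r` kills the nontrivial germs of self-similarities of `F` -/
def Sep (r : Cond M) (F : Flt M) : Prop :=
  ∀ (D D' : M) s, D • F = D' • F → s ≤ D • r → s ≤ D' • r → ∃ δ ∈ F, D * δ = D' * δ

theorem Geo.exists_sep (G : Geo M) (r : Cond M) (F : Flt M) : ∃ r' ≤ r, Sep r' F := by
  classical
  obtain ⟨Z, hZ, hiso⟩ := G.iso F
  obtain ⟨z0, hz0⟩ := exists_fresh r
  obtain ⟨φ, hφ, hφ'⟩ : ∃ φ : M → Om, Set.InjOn φ Z ∧ ∀ z, z0 ≤ φ z := by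
    obtain ⟨e, he⟩ := Set.countable_iff_exists_injOn.1 hZ
    have hinf : (Set.Ici z0).Infinite := by
      intro hf
      have : (Set.univ : Set Om) ⊆ Set.Iio z0 ∪ Set.Ici z0 := by simp
      exact Set.not_countable_univ (((Om.countable_Iio z0).union hf.countable).mono this)
    refine ⟨fun z => (hinf.natEmbedding _ (e z)).1, fun a ha b hb h => he ha hb ?_,
      fun z => (hinf.natEmbedding _ (e z)).2⟩
    exact (hinf.natEmbedding _).injective (Subtype.ext h)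
  let q : Cond M :=
    { f := fun x => if x.1 ∈ Flt.princ '' Z ∧ x.2 ∈ φ '' Z then
        some (decide (∃ z ∈ Z, φ z = x.2 ∧ x.1 = Flt.princ z)) else none
      ctb := ((hZ.image Flt.princ).prod (hZ.image φ)).mono fun x hx => by
        by_contra h
        exact hx (if_neg h) }
  have hc : Compat r q := by
    rintro ⟨i, z⟩ b b' h1 h2
    by_cases h : i ∈ Flt.princ '' Z ∧ z ∈ φ '' Z
    · obtain ⟨-, w, -, rfl⟩ := h
      rw [hz0 _ (hφ' w)] at h1
      cases h1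
    · simp only [q, if_neg h] at h2
      cases h2
  refine ⟨union r q, union_le_left _ _, fun D D' s hD hs hs' => ?_⟩
  replace hs := hs.trans (Frame.mono D (union_le_right hc))
  replace hs' := hs'.trans (Frame.mono D' (union_le_right hc))
  obtain ⟨_, hm, ⟨β, rfl⟩, ⟨β', e⟩⟩ := (D • F).dir (Flt.self_mem_smul D F)
    (hD ▸ Flt.self_mem_smul D' F)
  have h1 : β ∈ F := Flt.mul_mem_smul_iff.1 hm
  have h2 : β' ∈ F := Flt.mul_mem_smul_iff.1 (show D' * β' ∈ D' • F from e ▸ hD ▸ hm)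
  obtain ⟨γ, k1, k2, k3⟩ := hiso β β' h1 h2 fun x => by
    rw [← Flt.mul_mem_smul_iff (a := D), ← Flt.mul_mem_smul_iff (a := D') (f := β' * x),
      ← mul_assoc, ← mul_assoc, e, hD]
  have e' : D * (β * γ) = D' * (β' * γ) := by rw [← mul_assoc, ← mul_assoc, e]
  by_cases hne : β * γ = β' * γ
  · exact ⟨β * γ, k1, by rw [e', hne]⟩
  · exfalso
    have a1 : q.f (Flt.princ (β * γ), φ (β * γ)) = some true := by
      simp only [q]
      rw [if_pos ⟨⟨_, k2, rfl⟩, ⟨_, k2, rfl⟩⟩]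
      simp only [Option.some.injEq, decide_eq_true_eq]
      exact ⟨_, k2, rfl, rfl⟩
    have a2 : q.f (Flt.princ (β' * γ), φ (β * γ)) = some false := by
      simp only [q]
      rw [if_pos ⟨⟨_, k3, rfl⟩, ⟨_, k2, rfl⟩⟩]
      simp only [Option.some.injEq, decide_eq_false_iff_not]
      rintro ⟨z, l1, l2, l3⟩
      exact hne ((hφ l1 k2 l2).symm.trans (G.princ_inj l3).symm)
    have a3 := le_smul_iff.1 hs _ _ _ a1
    have a4 := le_smul_iff.1 hs' _ _ _ a2
    rw [Flt.smul_princ] at a3 a4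
    rw [← e', a3] at a4
    cases a4

end Crest.Agent.R296
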