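import Crest.Agent.R296.PP1

/-!
Row 296: the canonical one-to-one map attached to a forced surjection.
-/

set_option autoImplicit false
set_option linter.unusedSectionVars false

namespace Crest.Agent.R296

open Cond

variable {M : Type} [Monoid M] [IsLeftCancelMul M]

/-- a condition forcing that `f` maps (part of) `X` onto `Y` -/
structure PPData (M : Type) [Monoid M] [IsLeftCancelMul M] where
  G : Geo M
  p : Cond M
  X : T M
  Y : T M
  f : T M
  tg : M × M × Cond M ↪ G.Tag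
  hfun : ∀ (c : M) r, r ≤ c • p → ∀ a b b', Mem r a (c • X) → PMem r (c • f) a b →
    PMem r (c • f) a b' → TEq r b b'
  hsurj : ∀ (c : M) r, r ≤ c • p → ∀ y, Mem r y (c • Y) →
    Dense r fun (d : M) s => ∃ x, Mem s x ((d * c) • X) ∧ PMem s ((d * c) • f) x (d • y)

namespace PPData
variable (E : PPData M)

/-- descriptors -/
structure W : Type where
  i : E.Y.n.ι
  κ : M
  g : M
  r : Cond M

variable {E}

/-- the described element -/
def W.y (w : E.W) : T M := w.g • E.Y.n.ch w.i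

/-- `x` is a preimage of the described element -/
def W.Pre (w : E.W) (x : T M) : Prop :=
  Mem w.r x ((w.κ * E.G.k) • E.X) ∧ PMem w.r ((w.κ * E.G.k) • E.f) x w.y

open Classical in
/-- the chosen preimage -/
noncomputable def W.x (w : E.W) : T M := if h : ∃ x, w.Pre x then h.choose else chk 0

/-- no extension makes `y` a copy of an earlier member of the name -/
def NCB (i : E.Y.n.ι) (r : Cond M) (y : T M) : Prop :=
  ∀ (c : M) s, s ≤ c • r → ∀ i' (g : M), WellOrderingRel i' i → ¬ TEq s (c • y) (g • E.Y.n.ch i')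

theorem NCB.mono {i : E.Y.n.ι} {r s : Cond M} {y : T M} {c : M} (h : NCB i r y) (hs : s ≤ c • r) :
    NCB i s (c • y) := by
  intro d u hu i' g hi
  rw [← mul_smul]
  exact h _ u (ext_trans hs hu) i' g hi

theorem NCB.congr {i : E.Y.n.ι} {r : Cond M} {y y' : T M} (h : NCB i r y) (e : TEq r y y') :
    NCB i r y' := fun d u hu i' g hi k => h d u hu i' g hi ((e.mono hu).trans k)

structure W.Good (w : E.W) : Prop where
  le : w.r ≤ (w.κ * E.G.k) • E.p
  pre : ∃ x, w.Pre x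
  ncb : NCB w.i w.r w.y
  stable : E.G.Stable w.r w.y
  sep : Sep w.r (E.G.Loc w.r w.y w.κ)

theorem W.Good.pre_x {w : E.W} (h : w.Good) : w.Pre w.x := by
  rw [W.x, dif_pos h.pre]
  exact h.pre.choose_spec

/-- `w` describes `y` relative to the node `b` -/
def Real (w : E.W) (b : M) (s : Cond M) (y : T M) : Prop :=
  w.Good ∧ ∃ D, D * w.κ = b ∧ s ≤ D • w.r ∧ TEq s y (D • w.y)

theorem Real.mono {w : E.W} {b c : M} {s s' : Cond M} {y : T M} (h : Real w b s y)
    (hs : s' ≤ c • s) : Real w (c * b) s' (c • y) := by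
  obtain ⟨h1, D, rfl, h2, h3⟩ := h
  exact ⟨h1, c * D, mul_assoc _ _ _, ext_trans h2 hs, by rw [mul_smul]; exact h3.mono hs⟩

theorem Real.congr {w : E.W} {b : M} {s : Cond M} {y y' : T M} (h : Real w b s y)
    (e : TEq s y y') : Real w b s y' := by
  obtain ⟨h1, D, h0, h2, h3⟩ := h
  exact ⟨h1, D, h0, h2, e.symm.trans h3⟩

theorem Real.stable {w : E.W} {b : M} {s : Cond M} {y : T M} (h : Real w b s y) :
    E.G.Stable s y := by
  obtain ⟨h1, D, -, h2, h3⟩ := h
  exact (h1.stable.mono h2).congr h3.symm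

/-- no extension admits an earlier descriptor -/
def Min (w : E.W) (b : M) (s : Cond M) (y : T M) : Prop :=
  ∀ (c : M) s', s' ≤ c • s → ∀ w', WellOrderingRel w' w → ¬ Real w' (c * b) s' (c • y)

theorem Min.mono {w : E.W} {b c : M} {s s' : Cond M} {y : T M} (h : Min w b s y)
    (hs : s' ≤ c • s) : Min w (c * b) s' (c • y) := by
  intro d u hu w' hw
  rw [← mul_smul, ← mul_assoc]
  exact h _ u (ext_trans hs hu) w' hw

theorem Min.congr {w : E.W} {b : M} {s : Cond M} {y y' : T M} (h : Min w b s y)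
    (e : TEq s y y') : Min w b s y' :=
  fun d u hu w' hw k => h d u hu w' hw (k.congr (e.mono hu).symm)

/-- the petals attached to a descriptor -/
noncomputable def W.pet (w : E.W) (b : M) (F : Flt M) (z : Om) : M :=
  E.G.gen F (b * E.G.k) (w.κ * E.G.k) (E.tg (w.κ, w.g, w.r)) z

theorem W.pet_mul (w : E.W) (b : M) (s : Cond M) (y : T M) (z : Om) :
    w.pet b (E.G.Loc s y b) z * (w.κ * E.G.k) = b * E.G.k :=
  E.G.gen_mul _ _ _ _ _ (E.G.adm_loc s y b)

theorem W.pet_smul (w : E.W) {b c : M} {s s' : Cond M} {y : T M} (h : E.G.Stable s y)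
    (hs : s' ≤ c • s) (z : Om) :
    w.pet (c * b) (E.G.Loc s' (c • y) (c * b)) z = c * w.pet b (E.G.Loc s y b) z := by
  rw [W.pet, W.pet, E.G.gen_nat _ _ _ _ _ _ (E.G.adm_loc s y b), E.G.loc_smul h hs, mul_assoc]

/-- the petal with index `z` is the selected one -/
structure Sel (w : E.W) (b : M) (s : Cond M) (F : Flt M) (z : Om) : Prop where
  hol : Hol (w.pet b F z) b F (b * E.G.k)
  le : s ≤ w.pet b F z • w.r
  min : ∀ z' < z, Hol (w.pet b F z') b F (b * E.G.k) → ¬ Compat s (w.pet b F z' • w.r)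

theorem Sel.mono {w : E.W} {b c : M} {s s' : Cond M} {y : T M} {z : Om}
    (h : Sel w b s (E.G.Loc s y b) z) (hst : E.G.Stable s y) (hs : s' ≤ c • s) :
    Sel w (c * b) s' (E.G.Loc s' (c • y) (c * b)) z := by
  refine ⟨?_, ?_, fun z' hz => ?_⟩
  · rw [w.pet_smul hst hs, E.G.loc_smul hst hs, mul_assoc, E.G.hol_smul_iff]
    exact h.hol
  · rw [w.pet_smul hst hs]
    exact ext_trans h.le hs
  · rw [w.pet_smul hst hs, E.G.loc_smul hst hs, mul_assoc, E.G.hol_smul_iff, mul_smul,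
      compat_smul_iff]
    exact fun k1 k2 => h.min z' hz k1 (k2.mono (le_smul_iff_pull.1 hs) le_rfl)

variable (E) in
/-- the graph of the injection -/
def Spec (b : M) (s : Cond M) (y x : T M) : Prop :=
  ∃ (w : E.W) (z : Om), Real w b s y ∧ Min w b s y ∧ Sel w b s (E.G.Loc s y b) z ∧
    TEq s x (w.pet b (E.G.Loc s y b) z • w.x)

theorem Spec.mono {b c : M} {s s' : Cond M} {y x : T M} (h : E.Spec b s y x) (hs : s' ≤ c • s) :
    E.Spec (c * b) s' (c • y) (c • x) := by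
  obtain ⟨w, z, h1, h2, h3, h4⟩ := h
  refine ⟨w, z, h1.mono hs, h2.mono hs, h3.mono h1.stable hs, ?_⟩
  rw [w.pet_smul h1.stable hs, mul_smul]
  exact h4.mono hs

theorem Spec.congr {b : M} {s : Cond M} {y x y' x' : T M} (h : E.Spec b s y x) (e : TEq s y y')
    (e' : TEq s x x') : E.Spec b s y' x' := by
  obtain ⟨w, z, h1, h2, h3, h4⟩ := h
  rw [E.G.loc_congr e] at h3 h4
  exact ⟨w, z, h1.congr e, h2.congr e, h3, e'.symm.trans h4⟩

theorem Spec.func {b : M} {s : Cond M} {y x x' : T M} (h : E.Spec b s y x) (h' : E.Spec b s y x') :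
    TEq s x x' := by
  obtain ⟨w, z, h1, h2, h3, h4⟩ := h
  obtain ⟨w', z', k1, k2, k3, k4⟩ := h'
  have e : w = w' := by
    rcases trichotomous_of WellOrderingRel w w' with k | k | k
    · exact absurd (h1.mono (le_one_smul s)) (k2 1 s (le_one_smul s) w k)
    · exact k
    · exact absurd (k1.mono (le_one_smul s)) (h2 1 s (le_one_smul s) w' k)
  subst e
  have e : z = z' := by
    rcases lt_trichotomy z z' with k | k | k
    · exact absurd (compat_of_le le_rfl h3.le) (k3.min z k h3.hol)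
    · exact k
    · exact absurd (compat_of_le le_rfl k3.le) (h3.min z' k k3.hol)
  subst e
  exact h4.trans k4.symm

theorem Spec.mem {b : M} {s : Cond M} {y x : T M} (h : E.Spec b s y x) :
    Mem s x ((b * E.G.k) • E.X) := by
  obtain ⟨w, z, h1, -, h3, h4⟩ := h
  have := h1.1.pre_x.1.mono h3.le
  rw [← mul_smul, w.pet_mul] at this
  exact this.congr_left h4.symm

theorem Spec.inj {b : M} {s : Cond M} {y y' x : T M} (h : E.Spec b s y x) (h' : E.Spec b s y' x) :
    TEq s y y' := by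
  have hx := h.mem
  obtain ⟨w, z, ⟨h0, D, hD, h1, h2⟩, -, h3, h4⟩ := h
  obtain ⟨w', z', ⟨k0, D', kD, k1, k2⟩, -, k3, k4⟩ := h'
  set π := w.pet b (E.G.Loc s y b) z with hπ
  set π' := w'.pet b (E.G.Loc s y' b) z' with hπ'
  have m1 : π * (w.κ * E.G.k) = b * E.G.k := w.pet_mul _ _ _ _
  have m2 : π' * (w'.κ * E.G.k) = b * E.G.k := w'.pet_mul _ _ _ _
  have hp : s ≤ (b * E.G.k) • E.p := m1 ▸ ext_trans h0.le h3.le
  have f1 : PMem s ((b * E.G.k) • E.f) x (π • w.y) := by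
    have := h0.pre_x.2.mono h3.le
    rw [← mul_smul, m1] at this
    exact this.congr h4.symm (TEq.refl _ _)
  have f2 : PMem s ((b * E.G.k) • E.f) x (π' • w'.y) := by
    have := k0.pre_x.2.mono k3.le
    rw [← mul_smul, m2] at this
    exact this.congr k4.symm (TEq.refl _ _)
  have e1 : TEq s (π • w.y) (π' • w'.y) := E.hfun _ s hp _ _ _ hx f1 f2
  by_cases hA : b * E.G.k ∈ E.G.Supp s (π • w.y)
  · -- the element comes from the stage of `p`
    have key : ∀ (w : E.W) (π D : M), w.Good → π * (w.κ * E.G.k) = b * E.G.k → D * w.κ = b →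
        s ≤ π • w.r → s ≤ D • w.r → b * E.G.k ∈ E.G.Supp s (π • w.y) →
        TEq s (D • w.y) (π • w.y) := by
      intro w π D h0 m1 hD l1 l2 hA
      rw [E.G.supp_smul h0.stable l1, ← m1, Flt.mul_mem_smul_iff] at hA
      obtain ⟨u, hu⟩ := hA
      have a1 := hu.mono l1
      have a2 := hu.mono l2
      rw [← mul_smul π, m1] at a1
      rw [← mul_smul D, ← mul_assoc, hD] at a2
      exact a2.trans a1.symm
    exact (h2.trans (key w π D h0 m1 hD h3.le h1 hA)).trans (e1.trans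
      (k2.trans (key w' π' D' k0 m2 kD k3.le k1 (E.G.supp_congr e1 ▸ hA))).symm)
  · obtain ⟨Z, hZ, z1, z2⟩ := (E.G.Supp s (π • w.y)).dir
      (show π ∈ E.G.Supp s (π • w.y) from ⟨_, TEq.refl _ _⟩)
      (show π' ∈ E.G.Supp s (π • w.y) from ⟨_, e1⟩)
    have hZ' : ¬ b * E.G.k ∣ Z := fun k => hA (Flt.up hZ k)
    have eF : E.G.Loc s y b = E.G.Loc s y' b := Flt.ext' fun δ =>
      ⟨fun k => k3.hol δ Z k.2 ((E.G.gen_le _ _ _ _ _ (E.G.adm_loc s y b) δ k).trans z1) z2 hZ',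
        fun k => h3.hol δ Z k.2 ((E.G.gen_le _ _ _ _ _ (E.G.adm_loc s y' b) δ k).trans z2) z1 hZ'⟩
    have et : (E.tg (w.κ, w.g, w.r), z) = (E.tg (w'.κ, w'.g, w'.r), z') := by
      by_contra hne
      have := E.G.gen_meet _ _ (w.κ * E.G.k) _ _ (w'.κ * E.G.k) _ _ (E.G.adm_loc s y b) hne
      refine hZ' ((this Z).1 ⟨z1, ?_⟩)
      rw [eF]
      exact z2
    have ei : w.i = w'.i := by
      rcases trichotomous_of WellOrderingRel w.i w'.i with k | k | k
      · refine absurd ?_ (k0.ncb π' s k3.le w.i (π * w.g) k)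
        rw [mul_smul]
        exact e1.symm
      · exact k
      · refine absurd ?_ (h0.ncb π s h3.le w'.i (π' * w'.g) k)
        rw [mul_smul]
        exact e1
    have ew : w = w' := by
      have := E.tg.injective (Prod.mk.inj et).1
      simp only [Prod.mk.injEq] at this
      obtain ⟨i, κ, g, r⟩ := w
      obtain ⟨i', κ', g', r'⟩ := w'
      simp only at this ei
      rw [ei, this.1, this.2.1, this.2.2]
    subst ew
    have l1 : E.G.Loc s y b = D • E.G.Loc w.r w.y w.κ := by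
      rw [E.G.loc_congr h2, ← hD, E.G.loc_smul h0.stable h1]
    have l2 : E.G.Loc s y' b = D' • E.G.Loc w.r w.y w.κ := by
      rw [E.G.loc_congr k2, ← kD, E.G.loc_smul h0.stable k1]
    obtain ⟨δ, ⟨⟨u, hu⟩, -⟩, hδ⟩ := h0.sep D D' s (by rw [← l1, ← l2, eF]) h1 k1
    have a1 := hu.mono h1
    have a2 := hu.mono k1
    rw [← mul_smul D δ, hδ] at a1
    rw [← mul_smul D' δ] at a2
    exact (h2.trans a1).trans (k2.trans a2).symm

theorem exists_real {b : M} {s : Cond M} {y : T M} (hs : s ≤ (b * E.G.k) • E.p)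
    (hy : Mem s y ((b * E.G.k) • E.Y)) :
    ∃ (w : E.W) (c : M) (s' : Cond M), s' ≤ c • s ∧ Real w (c * b) s' (c • y) := by
  obtain ⟨i, ⟨c1, s1, g, h1, h2⟩, hmin⟩ := WellFounded.has_min
    (IsWellFounded.wf (r := (WellOrderingRel : E.Y.n.ι → E.Y.n.ι → Prop)))
    {i | ∃ (c : M) (s' : Cond M) (g : M), s' ≤ c • s ∧ TEq s' (c • y) (g • E.Y.n.ch i)} (by
      obtain ⟨c, r, hr, j, -, -, h⟩ := (mem_iff_dense.1 hy).exists
      exact ⟨j.i, c, r, j.g, hr, h⟩)
  have n0 : NCB i s y := fun c u hu i' g' hi k => hmin i' ⟨c, u, g', hu, k⟩ hi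
  obtain ⟨c2, s2, h3, x, h4, h5⟩ := E.hsurj _ s hs y hy c1 s1 h1
  have h6 : TEq s2 ((c2 * c1) • y) ((c2 * g) • E.Y.n.ch i) := by
    rw [mul_smul, mul_smul]
    exact h2.mono h3
  obtain ⟨s3, h7, h8⟩ := E.G.exists_stable s2 ((c2 * g) • E.Y.n.ch i)
  obtain ⟨s4, h9, h10⟩ := E.G.exists_sep s3
    (E.G.Loc s3 ((c2 * g) • E.Y.n.ch i) (c2 * c1 * b))
  have l1 : s4 ≤ s2 := h9.trans h7
  have l2 : s4 ≤ (c2 * c1) • s := l1.trans (ext_trans h1 h3)
  refine ⟨⟨i, c2 * c1 * b, c2 * g, s4⟩, c2 * c1, s4, l2, ⟨?_, ⟨x, ?_, ?_⟩,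
    (n0.mono l2).congr (h6.mono1 l1), h8.mono1 h9, ?_⟩, 1, one_mul _, le_one_smul _, ?_⟩
  · simpa only [mul_assoc] using ext_trans hs l2
  · simpa only [mul_assoc] using h4.mono1 l1
  · simpa only [mul_assoc, W.y] using (h5.congr (TEq.refl _ _) h6).mono1 l1
  · have : E.G.Loc s4 ((c2 * g) • E.Y.n.ch i) (c2 * c1 * b) =
        E.G.Loc s3 ((c2 * g) • E.Y.n.ch i) (c2 * c1 * b) := Flt.ext' fun δ => by
      rw [Geo.mem_loc, Geo.mem_loc, h8.supp_eq h9]
    show Sep s4 (E.G.Loc s4 ((c2 * g) • E.Y.n.ch i) (c2 * c1 * b))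
    rwa [this]
  · rw [one_smul]
    exact h6.mono1 l1

theorem exists_spec {b : M} {s : Cond M} {y : T M} (hs : s ≤ (b * E.G.k) • E.p)
    (hy : Mem s y ((b * E.G.k) • E.Y)) :
    ∃ (c : M) (s' : Cond M), s' ≤ c • s ∧ ∃ x, E.Spec (c * b) s' (c • y) x := by
  obtain ⟨w, ⟨c, s1, h1, h2⟩, hmin⟩ := WellFounded.has_min
    (IsWellFounded.wf (r := (WellOrderingRel : E.W → E.W → Prop)))
    {w | ∃ (c : M) (s' : Cond M), s' ≤ c • s ∧ Real w (c * b) s' (c • y)} (exists_real hs hy)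
  have m0 : Min w b s y := fun c u hu w' hw k => hmin w' ⟨c, u, hu, k⟩ hw
  set F := E.G.Loc s1 (c • y) (c * b) with hF
  obtain ⟨z1, hz1⟩ := E.G.gen_hol F (c * b * E.G.k) (w.κ * E.G.k) (E.tg (w.κ, w.g, w.r)) (c * b)
    (E.G.admW_loc _ _ _)
  obtain ⟨z2, hz2⟩ := exists_compat (π := w.pet (c * b) F) (w.pet_mul _ _ _)
    (fun z z' hz => E.G.gen_meet _ _ _ _ _ _ _ _ (E.G.adm_loc _ _ _) (by simpa using hz))
    (s := s1) (r := w.r) (by
      obtain ⟨-, D, hD, l1, -⟩ := h2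
      refine compat_of_le le_rfl ?_
      rw [← hD, mul_assoc, pull_mul]
      exact pull_mono _ (le_smul_iff_pull.1 l1))
  obtain ⟨z, ⟨hz, hz'⟩, zmin⟩ := WellFounded.has_min (wellFounded_lt (α := Om))
    {z | Hol (w.pet (c * b) F z) (c * b) F (c * b * E.G.k) ∧ Compat s1 (w.pet (c * b) F z • w.r)}
    ⟨max z1 z2, hz1 _ (le_max_left _ _), hz2 _ (le_max_right _ _)⟩
  obtain ⟨s2, l1, l2⟩ := hz'.exists_le
  have eF : E.G.Loc s2 (c • y) (c * b) = F := Flt.ext' fun δ => by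
    rw [Geo.mem_loc, Geo.mem_loc, h2.stable.supp_eq l1]
  refine ⟨c, s2, l1.trans h1, _, w, z, ?_, m0.mono (l1.trans h1), ?_, TEq.refl _ _⟩
  · simpa only [one_mul, one_smul] using h2.mono (c := 1) (by simpa using l1)
  · rw [eF]
    exact ⟨hz, l2, fun z' k1 k2 k3 => zmin z' ⟨k2, k3.mono l1 le_rfl⟩ k1⟩

variable (E) in
theorem exists_graph : ∃ g : T M, ∀ (c : M) r u v, PMem r (c • g) u v ↔
    Dense r fun (d : M) s => E.Spec (d * c) s (d • u) (d • v) := by
  let yy : E.W × M × Om × Cond M → T M := fun a => a.2.1 • a.1.y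
  let bb : E.W × M × Om × Cond M → M := fun a => a.2.1 * a.1.κ
  let xx : E.W × M × Om × Cond M → T M := fun a =>
    a.1.pet (bb a) (E.G.Loc a.2.2.2 (yy a) (bb a)) a.2.2.1 • a.1.x
  refine ⟨Tm.of (ι := {a : E.W × M × Om × Cond M // E.Spec (bb a) a.2.2.2 (yy a) (xx a)})
    (fun a => bb a.1) (fun a => a.1.2.2.2) (fun a => opair (yy a.1) (xx a.1)), fun c r u v => ?_⟩
  rw [pmem_of_iff]
  constructor
  · refine fun h => h.imp ?_
    rintro d s ⟨⟨a, ha⟩, γ, h1, h2, h3, h4⟩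
    rw [h1]
    exact (ha.mono h2).congr h3.symm h4.symm
  · refine fun h => h.imp ?_
    intro d s ha
    obtain ⟨w, z, ⟨h0, D, hD, h1, h2⟩, h3, h4, h5⟩ := id ha
    rw [E.G.loc_congr h2, ← hD] at h5
    refine ⟨⟨(w, D, z, s), ?_⟩, 1, by rw [one_mul]; exact hD.symm, le_one_smul _,
      by rw [one_smul]; exact h2, by rw [one_smul]; exact h5⟩
    rw [← hD] at ha
    exact ha.congr h2 h5

end PPData

end Crest.Agent.R296
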