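import Crest.Agent.R296.PP2

/-!
Row 296: the partition principle is forced.
-/

set_option autoImplicit false
set_option linter.unusedSectionVars false

namespace Crest.Agent.R296

open Cond FirstOrder FirstOrder.Language Crest.LogicCS.SetTheory

section General
variable {M P : Type} [Monoid M] [MulAction M P] [Preorder P] [OrderTop P] [Frame M P] {n : ℕ}

/-- `∀ x y z, (φ → ψ)` with one layer of extensions -/
theorem forces_all3_imp {φ ψ : setL.BoundedFormula Empty (n + 1 + 1 + 1)} {p : P}
    {v : ℕ → Tm M P} : Forces (∀' ∀' ∀' (φ ⟹ ψ)) p v ↔ ∀ (c : M) r, r ≤ c • p → ∀ t t' t'',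
      Forces φ r (Function.update (Function.update (Function.update (c • v) n t) (n + 1) t')
        (n + 1 + 1) t'') →
      Forces ψ r (Function.update (Function.update (Function.update (c • v) n t) (n + 1) t')
        (n + 1 + 1) t'') := by
  rw [forces_all_all]
  constructor
  · intro h c r hr t t' t''
    simpa using forces_all_imp.1 (h c r hr t t') 1 r (le_one_smul r) t''
  · intro h c r hr t t'
    rw [forces_all_imp]
    intro d s hs t''
    simpa only [smul_update, ← mul_smul] using h (d * c) s (ext_trans hr hs) (d • t) (d • t') t''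

theorem update3_fst (v : ℕ → Tm M P) (t t' t'' : Tm M P) :
    Function.update (Function.update (Function.update v n t) (n + 1) t') (n + 1 + 1) t'' n = t := by
  rw [Function.update_of_ne (by omega), Function.update_of_ne (by omega), Function.update_self]

theorem forces_surjGraph {f X Y : Fin n} {p : P} {v : ℕ → Tm M P}
    (h : Forces (surjGraph f X Y) p v) :
    (∀ (c : M) r, r ≤ c • p → ∀ a b b', Mem r a (c • v X) → PMem r (c • v f) a b →
      PMem r (c • v f) a b' → TEq r b b') ∧
    (∀ (c : M) r, r ≤ c • p → ∀ y, Mem r y (c • v Y) →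
      Dense r fun (d : M) s => ∃ x, Mem s x ((d * c) • v X) ∧ PMem s ((d * c) • v f) x (d • y)) := by
  rw [surjGraph, forces_inf, forces_inf, forces_all3_imp] at h
  obtain ⟨⟨-, h2⟩, h3⟩ := h
  rw [forces_all_imp] at h3
  simp only [forces_ex, forces_inf, forces_vmem, forces_veq, smul_update, forces_pairMem,
    Fin.val_last, Fin.val_castSucc] at h2 h3
  simp [Function.update_of_ne, update3_fst] at h2 h3
  exact ⟨h2, by simpa only [mul_smul] using h3⟩

theorem forces_injGraph {g X Y : Fin n} {p : P} {v : ℕ → Tm M P}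
    (h1 : ∀ (c : M) r, r ≤ c • p → ∀ y, Mem r y (c • v Y) →
      Dense r fun (d : M) s => ∃ x, Mem s x ((d * c) • v X) ∧ PMem s ((d * c) • v g) (d • y) x)
    (h2 : ∀ (c : M) r, r ≤ c • p → ∀ a b b', PMem r (c • v g) a b →
      PMem r (c • v g) a b' → TEq r b b')
    (h3 : ∀ (c : M) r, r ≤ c • p → ∀ a a' b, PMem r (c • v g) a b →
      PMem r (c • v g) a' b → TEq r a a') : Forces (injGraph g Y X) p v := by
  rw [injGraph, forces_inf, forces_inf, forces_all3_imp, forces_all3_imp, forces_all_imp]
  simp only [forces_ex, forces_inf, forces_vmem, forces_veq, smul_update, forces_pairMem,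
    Fin.val_last, Fin.val_castSucc]
  simp [Function.update_of_ne, update3_fst]
  exact ⟨⟨by simpa only [mul_smul] using h1, fun c r hr a b b' _ => h2 c r hr a b b'⟩,
    fun c r hr a a' b _ _ => h3 c r hr a a' b⟩

end General

variable {M : Type} [Monoid M] [IsLeftCancelMul M]

theorem Geo.forces_pp (G : Geo M) (p : Cond M) (v : ℕ → T M) : Forces ppAx p v := by
  rw [ppAx, forces_all_all]
  intro c r _ X Y
  rw [forces_imp]
  intro c1 r1 _
  rw [forces_ex, forces_ex]
  intro h c2 r2 hr2
  obtain ⟨c3, r3, hr3, f, hf⟩ := h c2 r2 hr2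
  obtain ⟨h1, h2⟩ := forces_surjGraph hf
  simp [Function.update_of_ne] at h1 h2
  obtain ⟨tg⟩ := G.exists_tag
  let E : PPData M := ⟨G, r3, (c3 * c2) • c1 • X, (c3 * c2) • c1 • Y, f, tg, h1, h2⟩
  obtain ⟨g, hg⟩ := E.exists_graph
  refine ⟨G.k * c3, G.k • r3, ext_trans hr3 le_rfl, g, forces_injGraph ?_ ?_ ?_⟩
  · simp [Function.update_of_ne]
    intro d s hs y hy e u hu
    have k1 : u ≤ (e * d * E.G.k) • E.p := ext_trans le_rfl (ext_trans hs hu)
    obtain ⟨a, w, hw, x, hx⟩ := PPData.exists_spec (E := E) k1 (y := e • y)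
      (by simpa only [E, ← mul_smul, mul_assoc] using hy.mono hu)
    refine ⟨a, w, hw, x, by simpa only [E, ← mul_smul, mul_assoc] using hx.mem, ?_⟩
    rw [hg]
    refine Dense.of_forall fun b z hz => ?_
    simpa only [← mul_smul, mul_assoc] using hx.mono hz
  · simp [Function.update_of_ne]
    intro d s _ a b b' k1 k2
    rw [hg] at k1 k2
    refine TEq.of_dense (k1.imp' fun e u hu k3 => ?_)
    obtain ⟨e', u', hu', k4⟩ := k2 e u hu
    refine ⟨e', u', hu', ?_⟩
    have k5 := k3.mono hu'
    simp only [← mul_smul, ← mul_assoc] at k5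
    exact k5.func k4
  · simp [Function.update_of_ne]
    intro d s _ a a' b k1 k2
    rw [hg] at k1 k2
    refine TEq.of_dense (k1.imp' fun e u hu k3 => ?_)
    obtain ⟨e', u', hu', k4⟩ := k2 e u hu
    refine ⟨e', u', hu', ?_⟩
    have k5 := k3.mono hu'
    simp only [← mul_smul, ← mul_assoc] at k5
    exact k5.inj k4

end Crest.Agent.R296
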