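import Crest.Agent.R296.Formula

/-!
Row 296: pairs, symmetrisation and check names of ordinals in the forcing language.
-/

set_option autoImplicit false
set_option linter.unusedSectionVars false

namespace Crest.Agent.R296

open FirstOrder FirstOrder.Language Crest.LogicCS.SetTheory

variable {M P : Type} [Monoid M] [MulAction M P] [Preorder P] [OrderTop P] [Frame M P]

/-- symmetrisation: a term whose copies over `c` all agree comes from the stage `c` -/
theorem exists_supp {p : P} {c : M} {t : Tm M P}
    (h : ∀ (a b : M) r, a * c = b * c → r ≤ a • p → r ≤ b • p → TEq r (a • t) (b • t)) :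
    ∃ u : Tm M P, TEq p t (c • u) := by
  refine ⟨Tm.of (ι := {x : PM t × P // x.2 ≤ x.1.st • p ∧ x.2 ≤ x.1.cd})
    (fun x => x.1.1.st * c) (fun x => x.1.2) (fun x => x.1.1.mem), ?_⟩
  refine TEq.of_mem_iff fun d r hr m => ⟨fun hm => ?_, fun hm => ?_⟩
  · rw [← mul_smul, mem_of_iff]
    refine (mem_iff_dense.1 hm).imp' ?_
    rintro e s hs ⟨j, rfl, h1, h2⟩
    refine ⟨1, s, le_one_smul s, ⟨(j.down, s), by simpa using ext_trans hr hs, h1⟩, 1, ?_,
      le_one_smul s, by simpa using h2⟩
    simp [mul_assoc]
  · rw [← mul_smul, mem_of_iff] at hm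
    refine Mem.of_dense (hm.imp' ?_)
    rintro e s hs ⟨⟨⟨j, r0⟩, k1, k2⟩, γ, h1, h2, h3⟩
    refine ⟨1, s, le_one_smul s, ?_⟩
    have h4 : Mem s (γ • j.mem) (γ • j.st • t) := (j.mem_of_le k2).mono h2
    have h5 := h (γ * j.st) (e * d) s (by simpa [mul_assoc] using h1.symm) (ext_trans k1 h2)
      (ext_trans hr hs)
    rw [mul_smul, mul_smul] at h5
    simpa using (h4.congr_right h5).congr_left h3.symm

/-- unordered pair -/
def upair (a b : Tm M P) : Tm M P :=
  Tm.of (ι := Bool) (fun _ => 1) (fun _ => ⊤) (fun i => cond i a b)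

/-- Kuratowski pair -/
def opair (a b : Tm M P) : Tm M P := upair (upair a a) (upair a b)

theorem mem_smul_upair {p : P} {m a b : Tm M P} {β : M} : Mem p m (β • upair a b) ↔
    Dense p fun (c : M) r => TEq r (c • m) (c • β • a) ∨ TEq r (c • m) (c • β • b) := by
  rw [upair, mem_of_iff]
  constructor
  · refine fun h => h.imp ?_
    rintro c r ⟨i, γ, h1, _, h3⟩
    rw [mul_one] at h1
    subst h1
    cases i
    · right; simpa [mul_smul] using h3
    · left; simpa [mul_smul] using h3
  · refine fun h => h.imp ?_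
    rintro c r (h | h)
    · exact ⟨true, c * β, by simp, le_smul_top _ _, by simpa [mul_smul] using h⟩
    · exact ⟨false, c * β, by simp, le_smul_top _ _, by simpa [mul_smul] using h⟩

theorem mem_upair {p : P} {m a b : Tm M P} : Mem p m (upair a b) ↔
    Dense p fun (c : M) r => TEq r (c • m) (c • a) ∨ TEq r (c • m) (c • b) := by
  simpa using mem_smul_upair (p := p) (m := m) (a := a) (b := b) (β := (1 : M))

theorem smul_upair (p : P) (c : M) (a b : Tm M P) :
    TEq p (c • upair a b) (upair (c • a) (c • b)) := by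
  refine TEq.of_mem_iff fun d r _ m => ?_
  rw [← mul_smul, mem_smul_upair, mem_smul_upair]
  simp [mul_smul]

theorem left_mem_upair (p : P) (a b : Tm M P) : Mem p a (upair a b) :=
  mem_upair.2 (Dense.of_forall fun _ _ _ => Or.inl (TEq.refl _ _))

theorem right_mem_upair (p : P) (a b : Tm M P) : Mem p b (upair a b) :=
  mem_upair.2 (Dense.of_forall fun _ _ _ => Or.inr (TEq.refl _ _))

theorem upair_congr {p : P} {a b a' b' : Tm M P} (ha : TEq p a a') (hb : TEq p b b') :
    TEq p (upair a b) (upair a' b') := by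
  refine TEq.of_mem_iff fun d r hr m => ?_
  rw [mem_smul_upair, mem_smul_upair]
  constructor
  · refine fun h => h.imp' fun e s hs k => ⟨1, s, le_one_smul s, ?_⟩
    rw [one_mul]
    exact k.imp (fun k => k.trans ((ha.mono hr).mono hs)) (fun k => k.trans ((hb.mono hr).mono hs))
  · refine fun h => h.imp' fun e s hs k => ⟨1, s, le_one_smul s, ?_⟩
    rw [one_mul]
    exact k.imp (fun k => k.trans ((ha.mono hr).mono hs).symm)
      (fun k => k.trans ((hb.mono hr).mono hs).symm)

theorem smul_opair (p : P) (c : M) (a b : Tm M P) :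
    TEq p (c • opair a b) (opair (c • a) (c • b)) :=
  (smul_upair p c _ _).trans (upair_congr (smul_upair p c _ _) (smul_upair p c _ _))

theorem opair_congr {p : P} {a b a' b' : Tm M P} (ha : TEq p a a') (hb : TEq p b b') :
    TEq p (opair a b) (opair a' b') := upair_congr (upair_congr ha ha) (upair_congr ha hb)

theorem eq_of_mem_upair_self {p : P} {m a : Tm M P} (h : Mem p m (upair a a)) : TEq p m a :=
  TEq.of_dense ((mem_upair.1 h).imp fun _ _ k => k.elim id id)

theorem opair_inj_left {p : P} {a b a' b' : Tm M P} (h : TEq p (opair a b) (opair a' b')) :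
    TEq p a a' := by
  have h1 := mem_upair.1 ((left_mem_upair p (upair a a) (upair a b)).congr_right h)
  refine TEq.of_dense (h1.imp fun c r k => ?_)
  have : Mem r (c • a') (c • upair a a) := by
    rcases k with k | k
    · exact ((left_mem_upair r _ _).congr_right (smul_upair r c a' a').symm).congr_right k.symm
    · exact ((left_mem_upair r _ _).congr_right (smul_upair r c a' b').symm).congr_right k.symm
  exact (eq_of_mem_upair_self (this.congr_right (smul_upair r c a a))).symm

theorem opair_inj_aux {p : P} {a b a' b' : Tm M P} (h : TEq p (opair a b) (opair a' b')) :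
    Dense p fun (c : M) r => TEq r (c • b) (c • a') ∨ TEq r (c • b) (c • b') := by
  have h1 := mem_upair.1 ((right_mem_upair p (upair a a) (upair a b)).congr_right h)
  refine h1.imp' fun c r _ k => ?_
  have h2 : Mem r (c • b) (c • upair a b) :=
    (right_mem_upair r _ _).congr_right (smul_upair r c a b).symm
  rcases k with k | k
  · refine ⟨1, r, le_one_smul r, Or.inl ?_⟩
    rw [one_mul]
    exact eq_of_mem_upair_self ((h2.congr_right k).congr_right (smul_upair r c a' a'))
  · obtain ⟨d, s, hs, k'⟩ := (mem_smul_upair.1 (h2.congr_right k)).exists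
    exact ⟨d, s, hs, by simpa [mul_smul] using k'⟩

theorem opair_inj_right {p : P} {a b a' b' : Tm M P} (h : TEq p (opair a b) (opair a' b')) :
    TEq p b b' := by
  have ha := opair_inj_left h
  refine TEq.of_dense ((opair_inj_aux h).imp' fun c r hr k => ?_)
  rcases k with k | k
  · obtain ⟨d, s, hs, k'⟩ := opair_inj_aux h.symm c r hr
    refine ⟨d, s, hs, ?_⟩
    rcases k' with k' | k'
    · have k1 := k.mono hs
      rw [← mul_smul, ← mul_smul] at k1
      exact k1.trans ((ha.mono (ext_trans hr hs)).symm.trans k'.symm)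
    · exact k'.symm
  · exact ⟨1, r, le_one_smul r, by simpa using k⟩

/-- `p` forces that the pair of `a` and `b` is in `f` -/
def PMem (p : P) (f a b : Tm M P) : Prop := Mem p (opair a b) f

theorem PMem.mono {p r : P} {c : M} {f a b : Tm M P} (h : PMem p f a b) (hr : r ≤ c • p) :
    PMem r (c • f) (c • a) (c • b) := (Mem.mono h hr).congr_left (smul_opair r c a b)

theorem PMem.mono1 {p r : P} {f a b : Tm M P} (h : PMem p f a b) (hr : r ≤ p) : PMem r f a b :=
  Mem.mono1 h hr

theorem PMem.congr {p : P} {f a b a' b' : Tm M P} (h : PMem p f a b) (ha : TEq p a a')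
    (hb : TEq p b b') : PMem p f a' b' := Mem.congr_left h (opair_congr ha hb)

theorem PMem.of_dense {p : P} {f a b : Tm M P}
    (h : Dense p fun (c : M) r => PMem r (c • f) (c • a) (c • b)) : PMem p f a b :=
  Mem.of_dense (h.imp fun c r k => Mem.congr_left k (smul_opair r c a b).symm)

/-- a set of pairs given by a family -/
theorem pmem_of_iff {ι : Type} {a : ι → M} {q : ι → P} {x y : ι → Tm M P} {p : P} {β : M}
    {u w : Tm M P} : PMem p (β • Tm.of a q fun i => opair (x i) (y i)) u w ↔
      Dense p fun (c : M) r => ∃ i γ, c * β = γ * a i ∧ r ≤ γ • q i ∧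
        TEq r (c • u) (γ • x i) ∧ TEq r (c • w) (γ • y i) := by
  rw [PMem, mem_of_iff]
  constructor
  · refine fun h => h.imp ?_
    rintro c r ⟨i, γ, h1, h2, h3⟩
    have := ((smul_opair r c u w).symm.trans h3).trans (smul_opair r γ _ _)
    exact ⟨i, γ, h1, h2, opair_inj_left this, opair_inj_right this⟩
  · refine fun h => h.imp ?_
    rintro c r ⟨i, γ, h1, h2, h3, h4⟩
    exact ⟨i, γ, h1, h2, ((smul_opair r c u w).trans (opair_congr h3 h4)).trans
      (smul_opair r γ _ _).symm⟩

variable {n : ℕ}

@[simp] theorem update_fin (v : ℕ → Tm M P) (t : Tm M P) (i : Fin n) :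
    Function.update v n t i = v i := Function.update_of_ne (ne_of_lt i.2) _ _

@[simp] theorem update_fin1 (v : ℕ → Tm M P) (t : Tm M P) (i : Fin n) :
    Function.update v (n + 1) t i = v i := Function.update_of_ne (by have := i.2; omega) _ _

@[simp] theorem update_fin2 (v : ℕ → Tm M P) (t : Tm M P) (i : Fin n) :
    Function.update v (n + 1 + 1) t i = v i := Function.update_of_ne (by have := i.2; omega) _ _

theorem teq_iff_mem {p : P} {t t' : Tm M P} : TEq p t t' ↔
    ∀ (c : M) r, r ≤ c • p → ∀ m, Mem r m (c • t) ↔ Mem r m (c • t') :=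
  ⟨fun h _ _ hr _ => ⟨fun k => k.congr_right (h.mono hr), fun k => k.congr_right (h.mono hr).symm⟩,
    TEq.of_mem_iff⟩

theorem forces_isUPair {w a b : Fin n} {p : P} {v : ℕ → Tm M P} :
    Forces (isUPair w a b) p v ↔ TEq p (v w) (upair (v a) (v b)) := by
  rw [isUPair, forces_all_iff, teq_iff_mem]
  refine forall₄_congr fun c r _ m => ?_
  rw [forces_sup, mem_smul_upair]
  simp

theorem forces_isSing {w a : Fin n} {p : P} {v : ℕ → Tm M P} :
    Forces (isSing w a) p v ↔ TEq p (v w) (upair (v a) (v a)) := by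
  rw [isSing, forces_all_iff, teq_iff_mem]
  refine forall₄_congr fun c r _ m => ?_
  have : Mem r m (c • upair (v a) (v a)) ↔ TEq r m (c • v a) :=
    ⟨fun h => eq_of_mem_upair_self (h.congr_right (smul_upair r c _ _)),
      fun h => ((left_mem_upair r _ _).congr_right (smul_upair r c _ _).symm).congr_left h.symm⟩
  rw [this]
  simp

theorem forces_isOPair {w a b : Fin n} {p : P} {v : ℕ → Tm M P} :
    Forces (isOPair w a b) p v ↔ TEq p (v w) (opair (v a) (v b)) := by
  rw [isOPair, forces_all_iff, teq_iff_mem]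
  refine forall₄_congr fun c r _ m => ?_
  rw [forces_sup, opair, mem_smul_upair]
  simp only [forces_vmem, Fin.val_last, Function.update_self, Fin.val_castSucc, update_fin,
    Pi.smul_apply, forces_isSing, forces_isUPair, smul_update]
  refine iff_congr Iff.rfl ⟨fun h => h.imp fun d s k => ?_, fun h => h.imp fun d s k => ?_⟩
  · simp only [← mul_smul] at k ⊢
    exact k.imp (fun k => k.trans (smul_upair s _ _ _).symm)
      (fun k => k.trans (smul_upair s _ _ _).symm)
  · simp only [← mul_smul] at k ⊢
    exact k.imp (fun k => k.trans (smul_upair s _ _ _)) (fun k => k.trans (smul_upair s _ _ _))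

theorem forces_pairMem {f a b : Fin n} {p : P} {v : ℕ → Tm M P} :
    Forces (pairMem f a b) p v ↔ PMem p (v f) (v a) (v b) := by
  rw [pairMem, forces_ex]
  simp only [forces_inf, forces_vmem, Fin.val_last, Function.update_self, Fin.val_castSucc,
    update_fin, Pi.smul_apply, forces_isOPair]
  constructor
  · refine fun h => PMem.of_dense (h.imp ?_)
    rintro c r ⟨t, h1, h2⟩
    exact h1.congr_left h2
  · intro h
    exact Dense.of_forall fun c r hr => ⟨_, h.mono hr, TEq.refl _ _⟩

/-! ### check names of ordinals -/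

/-- the canonical term of an ordinal -/
noncomputable def chk (o : Ordinal.{0}) : Tm M P :=
  Tm.of (ι := o.ToType) (fun _ => 1) (fun _ => ⊤)
    (fun i => chk (Ordinal.typein (α := o.ToType) (· < ·) i))
termination_by o
decreasing_by exact Ordinal.typein_lt_self i

theorem mem_smul_chk0 {p : P} {m : Tm M P} {β : M} {o : Ordinal.{0}} :
    Mem p m (β • chk o) ↔
      Dense p fun (c : M) r => ∃ o' < o, TEq r (c • m) (c • β • chk o') := by
  rw [chk, mem_of_iff]
  constructor
  · refine fun h => h.imp ?_
    rintro c r ⟨i, γ, h1, _, h3⟩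
    rw [mul_one] at h1
    subst h1
    exact ⟨_, Ordinal.typein_lt_self i, by simpa [mul_smul] using h3⟩
  · refine fun h => h.imp ?_
    rintro c r ⟨o', ho, h⟩
    refine ⟨Ordinal.enum (α := o.ToType) (· < ·) ⟨o', by simpa using ho⟩, c * β, by simp,
      le_smul_top _ _, ?_⟩
    simpa [mul_smul] using h

theorem smul_chk' (o : Ordinal.{0}) : ∀ (p : P) (β β' : M),
    TEq p (β • (chk o : Tm M P)) (β' • chk o) := by
  induction o using WellFoundedLT.induction with
  | ind o ih =>
    intro p β β'
    refine TEq.of_mem_iff fun c r _ m => ?_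
    rw [← mul_smul, ← mul_smul, mem_smul_chk0, mem_smul_chk0]
    constructor <;>
    · refine fun h => h.imp ?_
      rintro d s ⟨o', ho, k⟩
      refine ⟨o', ho, k.trans ?_⟩
      rw [← mul_smul, ← mul_smul]
      exact ih o' ho s _ _

theorem smul_chk (p : P) (β : M) (o : Ordinal.{0}) : TEq p (β • (chk o : Tm M P)) (chk o) := by
  simpa using smul_chk' o p β (1 : M)

theorem mem_chk {p : P} {m : Tm M P} {o : Ordinal.{0}} :
    Mem p m (chk o) ↔ Dense p fun (c : M) r => ∃ o' < o, TEq r (c • m) (chk o') := by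
  have := mem_smul_chk0 (p := p) (m := m) (β := (1 : M)) (o := o)
  rw [one_smul] at this
  rw [this]
  constructor
  · refine fun h => h.imp ?_
    rintro c r ⟨o', ho, k⟩
    exact ⟨o', ho, k.trans (by simpa using smul_chk r c o')⟩
  · refine fun h => h.imp ?_
    rintro c r ⟨o', ho, k⟩
    exact ⟨o', ho, k.trans (by simpa using (smul_chk r c o').symm)⟩

theorem chk_mem_chk (p : P) {o o' : Ordinal.{0}} (h : o' < o) :
    Mem p (chk o' : Tm M P) (chk o) :=
  mem_chk.2 (Dense.of_forall fun c r _ => ⟨o', h, smul_chk r c o'⟩)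

theorem chk_inj {o : Ordinal.{0}} : ∀ {o' : Ordinal.{0}} {p : P},
    TEq p (chk o : Tm M P) (chk o') → o = o' := by
  induction o using WellFoundedLT.induction with
  | ind o ih =>
    intro o'
    induction o' using WellFoundedLT.induction with
    | ind o' ih' =>
      intro p h
      rcases lt_trichotomy o o' with k | k | k
      · obtain ⟨c, r, _, o2, h2, h3⟩ := (mem_chk.1 ((chk_mem_chk p k).congr_right h.symm)).exists
        exact absurd (ih o2 h2 (h3.symm.trans (smul_chk r c o))) h2.ne
      · exact k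
      · obtain ⟨c, r, hr, o2, h2, h3⟩ := (mem_chk.1 ((chk_mem_chk p k).congr_right h)).exists
        have h4 : TEq r (chk o : Tm M P) (chk o2) :=
          ((smul_chk r c o).symm.trans (h.mono hr)).trans h3
        exact absurd (ih' o2 h2 h4) (h2.trans k).ne'

/-- forced transitivity -/
def TransF (p : P) (t : Tm M P) : Prop :=
  ∀ (c : M) r, r ≤ c • p → ∀ y z, Mem r z y → Mem r y (c • t) → Mem r z (c • t)

/-- forced to be an ordinal -/
def OrdF (p : P) (t : Tm M P) : Prop :=
  TransF p t ∧ ∀ (c : M) r, r ≤ c • p → ∀ y, Mem r y (c • t) → TransF r y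

theorem TransF.mono {p r : P} {c : M} {t : Tm M P} (h : TransF p t) (hr : r ≤ c • p) :
    TransF r (c • t) := by
  intro d s hs
  rw [← mul_smul]
  exact h _ s (ext_trans hr hs)

theorem OrdF.mono {p r : P} {c : M} {t : Tm M P} (h : OrdF p t) (hr : r ≤ c • p) :
    OrdF r (c • t) := by
  refine ⟨h.1.mono hr, fun d s hs => ?_⟩
  rw [← mul_smul]
  exact h.2 _ s (ext_trans hr hs)

theorem OrdF.of_mem {p : P} {t y : Tm M P} (h : OrdF p t) (hy : Mem p y t) : OrdF p y := by
  refine ⟨h.2 1 p (le_one_smul p) y (by simpa using hy), fun c r hr z hz => ?_⟩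
  exact h.2 c r hr z (h.1 c r hr _ z hz (hy.mono hr))

theorem forces_isTrans {a : Fin n} {p : P} {v : ℕ → Tm M P} :
    Forces (isTrans a) p v ↔ TransF p (v a) := by
  rw [isTrans, forces_all_all]
  constructor
  · intro h c r hr y z h1 h2
    have := h c r hr y z 1 r (le_one_smul r)
    simp only [forces_inf, one_smul] at this
    simpa [Function.update_of_ne] using this (by simpa [Function.update_of_ne] using ⟨h1, h2⟩)
  · intro h c r hr y z d s hs
    simp only [forces_inf, smul_update, ← mul_smul]
    intro k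
    have k' : Mem s (d • z) (d • y) ∧ Mem s (d • y) ((d * c) • v a) := by
      simpa [Function.update_of_ne] using k
    simpa [Function.update_of_ne] using h _ s (ext_trans hr hs) _ _ k'.1 k'.2

theorem forces_isOrd {a : Fin n} {p : P} {v : ℕ → Tm M P} :
    Forces (isOrd a) p v ↔ OrdF p (v a) := by
  rw [isOrd, forces_inf, forces_isTrans, forces_all_imp]
  simp [OrdF, forces_isTrans]

theorem OrdF.exists_chk {t : Tm M P} {p : P} (h : OrdF p t) :
    ∃ (c : M) (r : P), r ≤ c • p ∧ ∃ o, TEq r (c • t) (chk o) := by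
  induction e : t.rank using WellFoundedLT.induction generalizing t p with
  | ind ρ ih =>
    classical
    -- a bound for the ordinals that can be put into `t`
    let f : PM t × P → Ordinal.{0} := fun x =>
      if h : ∃ o, TEq x.2 x.1.mem (chk o) then h.choose else 0
    have hB : ∃ o, ∃ (c : M) (r : P), r ≤ c • p ∧
        ∀ (d : M) s, s ≤ d • r → ¬ Mem s (chk o) ((d * c) • t) := by
      refine ⟨⨆ x, Order.succ (f x), 1, p, le_one_smul p, fun d s _ hm => ?_⟩
      obtain ⟨e, u, _, j, rfl, _, h3⟩ := (mem_iff_dense.1 hm).exists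
      have h4 : TEq u j.down.mem (chk _) := h3.symm.trans (smul_chk u _ _)
      have h5 : ∃ o, TEq u j.down.mem (chk o) := ⟨_, h4⟩
      have h6 : f (j.down, u) = ⨆ x, Order.succ (f x) := by
        simp only [f, dif_pos h5]
        exact chk_inj (h5.choose_spec.symm.trans h4)
      have := Ordinal.le_iSup (fun x => Order.succ (f x)) (j.down, u)
      rw [← h6] at this
      exact absurd (Order.succ_le_iff.1 this) (lt_irrefl _)
    obtain ⟨β, ⟨c, r, hr, hβ⟩, hmin⟩ := WellFounded.has_min wellFounded_lt _ hB
    refine ⟨c, r, hr, β, TEq.of_mem_iff fun d s hs m => ⟨fun hm => ?_, fun hm => ?_⟩⟩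
    · refine Mem.congr_right ?_ (smul_chk s d β).symm
      rw [mem_chk]
      refine (mem_iff_dense.1 hm).imp' ?_
      rintro e u hu ⟨j, rfl, h2, h3⟩
      have hu' := ext_trans hr (ext_trans hs hu)
      have h4 : Mem u j.mem ((j.st * d * c) • t) := by
        simpa [mul_smul] using j.mem_of_le h2
      obtain ⟨g, w, hw, γ, h5⟩ := ih _ (e ▸ (show j.mem.rank < t.rank from j.rank_mem_lt))
        ((h.mono hu').of_mem h4) rfl
      refine ⟨g, w, hw, γ, ?_, by rw [mul_smul]; exact (h3.mono hw).trans h5⟩
      have h6 : Mem w (chk γ) ((g * (j.st * d) * c) • t) := by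
        have := (h4.mono hw).congr_left h5
        simpa only [← mul_smul, mul_assoc] using this
      have hw' := ext_trans (ext_trans hs hu) hw
      by_contra hlt
      rcases (not_lt.1 hlt).eq_or_lt with k | k
      · exact hβ _ w hw' (k ▸ h6)
      · exact hβ _ w hw' (h.1 _ w (ext_trans hr hw') _ _ (chk_mem_chk w k) h6)
    · have hm' := mem_chk.1 (hm.congr_right (smul_chk s d β))
      refine Mem.of_dense (hm'.imp' ?_)
      rintro e u hu ⟨γ, h1, h2⟩
      have := hmin γ
      have h3 : ¬ ∃ (c : M) (r : P), r ≤ c • p ∧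
          ∀ (d : M) s, s ≤ d • r → ¬ Mem s (chk γ) ((d * c) • t) := fun k => this k h1
      push Not at h3
      obtain ⟨g, w, hw, h4⟩ := h3 _ u (ext_trans hr (ext_trans hs hu))
      refine ⟨g, w, hw, ?_⟩
      have h5 := h4.congr_left ((h2.mono hw).trans (smul_chk w g γ)).symm
      simpa only [← mul_smul, mul_assoc] using h5

end Crest.Agent.R296
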