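import Crest.Agent.R296.RawEmb

/-!
Row 296: construction of the monoid with its letter system (raw words, stage by stage).
-/

set_option autoImplicit false

noncomputable section
namespace Crest.Agent.R296
open GD Wd

theorem raw_untreated (l l0 : Lt) (b : MM) (h0 : l0.1 < l.1) (hb : b.1.lab < l.1)
    (hT : l.2.T.map (io l.1) = l0.2.T.map (io l0.1)) (ht : l.2.tag = l0.2.tag)
    (hr : l.2.rho = l0.2.rho)
    (hc : SeqEq (fun n => io l.1 (l.2.cd n)) fun n => b * io l0.1 (l0.2.cd n))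
    (he : io l.1 l.2.eta = b * io l0.1 l0.2.eta) : False := by
  obtain ⟨s, l⟩ := l
  obtain ⟨s0, l0⟩ := l0
  have h0' : (s0 : WithBot Om) < s := WithBot.coe_lt_coe.2 h0
  obtain ⟨b, rfl⟩ := exists_io b hb
  refine l.untr ⟨b, encL l0, mem_lowL.2 ⟨h0', lvalid_iff.2 ⟨⟨s0, l0⟩, rfl⟩⟩,
    fun n => lift (io s0 (l0.cd n)) ((io_lab _).trans h0'),
    lift (io s0 l0.eta) ((io_lab _).trans h0'), fun _ => rfl, rfl,
    congrArg (Tri.map Subtype.val) hT, ht, hr, flt_of_seqEq l.mem_iff (seqEq_io.1 ?_),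
    io_inj (by rw [map_mul]; exact he)⟩
  simpa only [map_mul, io_lift] using hc

theorem raw_complete (s : Om) (f : ℕ → MM) (η : MM) (T : Tri MM) (t : W) (r : Om)
    (hf : ∀ n, (f n).1.lab < s) (hη : η.1.lab < s) (hal : ∀ i, (T.al i).1.lab < s)
    (he : ∀ i j, (T.e i j).1.lab < s) (hc : ∀ i j, (T.c i j).1.lab < s)
    (hd : ∀ n m, ∃ p, f n ∣ f p ∧ f m ∣ f p)
    (hK : ∃ K : MM, K.1.lab < s ∧ K ∣ η ∧ η ≠ K ∧ ∀ n, f n ∣ K)
    (hT : T.OKOn {z | z.1.lab < s}) (hr : r ≤ s) :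
    ∃ (l : Lt) (b : MM), l.1 ≤ s ∧ b.1.lab < s ∧ (l.1 = s → b = 1) ∧ l.2.T.map (io l.1) = T ∧
      l.2.tag = t ∧ l.2.rho = r ∧ SeqEq f (fun n => b * io l.1 (l.2.cd n)) ∧
      η = b * io l.1 l.2.eta := by
  choose f' hf' using fun n => exists_io (f n) (hf n)
  obtain rfl : (fun n => io s (f' n)) = f := funext hf'
  obtain ⟨η, rfl⟩ := exists_io η hη
  obtain ⟨T', rfl⟩ : ∃ T' : Tri (gd s).N, T'.map (io s) = T :=
    ⟨⟨fun i => lift _ (hal i), fun i j => lift _ (he i j), fun i j => lift _ (hc i j)⟩, rfl⟩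
  obtain ⟨K, hK0, hK1, hK2, hK3⟩ := hK
  obtain ⟨K, rfl⟩ := exists_io K hK0
  simp only [io_dvd] at hd hK1 hK3
  let F : Flt (gd s).N :=
    { carrier := {x | ∃ n, x ∣ f' n}
      one_mem' := ⟨0, one_dvd _⟩
      up' := fun ⟨n, hn⟩ hb => ⟨n, hb.trans hn⟩
      dir' := fun ⟨n, hn⟩ ⟨m, hm⟩ => by
        obtain ⟨p, h1, h2⟩ := hd n m
        exact ⟨f' p, ⟨p, dvd_rfl⟩, hn.trans h1, hm.trans h2⟩ }
  have hF : ∀ x, x ∈ F ↔ ∃ n, x ∣ f' n := fun _ => Iff.rfl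
  by_cases htr : (gd s).Treated F η T' t r
  · obtain ⟨b, l0, h0, g, e0, h1, h2, h3, h4, h5, h6, h7⟩ := htr
    obtain ⟨h8, h9⟩ := mem_lowL.1 h0
    obtain ⟨⟨s0, l0⟩, rfl⟩ := lvalid_iff.1 h9
    have h8' : s0 < s := WithBot.coe_lt_coe.1 h8
    refine ⟨⟨s0, l0⟩, io s b, h8'.le, io_lab b, fun h => absurd h h8'.ne,
      Tri.map_injective Subtype.val_injective h3.symm, h4.symm, h5.symm, ?_, ?_⟩
    · have : (fun n => io s b * io s0 (l0.cd n)) = fun n => io s (b * g n) :=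
        funext fun n => by rw [map_mul]; congr 1; exact Subtype.ext (h1 n).symm
      exact this ▸ seqEq_io.2 (seqEq_of_flt hF h6)
    · rw [h7, map_mul]; congr 1; exact Subtype.ext h2
  · let l : (gd s).AL :=
      { F := F, eta := η, T := T', tag := t, rho := r, ctbl := ⟨f', hF⟩
        adm := ⟨K, hK1, fun h => hK2 (congrArg _ h), fun D ⟨n, hn⟩ => hn.trans (hK3 n)⟩
        ok := ⟨fun i j h => io_inj (by rw [map_mul]; exact hT.fac i j h),
          fun i j h => io_inj (hT.symm i j h), fun i j k h1 h2 h3 z _ h4 h5 =>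
            io_dvd.1 (hT.inter i j k h1 h2 h3 (io s z) (io_lab z) (io_dvd.2 h4) (io_dvd.2 h5))⟩
        rho_le := hr, untr := htr }
    refine ⟨⟨s, l⟩, 1, le_rfl, WithBot.bot_lt_coe s, fun _ => rfl, rfl, rfl, rfl, ?_,
      (one_mul _).symm⟩
    simp only [one_mul]
    exact seqEq_io.2 (seqEq_of_flt hF l.mem_iff)

theorem raw_cons_mul {s : Om} (l : (gd s).AL) (j : Fin 3) (w b : MM) (hw : w.1.lab ≤ s)
    (hb : b.1.lab ≤ s) : consM ⟨s, l⟩ j w * b = consM ⟨s, l⟩ j (w * b) := by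
  obtain ⟨w, hw, rfl⟩ := exists_ka w hw
  obtain ⟨b, hb, rfl⟩ := exists_ka b hb
  rw [consM_ka, ka_mul, ka_mul, consM_ka]
  exact ka_congr _ _ ((gd s).step.mm_red l j w b)

def lsys : LSys MM where
  Tag := W
  tagM := ⟨⟨Subtype.val, Subtype.val_injective⟩⟩
  tagOm := ⟨⟨fun s => W.mk' ⟨s, fun _ => .base 0, .base 0, ⟨fun _ => .base 0, fun _ _ => .base 0,
    fun _ _ => .base 0⟩, .base 0, s⟩ 0 (.base 0), fun _ _ h => congrArg RL.s (W.mk'_inj h).1⟩⟩
  tagSeq := by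
    obtain ⟨s⟩ : Nonempty Om := inferInstance
    exact ⟨⟨fun f => W.mk' ⟨s, f, .base 0, ⟨fun _ => .base 0, fun _ _ => .base 0,
      fun _ _ => .base 0⟩, .base 0, s⟩ 0 (.base 0), fun _ _ h => congrArg RL.code (W.mk'_inj h).1⟩⟩
  lab a := a.1.lab
  k := kM
  lab_bot a := by
    constructor
    · obtain ⟨w, hw⟩ := a
      intro h
      cases w with
      | base n => exact ⟨n, Subtype.ext (base_pow n).symm⟩
      | cons => cases h
    · rintro ⟨n, rfl⟩; rw [base_pow]; rfl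
  pow_inj n m h := by
    have := congrArg Subtype.val h
    rw [base_pow, base_pow] at this
    exact W.base.inj this
  Let := Lt
  lev l := l.1
  code l n := io l.1 (l.2.cd n)
  eta l := io l.1 l.2.eta
  tri l := l.2.T.map (io l.1)
  tag l := l.2.tag
  rho l := l.2.rho
  lab_code _ _ := io_lab _
  lab_eta _ := io_lab _
  lab_al _ _ := io_lab _
  lab_e _ _ _ := io_lab _
  lab_c _ _ _ := io_lab _
  code_dir l n m := by
    obtain ⟨c, hc, h1, h2⟩ := l.2.F.dir (l.2.cd_mem n) (l.2.cd_mem m)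
    obtain ⟨p, hp⟩ := (l.2.mem_iff c).1 hc
    exact ⟨p, io_dvd.2 (h1.trans hp), io_dvd.2 (h2.trans hp)⟩
  adm l := by
    obtain ⟨K, h1, h2, h3⟩ := l.2.adm
    exact ⟨io _ K, io_lab K, io_dvd.2 h1, fun h => h2 (io_inj h),
      fun n => io_dvd.2 (h3 _ (l.2.cd_mem n))⟩
  tri_ok l := ⟨fun i j h => (map_mul _ _ _).symm.trans (congrArg _ (l.2.ok.fac i j h)),
    fun i j h => congrArg (io l.1) (l.2.ok.symm i j h), fun i j k h1 h2 h3 z hz h4 h5 => by
      obtain ⟨z, rfl⟩ := exists_io z hz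
      exact io_dvd.2 (l.2.ok.inter i j k h1 h2 h3 z trivial (io_dvd.1 h4) (io_dvd.1 h5))⟩
  rho_le l := l.2.rho_le
  let_ext := by
    rintro ⟨s, l⟩ ⟨s', l'⟩ (rfl : s = s') h1 h2 h3 h4 h5
    congr 1
    exact AL.ext (Flt.ext' fun x => by rw [flt_of_seqEq l.mem_iff (seqEq_io.1 h1), l'.mem_iff])
      (io_inj h2) (Tri.map_injective io_inj h3) h4 h5
  untreated := raw_untreated
  complete := raw_complete
  act := actM
  act_spec := by
    rintro a ⟨s, l⟩ ha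
    obtain ⟨a, rfl⟩ := exists_io a ha
    rw [actM_io]
    refine ⟨rfl, ?_, map_mul _ _ _, rfl, rfl, rfl⟩
    simp only [← map_mul]
    refine seqEq_io.2 (seqEq_of_flt (a • l).mem_iff fun x => ⟨?_, ?_⟩)
    · rintro ⟨y, hy, hx⟩
      obtain ⟨n, hn⟩ := (l.mem_iff y).1 hy
      exact ⟨n, hx.trans (mul_dvd_mul_left a hn)⟩
    · exact fun ⟨n, hn⟩ => ⟨_, l.cd_mem n, hn⟩
  act_div := by
    rintro a ⟨s, l⟩ ha ⟨n, hn⟩
    obtain ⟨a, rfl⟩ := exists_io a ha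
    obtain ⟨l', hl⟩ := exists_div l ((l.mem_iff a).2 ⟨n, io_dvd.1 hn⟩)
    exact ⟨⟨s, l'⟩, rfl, by rw [actM_io, hl]⟩
  cons := consM
  len a := a.1.len
  lab_cons := by
    rintro ⟨s, l⟩ j w h h1 h2
    rw [consM_val l j w h h1 h2]
    exact ⟨rfl, by rw [W.len_mk']; congr!⟩
  cons_inj := by
    rintro ⟨s, l⟩ j w ⟨s', l'⟩ j' w' h h1 h2 h' h1' h2' e
    have := congrArg Subtype.val e
    rw [consM_val l j w h h1 h2, consM_val l' j' w' h' h1' h2'] at this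
    obtain ⟨e1, e2, e3⟩ := W.mk'_inj this
    obtain rfl : s = s' := congrArg RL.s e1
    exact ⟨by rw [encL_inj e1], e2, Subtype.ext e3⟩
  exists_cons a s hs := by
    obtain ⟨w, hw, rfl⟩ := exists_ka a hs.le
    cases w with
    | old b => exact absurd hs (lab_old b).ne
    | cons l j w =>
      refine ⟨⟨s, l⟩, j, ka w hw.1, rfl, ka_lab _ _, fun h => hw.2.1 (io_dvd_ka.1 h),
        fun i hi h => hw.2.2 i hi (io_dvd_ka.1 h), ?_⟩
      rw [consM_ka]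
      exact ka_congr _ _ ((gd s).step.red_nf l j hw.2.1 hw.2.2).symm
  mul_cons := by
    rintro a ⟨s, l⟩ j w ha hw - -
    obtain ⟨a, rfl⟩ := exists_io a ha
    obtain ⟨w, hw, rfl⟩ := exists_ka w hw
    rw [actM_io, consM_ka, consM_ka, io_mul_ka]
    exact ka_congr _ _ ((gd s).step.smul_red a l j w)
  cons_mul := by
    rintro ⟨s, l⟩ j w b hw - - hb
    have hwb : (w * b).1.lab ≤ s := (lab_mul_le w b).trans (max_le hw hb)
    rw [raw_cons_mul l j w b hw hb]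
    refine ⟨fun γ h => ?_, fun _ i hi γ h => ?_, fun _ _ => rfl⟩
    · obtain ⟨γ, hγ, rfl⟩ := exists_ka γ (lab_le_of_mul (io_lab (l.T.al j)).le (h ▸ hwb))
      rw [h]
      show consM ⟨s, l⟩ j (io s (l.T.al j) * _) = io s l.eta * _
      rw [io_mul_ka, io_mul_ka, consM_ka]
      exact ka_congr _ _ ((gd s).step.red_al l j γ)
    · obtain ⟨γ, hγ, rfl⟩ := exists_ka γ (lab_le_of_mul (io_lab (l.T.e j i)).le (h ▸ hwb))
      rw [h]
      show consM ⟨s, l⟩ j (io s (l.T.e j i) * _) = consM ⟨s, l⟩ i (io s (l.T.e i j) * _)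
      rw [io_mul_ka, io_mul_ka, consM_ka, consM_ka]
      exact ka_congr _ _ ((gd s).step.red_swap l hi.ne' γ)
  lab_mul := lab_mul_le

theorem exists_lsys :
    ∃ (M : Type) (_ : Monoid M) (_ : IsLeftCancelMul M), Nonempty (LSys M) :=
  ⟨MM, inferInstance, inferInstance, ⟨lsys⟩⟩

end Crest.Agent.R296
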