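import Crest.Agent.R296.RawTower

/-! Row 296: the stages inside the monoid. -/

set_option autoImplicit false

noncomputable section
namespace Crest.Agent.R296
open GD Wd

variable {s : Om}

def io (s : Om) : (gd s).N →* MM where
  toFun a := ⟨a.1, (mem_low.1 a.2).2⟩
  map_one' := rfl
  map_mul' a b := Subtype.ext (low_m (mem_low.1 a.2).1 (mem_low.1 b.2).1)
theorem io_val (a : (gd s).N) : (io s a).1 = a.1 := rfl
theorem io_lab (a : (gd s).N) : (io s a).1.lab < s := (mem_low.1 a.2).1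
theorem io_inj : Function.Injective (io s) := fun _ _ h => Subtype.ext (congrArg Subtype.val h :)
def lift (a : MM) (h : a.1.lab < s) : (gd s).N := ⟨a.1, mem_low.2 ⟨h, a.2⟩⟩
@[simp] theorem io_lift (a : MM) (h : a.1.lab < s) : io s (lift a h) = a := rfl
@[simp] theorem lift_io (a : (gd s).N) (h : (io s a).1.lab < s) : lift (io s a) h = a := rfl
theorem exists_io (a : MM) (h : a.1.lab < s) : ∃ b, io s b = a := ⟨lift a h, rfl⟩

theorem enc_mem {w : (gd s).Wg} (h : (gd s).step.Nf w) : Valid (enc w) :=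
  ((out_V (good_low s)).ge ⟨w, h, rfl⟩).2
def ka (w : (gd s).Wg) (h : (gd s).step.Nf w) : MM := ⟨enc w, enc_mem h⟩
theorem ka_val (w : (gd s).Wg) (h : (gd s).step.Nf w) : (ka w h).1 = enc w := rfl
theorem ka_lab (w : (gd s).Wg) (h : (gd s).step.Nf w) : (ka w h).1.lab ≤ s := lab_enc_le w
theorem exists_ka (a : MM) (h : a.1.lab ≤ s) : ∃ (w : (gd s).Wg) (hw : _), ka w hw = a := by
  obtain ⟨w, hw, he⟩ := (out_V (good_low s)).le ⟨h, a.2⟩
  exact ⟨w, hw, Subtype.ext he⟩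
theorem ka_mul (w w' : (gd s).Wg) (h : (gd s).step.Nf w) (h' : (gd s).step.Nf w') :
    ka w h * ka w' h' = ka ((gd s).step.mm w w') ((gd s).step.nf_mm w h') :=
  Subtype.ext ((out_gmul (good_low s) _ ⟨w, h, rfl⟩ _ ⟨w', h', rfl⟩).trans ((gd s).out_m w w'))
theorem io_eq_ka (a : (gd s).N) : io s a = ka (.old a) trivial := rfl
theorem io_mul_ka (a : (gd s).N) (w : (gd s).Wg) (h : (gd s).step.Nf w) :
    io s a * ka w h = ka (a • w) (((gd s).step.nf_smul a w).2 h) := ka_mul (.old a) w trivial h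
theorem ka_inj {w w' : (gd s).Wg} {h : (gd s).step.Nf w} {h' : (gd s).step.Nf w'}
    (e : ka w h = ka w' h') : w = w' := enc_inj (congrArg Subtype.val e)
theorem ka_congr {w w' : (gd s).Wg} (h : (gd s).step.Nf w) (h' : (gd s).step.Nf w')
    (e : w = w') : ka w h = ka w' h' := by subst e; rfl

theorem lab_mul_le (a b : MM) : (a * b).1.lab ≤ max a.1.lab b.1.lab :=
  ((Q_all _).mon.mul a.1 ⟨le_max_left _ _, a.2⟩ b.1 ⟨le_max_right _ _, b.2⟩).1
theorem lab_mul_of_lt {a c : MM} (h : a.1.lab < c.1.lab) : (a * c).1.lab = c.1.lab := by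
  obtain ⟨s, hs⟩ := WithBot.ne_bot_iff_exists.1 h.ne_bot
  rw [← hs] at h
  obtain ⟨a, rfl⟩ := exists_io a h
  obtain ⟨w, hw, rfl⟩ := exists_ka c hs.ge
  rw [io_mul_ka]
  cases w with
  | old b => exact absurd hs (lab_old b).ne'
  | cons l j w => rfl
theorem lab_le_of_mul {a c : MM} {x : WithBot Om} (ha : a.1.lab ≤ x) (h : (a * c).1.lab ≤ x) :
    c.1.lab ≤ x := by
  by_contra hc
  rw [lab_mul_of_lt (ha.trans_lt (not_le.1 hc))] at h
  exact hc h
theorem io_dvd {a b : (gd s).N} : io s a ∣ io s b ↔ a ∣ b := by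
  refine ⟨fun ⟨c, hc⟩ => ?_, map_dvd _⟩
  have : c.1.lab < s := by
    by_contra h
    have h1 := io_lab b
    rw [hc, lab_mul_of_lt ((io_lab a).trans_le (not_lt.1 h))] at h1
    exact h h1
  obtain ⟨c, rfl⟩ := exists_io c this
  exact ⟨c, io_inj (by rw [hc, map_mul])⟩
theorem io_dvd_ka {a : (gd s).N} {w : (gd s).Wg} {h : (gd s).step.Nf w} :
    io s a ∣ ka w h ↔ ODvd a w := by
  constructor
  · rintro ⟨c, hc⟩
    obtain ⟨g, hg, rfl⟩ := exists_ka c (lab_le_of_mul (io_lab a).le (hc ▸ ka_lab w h))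
    rw [io_mul_ka] at hc
    exact ⟨g, (ka_inj hc).symm⟩
  · rintro ⟨g, rfl⟩
    exact ⟨ka g (((gd s).step.nf_smul a g).1 h), (io_mul_ka a g _).symm⟩

/-- Letters. -/
def Lt : Type := Σ s : Om, (gd s).AL
theorem dec_ka (w : (gd s).Wg) (h : (gd s).step.Nf w) : (gd s).dec (ka w h).1 = w := dec_enc w
theorem nf_dec (a : MM) (h : a.1.lab ≤ s) : (gd s).step.Nf ((gd s).dec a.1) := by
  obtain ⟨w, hw, rfl⟩ := exists_ka a h
  rwa [dec_ka]
open Classical in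
def consM (l : Lt) (j : Fin 3) (w : MM) : MM :=
  if h : w.1.lab ≤ l.1 then
    ka ((gd l.1).step.red l.2 j ((gd l.1).dec w.1)) ((gd l.1).step.nf_red _ _ (nf_dec w h))
  else 1
theorem consM_ka (l : (gd s).AL) (j : Fin 3) (w : (gd s).Wg) (h : (gd s).step.Nf w) :
    consM ⟨s, l⟩ j (ka w h) = ka ((gd s).step.red l j w) ((gd s).step.nf_red _ _ h) := by
  rw [consM, dif_pos (ka_lab w h)]
  exact ka_congr _ _ (by rw [dec_ka])
theorem consM_val (l : (gd s).AL) (j : Fin 3) (w : MM) (h : w.1.lab ≤ s)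
    (h1 : ¬ io s (l.T.al j) ∣ w) (h2 : ∀ i < j, ¬ io s (l.T.e j i) ∣ w) :
    (consM ⟨s, l⟩ j w).1 = W.mk' (encL l) j w.1 := by
  obtain ⟨w, hw, rfl⟩ := exists_ka w h
  rw [consM_ka, ka_val, (gd s).step.red_nf l j (fun h => h1 (io_dvd_ka.2 h))
    fun i hi h => h2 i hi (io_dvd_ka.2 h)]
  rfl
open Classical in
def actM (a : MM) (l : Lt) : Lt := if h : a.1.lab < l.1 then ⟨l.1, lift a h • l.2⟩ else l
theorem actM_io (a : (gd s).N) (l : (gd s).AL) : actM (io s a) ⟨s, l⟩ = ⟨s, a • l⟩ :=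
  dif_pos (io_lab a)
theorem lvalid_iff {l : RL} : LValid l ↔ ∃ l' : Lt, encL l'.2 = l := by
  constructor
  · intro h
    rw [LValid, tower_coe (good_low _)] at h
    obtain ⟨l', h⟩ := h
    exact ⟨⟨_, l'⟩, h⟩
  · rintro ⟨⟨s, l'⟩, rfl⟩
    show encL l' ∈ (tower s).L
    rw [tower_coe (good_low _)]
    exact ⟨l', rfl⟩
def kM : MM := ⟨W.base 1, valid_bot rfl⟩
theorem base_pow (n : ℕ) : (kM ^ n).1 = W.base n := by
  induction n with
  | zero => rfl
  | succ n ih => rw [pow_succ, MM.mul_val, ih]; exact gmul_base n 1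
theorem seqEq_io {f f' : ℕ → (gd s).N} :
    SeqEq (fun n => io s (f n)) (fun n => io s (f' n)) ↔ SeqEq f f' := by
  simp only [SeqEq, io_dvd]
theorem seqEq_of_flt {N : Type} [Monoid N] {F : Flt N} {f f' : ℕ → N}
    (h : ∀ x, x ∈ F ↔ ∃ n, x ∣ f n) (h' : ∀ x, x ∈ F ↔ ∃ n, x ∣ f' n) : SeqEq f f' :=
  ⟨fun n => (h' _).1 ((h _).2 ⟨n, dvd_rfl⟩), fun n => (h _).1 ((h' _).2 ⟨n, dvd_rfl⟩)⟩
theorem flt_of_seqEq {N : Type} [Monoid N] {F : Flt N} {f f' : ℕ → N}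
    (h : ∀ x, x ∈ F ↔ ∃ n, x ∣ f n) (h' : SeqEq f f') (x : N) : x ∈ F ↔ ∃ n, x ∣ f' n := by
  rw [h]
  exact ⟨fun ⟨n, hn⟩ => (h'.1 n).imp fun _ hm => hn.trans hm,
    fun ⟨n, hn⟩ => (h'.2 n).imp fun _ hm => hn.trans hm⟩

end Crest.Agent.R296
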