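import Crest.Agent.R296.RawStep

/-! Row 296: raw words and the letters of one stage. -/

set_option autoImplicit false

noncomputable section
namespace Crest.Agent.R296

/-- Raw words. -/
inductive W : Type
  | base (n : ℕ) : W
  | cons (s : Om) (code : ℕ → W) (eta : W) (al : Fin 3 → W) (e c : Fin 3 → Fin 3 → W) (tag : W)
      (rho : Om) (j : Fin 3) (rest : W) : W

/-- Raw letters. -/
@[ext] structure RL where
  s : Om
  code : ℕ → W
  eta : W
  T : Tri W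
  tag : W
  rho : Om

def W.mk' (l : RL) (j : Fin 3) (w : W) : W :=
  W.cons l.s l.code l.eta l.T.al l.T.e l.T.c l.tag l.rho j w
theorem W.mk'_inj {l l' : RL} {j j' : Fin 3} {w w' : W} (h : W.mk' l j w = W.mk' l' j' w') :
    l = l' ∧ j = j' ∧ w = w' := by
  simp only [W.mk', W.cons.injEq] at h
  obtain ⟨h1, h2, h3, h4, h5, h6, h7, h8, h9, h10⟩ := h
  exact ⟨RL.ext h1 h2 h3 (Tri.ext h4 h5 h6) h7 h8, h9, h10⟩
def W.lab : W → WithBot Om
  | base _ => ⊥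
  | cons s _ _ _ _ _ _ _ _ _ => s
@[simp] theorem W.lab_mk' (l : RL) (j : Fin 3) (w : W) : (W.mk' l j w).lab = l.s := rfl
@[simp] theorem W.lab_base (n : ℕ) : (W.base n).lab = ⊥ := rfl
open Classical in
def W.len : W → ℕ
  | base _ => 0
  | cons s _ _ _ _ _ _ _ _ w => (if w.lab = s then w.len else 0) + 1
open Classical in
theorem W.len_mk' (l : RL) (j : Fin 3) (w : W) :
    (W.mk' l j w).len = (if w.lab = l.s then w.len else 0) + 1 := rfl

def Tri.map {A B : Type} (f : A → B) (T : Tri A) : Tri B :=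
  ⟨fun i => f (T.al i), fun i j => f (T.e i j), fun i j => f (T.c i j)⟩
theorem Tri.map_injective {A B : Type} {f : A → B} (hf : Function.Injective f) :
    Function.Injective (Tri.map f) := by
  intro T T' h
  refine Tri.ext (funext fun i => hf ?_) (funext₂ fun i j => hf ?_) (funext₂ fun i j => hf ?_)
  · exact congrArg (fun T => T.al i) h
  · exact congrArg (fun T => T.e i j) h
  · exact congrArg (fun T => T.c i j) h

/-- `m` makes `V` a left cancellative monoid without units. -/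
structure Mon (V : Set W) (m : W → W → W) : Prop where
  one : W.base 0 ∈ V
  mul : ∀ a ∈ V, ∀ b ∈ V, m a b ∈ V
  assoc : ∀ a ∈ V, ∀ b ∈ V, ∀ c ∈ V, m (m a b) c = m a (m b c)
  one_mul : ∀ a ∈ V, m (W.base 0) a = a
  mul_one : ∀ a ∈ V, m a (W.base 0) = a
  cancel : ∀ a ∈ V, ∀ b ∈ V, ∀ c ∈ V, m a b = m a c → b = c
  nounit : ∀ a ∈ V, ∀ b ∈ V, m a b = W.base 0 → a = W.base 0

theorem Mon.congr {V V' : Set W} {m m' : W → W → W} (h : Mon V m) (hV : V' = V)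
    (hm : ∀ a ∈ V, ∀ b ∈ V, m' a b = m a b) : Mon V' m' := by
  subst hV
  refine ⟨h.one, fun a ha b hb => ?_, fun a ha b hb c hc => ?_, fun a ha => ?_, fun a ha => ?_,
    fun a ha b hb c hc hh => ?_, fun a ha b hb hh => ?_⟩
  · rw [hm a ha b hb]; exact h.mul a ha b hb
  · rw [hm a ha b hb, hm b hb c hc, hm _ (h.mul a ha b hb) c hc, hm a ha _ (h.mul b hb c hc),
      h.assoc a ha b hb c hc]
  · rw [hm _ h.one a ha, h.one_mul a ha]
  · rw [hm a ha _ h.one, h.mul_one a ha]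
  · rw [hm a ha b hb, hm a ha c hc] at hh; exact h.cancel a ha b hb c hc hh
  · rw [hm a ha b hb] at hh; exact h.nounit a ha b hb hh

def RD (V : Set W) (m : W → W → W) (a b : W) : Prop := ∃ c ∈ V, b = m a c

/-- A letter can be divided by the members of its code. -/
def HL (V : Set W) (m : W → W → W) (L : Set RL) (l : RL) : Prop :=
  (∀ n, l.code n ∈ V) ∧ ∀ n, ∃ l1 ∈ L, (∀ i, l1.code i ∈ V) ∧ l1.eta ∈ V ∧ l1.T = l.T ∧
    l1.tag = l.tag ∧ l1.rho = l.rho ∧ l.eta = m (l.code n) l1.eta ∧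
    (∀ i, ∃ k, RD V m (l.code i) (m (l.code n) (l1.code k))) ∧
    ∀ k, ∃ i, RD V m (m (l.code n) (l1.code k)) (l.code i)

theorem HL.mono {V V' : Set W} {m m' : W → W → W} {L L' : Set RL} {l : RL} (h : HL V m L l)
    (hM : ∀ a ∈ V, ∀ b ∈ V, m a b ∈ V) (hV : V ⊆ V') (hm : ∀ a ∈ V, ∀ b ∈ V, m' a b = m a b)
    (hL : L ⊆ L') : HL V' m' L' l := by
  refine ⟨fun n => hV (h.1 n), fun n => ?_⟩
  obtain ⟨l1, h1, h2, h3, h4, h5, h6, h7, h8, h9⟩ := h.2 n
  refine ⟨l1, hL h1, fun i => hV (h2 i), hV h3, h4, h5, h6, by rw [hm _ (h.1 n) _ h3, h7],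
    fun i => ?_, fun k => ?_⟩
  · obtain ⟨k, c, hc, hh⟩ := h8 i
    exact ⟨k, c, hV hc, by rw [hm _ (h.1 n) _ (h2 k), hm _ (h.1 i) _ hc, hh]⟩
  · obtain ⟨i, c, hc, hh⟩ := h9 k
    exact ⟨i, c, hV hc, by rw [hm _ (h.1 n) _ (h2 k), hm _ (hM _ (h.1 n) _ (h2 k)) _ hc, hh]⟩

/-- The data of a stage. -/
structure Dat where
  V : Set W
  m : W → W → W
  L : Set RL

structure Good (d : Dat) (s : Om) : Prop where
  mon : Mon d.V d.m
  lab : ∀ w ∈ d.V, w.lab < s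
  hl : ∀ l ∈ d.L, HL d.V d.m d.L l

structure GD (s : Om) where
  d : Dat
  good : Good d s

namespace GD
variable {s : Om} (g : GD s)

def N : Type := {w : W // w ∈ g.d.V}
instance : Monoid g.N where
  mul a b := ⟨g.d.m a.1 b.1, g.good.mon.mul _ a.2 _ b.2⟩
  one := ⟨W.base 0, g.good.mon.one⟩
  mul_assoc a b c := Subtype.ext (g.good.mon.assoc _ a.2 _ b.2 _ c.2)
  one_mul a := Subtype.ext (g.good.mon.one_mul _ a.2)
  mul_one a := Subtype.ext (g.good.mon.mul_one _ a.2)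
instance : IsLeftCancelMul g.N where
  mul_left_cancel a b c h := Subtype.ext (g.good.mon.cancel _ a.2 _ b.2 _ c.2 (congrArg Subtype.val h))
theorem mul_val (a b : g.N) : (a * b).1 = g.d.m a.1 b.1 := rfl
theorem one_val : (1 : g.N).1 = W.base 0 := rfl
theorem nounit (a b : g.N) (h : a * b = 1) : a = 1 :=
  Subtype.ext (g.good.mon.nounit _ a.2 _ b.2 (congrArg Subtype.val h))
variable {g} in
theorem dvd_antisymm {a b : g.N} (h : a ∣ b) (h' : b ∣ a) : a = b := by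
  obtain ⟨c, rfl⟩ := h
  obtain ⟨d, hd⟩ := h'
  have : c * d = 1 := mul_left_cancel (a := a) (by rw [← mul_assoc, ← hd, mul_one])
  rw [g.nounit c d this, mul_one]
variable {g} in
theorem dvd_iff {a b : g.N} : a ∣ b ↔ RD g.d.V g.d.m a.1 b.1 :=
  ⟨fun ⟨c, hc⟩ => ⟨c.1, c.2, congrArg Subtype.val hc⟩, fun ⟨c, hc, h⟩ => ⟨⟨c, hc⟩, Subtype.ext h⟩⟩

/-- The data come from an older letter. -/
def Treated (F : Flt g.N) (η : g.N) (T : Tri g.N) (t : W) (r : Om) : Prop :=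
  ∃ b : g.N, ∃ l0 ∈ g.d.L, ∃ (f : ℕ → g.N) (e0 : g.N), (∀ n, (f n).1 = l0.code n) ∧
    e0.1 = l0.eta ∧ T.map Subtype.val = l0.T ∧ t = l0.tag ∧ r = l0.rho ∧
    (∀ x, x ∈ F ↔ ∃ n, x ∣ b * f n) ∧ η = b * e0

/-- The letters of the stage. -/
@[ext] structure AL where
  F : Flt g.N
  eta : g.N
  T : Tri g.N
  tag : W
  rho : Om
  ctbl : ∃ f : ℕ → g.N, ∀ x, x ∈ F ↔ ∃ n, x ∣ f n
  adm : Adm F eta
  ok : T.OK
  rho_le : rho ≤ s
  untr : ¬ g.Treated F eta T tag rho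

variable {g}
theorem Treated.smul {F : Flt g.N} {η : g.N} {T : Tri g.N} {t : W} {r : Om}
    (h : g.Treated F η T t r) (a : g.N) : g.Treated (a • F) (a * η) T t r := by
  obtain ⟨b, l0, h0, f, e0, h1, h2, h3, h4, h5, h6, h7⟩ := h
  refine ⟨a * b, l0, h0, f, e0, h1, h2, h3, h4, h5, fun x => ?_, by rw [h7, mul_assoc]⟩
  constructor
  · rintro ⟨y, hy, hx⟩
    obtain ⟨n, hn⟩ := (h6 y).1 hy
    exact ⟨n, by rw [mul_assoc]; exact hx.trans (mul_dvd_mul_left a hn)⟩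
  · rintro ⟨n, hn⟩
    exact ⟨b * f n, (h6 _).2 ⟨n, dvd_rfl⟩, by rwa [← mul_assoc]⟩
theorem Treated.of_smul {F : Flt g.N} {η : g.N} {T : Tri g.N} {t : W} {r : Om} {a : g.N}
    (h : g.Treated (a • F) (a * η) T t r) : g.Treated F η T t r := by
  obtain ⟨b, l0, h0, f, e0, h1, h2, h3, h4, h5, h6, h7⟩ := h
  obtain ⟨n0, c, hc⟩ := (h6 a).1 (Flt.self_mem_smul a F)
  obtain ⟨l1, k1, k2, k3, k4, k5, k6, k7, k8, k9⟩ := (g.good.hl l0 h0).2 n0
  have he : e0 = f n0 * ⟨l1.eta, k3⟩ := Subtype.ext (by rw [h2, k7, mul_val, h1])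
  refine ⟨c, l1, k1, fun i => ⟨l1.code i, k2 i⟩, ⟨l1.eta, k3⟩, fun _ => rfl, rfl,
    h3.trans k4.symm, h4.trans k5.symm, h5.trans k6.symm, fun x => ?_, ?_⟩
  · rw [← Flt.mul_mem_smul_iff (a := a), h6]
    constructor
    · rintro ⟨n, hn⟩
      obtain ⟨k, hk⟩ := k8 n
      have : f n ∣ f n0 * ⟨l1.code k, k2 k⟩ := dvd_iff.2 (by rw [mul_val, h1, h1]; exact hk)
      refine ⟨k, (dvd_cancel (a := a)).1 ?_⟩
      rw [← mul_assoc, ← hc, mul_assoc]
      exact hn.trans (mul_dvd_mul_left b this)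
    · rintro ⟨k, hk⟩
      obtain ⟨i, hi⟩ := k9 k
      have : f n0 * ⟨l1.code k, k2 k⟩ ∣ f i := dvd_iff.2 (by rw [mul_val, h1, h1]; exact hi)
      refine ⟨i, (mul_dvd_mul_left a hk).trans ?_⟩
      rw [← mul_assoc, ← hc, mul_assoc]
      exact mul_dvd_mul_left b this
  · refine mul_left_cancel (a := a) ?_
    rw [h7, he, ← mul_assoc, hc, mul_assoc]

instance : SMul g.N g.AL := ⟨fun a l =>
  { F := a • l.F, eta := a * l.eta, T := l.T, tag := l.tag, rho := l.rho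
    ctbl := by
      obtain ⟨f, hf⟩ := l.ctbl
      refine ⟨fun n => a * f n, fun x => ⟨?_, ?_⟩⟩
      · rintro ⟨y, hy, hx⟩
        obtain ⟨n, hn⟩ := (hf y).1 hy
        exact ⟨n, hx.trans (mul_dvd_mul_left a hn)⟩
      · rintro ⟨n, hn⟩
        exact ⟨f n, (hf _).2 ⟨n, dvd_rfl⟩, hn⟩
    adm := by
      obtain ⟨K, h1, h2, h3⟩ := l.adm
      refine ⟨a * K, mul_dvd_mul_left a h1, fun h => h2 (mul_left_cancel h), ?_⟩
      rintro D ⟨y, hy, hD⟩
      exact hD.trans (mul_dvd_mul_left a (h3 y hy))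
    ok := l.ok, rho_le := l.rho_le, untr := fun h => l.untr h.of_smul }⟩
@[simp] theorem smul_F (a : g.N) (l : g.AL) : (a • l).F = a • l.F := rfl
@[simp] theorem smul_eta (a : g.N) (l : g.AL) : (a • l).eta = a * l.eta := rfl
@[simp] theorem smul_T (a : g.N) (l : g.AL) : (a • l).T = l.T := rfl
@[simp] theorem smul_tag (a : g.N) (l : g.AL) : (a • l).tag = l.tag := rfl
@[simp] theorem smul_rho (a : g.N) (l : g.AL) : (a • l).rho = l.rho := rfl
instance : MulAction g.N g.AL where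
  one_smul _ := AL.ext (one_smul _ _) (one_mul _) rfl rfl rfl
  mul_smul _ _ _ := AL.ext (mul_smul _ _ _) (mul_assoc _ _ _) rfl rfl rfl

theorem exists_div (l : g.AL) {a : g.N} (ha : a ∈ l.F) : ∃ l' : g.AL, a • l' = l := by
  obtain ⟨K, h1, h2, h3⟩ := l.adm
  obtain ⟨K', rfl⟩ := h3 a ha
  obtain ⟨η, hη⟩ := (Dvd.intro _ rfl : a ∣ a * K').trans h1
  refine ⟨{ F := l.F.quot a ha, eta := η, T := l.T, tag := l.tag, rho := l.rho
            ctbl := ?_, adm := ?_, ok := l.ok, rho_le := l.rho_le, untr := fun h => ?_ },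
    AL.ext (Flt.smul_quot _ _ ha) hη.symm rfl rfl rfl⟩
  · obtain ⟨f, hf⟩ := l.ctbl
    have : ∀ n, ∃ c, a * c ∈ l.F ∧ f n ∣ a * c := fun n => by
      obtain ⟨c, hc, ⟨c', rfl⟩, h5⟩ := l.F.dir ha ((hf _).2 ⟨n, dvd_rfl⟩)
      exact ⟨c', hc, h5⟩
    choose c hc hc' using this
    refine ⟨c, fun x => ⟨fun hx => ?_, fun ⟨n, hn⟩ => Flt.up (F := l.F.quot a ha) (hc n) hn⟩⟩
    obtain ⟨n, hn⟩ := (hf _).1 (Flt.mem_quot.1 hx)
    exact ⟨n, dvd_cancel.1 (hn.trans (hc' n))⟩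
  · refine ⟨K', dvd_cancel.1 (hη ▸ h1), fun h => h2 (by rw [hη, h]), fun D hD => ?_⟩
    exact dvd_cancel.1 (h3 _ hD)
  · have := h.smul a
    rw [Flt.smul_quot, ← hη] at this
    exact l.untr this

variable (g) in
def step : StepData g.N g.AL where
  nounit := g.nounit
  eta := AL.eta
  tri := AL.T
  eta_smul _ _ := rfl
  tri_smul _ _ := rfl
  inj a l l' h := AL.ext (Flt.smul_injective a (congrArg AL.F h))
    (mul_left_cancel (congrArg AL.eta h)) (congrArg AL.T h :)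
    (congrArg AL.tag h :) (congrArg AL.rho h :)
  dir a b l l' h := by
    have ha : a ∈ (a • l).F := Flt.self_mem_smul _ _
    have hb : b ∈ (a • l).F := h ▸ Flt.self_mem_smul _ _
    obtain ⟨c, hc, h1, h2⟩ := Flt.dir ha hb
    obtain ⟨l'', hl⟩ := exists_div _ hc
    exact ⟨c, l'', h1, h2, hl⟩
  not_eta l l' h := by
    obtain ⟨K, h1, h2, h3⟩ := l.adm
    have : l.eta ∈ (l.eta • l').F := Flt.self_mem_smul _ _
    rw [h] at this
    exact h2 (dvd_antisymm (h3 _ this) h1)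
  eta_ne l h := by
    obtain ⟨K, h1, h2, -⟩ := l.adm
    exact h2 (dvd_antisymm (h ▸ one_dvd K) h1)
  ok l := l.ok

end GD
end Crest.Agent.R296
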