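import Crest.Agent.R296.RawGD

/-! Row 296: the output of one stage as raw data. -/

set_option autoImplicit false

noncomputable section
namespace Crest.Agent.R296
namespace GD
variable {s : Om} {g : GD s}

def AL.cd (l : g.AL) : ℕ → g.N := l.ctbl.choose
theorem AL.mem_iff (l : g.AL) (x : g.N) : x ∈ l.F ↔ ∃ n, x ∣ l.cd n := l.ctbl.choose_spec x
theorem AL.cd_mem (l : g.AL) (n : ℕ) : l.cd n ∈ l.F := (l.mem_iff _).2 ⟨n, dvd_rfl⟩

def encL (l : g.AL) : RL := ⟨s, fun n => (l.cd n).1, l.eta.1, l.T.map Subtype.val, l.tag, l.rho⟩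
theorem encL_inj {l l' : g.AL} (h : encL l = encL l') : l = l' := by
  have h1 : l.cd = l'.cd := funext fun n => Subtype.ext (congrArg (fun l => l.code n) h)
  exact AL.ext (Flt.ext' fun x => by rw [l.mem_iff, l'.mem_iff, h1])
    (Subtype.ext (congrArg RL.eta h)) (Tri.map_injective Subtype.val_injective (congrArg RL.T h))
    (congrArg RL.tag h) (congrArg RL.rho h)

abbrev Wg (g : GD s) := Wd g.N g.AL

def enc : g.Wg → W
  | .old a => a.1
  | .cons l j w => W.mk' (encL l) j (enc w)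
theorem lab_old (a : g.N) : (enc (.old a : g.Wg)).lab < s := g.good.lab _ a.2
theorem lab_cons (l : g.AL) (j : Fin 3) (w : g.Wg) : (enc (.cons l j w)).lab = s := rfl
theorem lab_enc_le (w : g.Wg) : (enc w).lab ≤ s := by
  cases w
  · exact (lab_old _).le
  · exact le_rfl
theorem enc_inj : Function.Injective (enc : g.Wg → W) := by
  intro w
  induction w with
  | old a =>
    intro w' h
    cases w' with
    | old b => rw [Subtype.ext (h : a.1 = b.1)]
    | cons l j w => exact absurd (h ▸ lab_old a) (lt_irrefl _)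
  | cons l j w ih =>
    intro w' h
    cases w' with
    | old b => exact absurd (h ▸ lab_old b) (lt_irrefl _)
    | cons l' j' w' =>
      obtain ⟨h1, h2, h3⟩ := W.mk'_inj h
      rw [encL_inj h1, h2, ih h3]
instance : Nonempty g.Wg := ⟨.old 1⟩
def dec (g : GD s) (x : W) : g.Wg := Function.invFun enc x
@[simp] theorem dec_enc (w : g.Wg) : g.dec (enc w) = w := Function.leftInverse_invFun enc_inj w

variable (g)
def out : Dat :=
  ⟨{x | ∃ w, g.step.Nf w ∧ enc w = x}, fun a b => enc (g.step.mm (g.dec a) (g.dec b)),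
    Set.range (encL (g := g))⟩
theorem out_m (a b : g.Wg) : g.out.m (enc a) (enc b) = enc (g.step.mm a b) := by
  simp [out]
theorem out_mon : Mon g.out.V g.out.m := by
  have h1 : W.base 0 = enc (.old 1 : g.Wg) := rfl
  refine ⟨⟨.old 1, trivial, rfl⟩, ?_, ?_, ?_, ?_, ?_, ?_⟩
  · rintro _ ⟨a, -, rfl⟩ _ ⟨b, hb, rfl⟩
    exact ⟨_, g.step.nf_mm a hb, (g.out_m a b).symm⟩
  · rintro _ ⟨a, -, rfl⟩ _ ⟨b, -, rfl⟩ _ ⟨c, -, rfl⟩
    rw [out_m, out_m, out_m, out_m, StepData.mm_assoc]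
  · rintro _ ⟨a, -, rfl⟩
    rw [h1, out_m, StepData.mm, one_smul]
  · rintro _ ⟨a, ha, rfl⟩
    rw [h1, out_m, g.step.mm_one ha]
  · rintro _ ⟨a, -, rfl⟩ _ ⟨b, -, rfl⟩ _ ⟨c, -, rfl⟩ h
    rw [out_m, out_m] at h
    rw [g.step.mm_inj a (enc_inj h)]
  · rintro _ ⟨a, -, rfl⟩ _ ⟨b, -, rfl⟩ h
    rw [out_m, h1] at h
    rw [g.step.mm_eq_one (enc_inj h), h1]
theorem out_sub : g.d.V ⊆ g.out.V := fun a ha => ⟨.old ⟨a, ha⟩, trivial, rfl⟩
theorem out_old : ∀ a ∈ g.d.V, ∀ b ∈ g.d.V, g.out.m a b = g.d.m a b := fun a ha b hb =>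
  g.out_m (.old ⟨a, ha⟩) (.old ⟨b, hb⟩)
theorem out_lab {w : W} (h : w ∈ g.out.V) : w.lab ≤ s ∧ (w.lab < s → w ∈ g.d.V) := by
  obtain ⟨w, -, rfl⟩ := h
  refine ⟨lab_enc_le w, fun h => ?_⟩
  cases w with
  | old a => exact a.2
  | cons l j w => exact absurd h (lt_irrefl _)
theorem out_hl : ∀ l ∈ g.out.L, l.s = s ∧ HL g.d.V g.d.m g.out.L l := by
  rintro _ ⟨l, rfl⟩
  refine ⟨rfl, fun n => (l.cd n).2, fun n => ?_⟩
  obtain ⟨l', hl⟩ := exists_div l (l.cd_mem n)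
  have hF : l.cd n • l'.F = l.F := congrArg AL.F hl
  refine ⟨encL l', ⟨l', rfl⟩, fun i => (l'.cd i).2, l'.eta.2, ?_, (congrArg AL.tag hl :),
    (congrArg AL.rho hl :), ?_, fun i => ?_, fun k => ?_⟩
  · exact (congrArg (fun l : g.AL => l.T.map Subtype.val) hl :)
  · exact (congrArg (fun l : g.AL => l.eta.1) hl).symm
  · obtain ⟨y, hy, h⟩ := Flt.mem_smul.1 (hF ▸ l.cd_mem i)
    obtain ⟨k, hk⟩ := (l'.mem_iff y).1 hy
    exact ⟨k, dvd_iff.1 (h.trans (mul_dvd_mul_left _ hk))⟩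
  · obtain ⟨i, hi⟩ := (l.mem_iff _).1 (hF ▸ Flt.mul_mem_smul (l.cd n) (l'.cd_mem k))
    exact ⟨i, dvd_iff.1 hi⟩

end GD
end Crest.Agent.R296
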