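import Crest.Agent.R296.Geo

/-! Row 296: one step of the construction, abstractly. -/

set_option autoImplicit false

noncomputable section
namespace Crest.Agent.R296

/-- Letters over an old monoid `N`. -/
structure StepData (N L : Type) [Monoid N] [MulAction N L] where
  nounit : ∀ a b : N, a * b = 1 → a = 1
  eta : L → N
  tri : L → Tri N
  eta_smul : ∀ (a : N) l, eta (a • l) = a * eta l
  tri_smul : ∀ (a : N) l, tri (a • l) = tri l
  inj : ∀ (a : N) (l l' : L), a • l = a • l' → l = l'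
  dir : ∀ (a b : N) (l l' : L), a • l = b • l' → ∃ (c : N) (l'' : L), a ∣ c ∧ b ∣ c ∧ c • l'' = a • l
  not_eta : ∀ l l' : L, eta l • l' ≠ l
  eta_ne : ∀ l, eta l ≠ 1
  ok : ∀ l, (tri l).OK

/-- Words over the old monoid. -/
inductive Wd (N L : Type) : Type
  | old (a : N) : Wd N L
  | cons (l : L) (j : Fin 3) (w : Wd N L) : Wd N L

namespace Wd
variable {N L : Type} [Monoid N] [MulAction N L]

instance : SMul N (Wd N L) := ⟨fun a w => match w with
  | old b => old (a * b)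
  | cons l j w => cons (a • l) j w⟩
@[simp] theorem smul_old (a b : N) : a • (old b : Wd N L) = old (a * b) := rfl
@[simp] theorem smul_cons (a : N) (l : L) (j : Fin 3) (w : Wd N L) :
    a • cons l j w = cons (a • l) j w := rfl
instance : MulAction N (Wd N L) where
  one_smul w := by cases w <;> simp
  mul_smul a b w := by cases w <;> simp [mul_assoc, mul_smul]

/-- An old node divides a word. -/
def ODvd (a : N) (w : Wd N L) : Prop := ∃ g : Wd N L, a • g = w
theorem ODvd.of_dvd {a b : N} {w : Wd N L} (h : ODvd b w) (hab : a ∣ b) : ODvd a w := by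
  obtain ⟨g, rfl⟩ := h
  obtain ⟨c, rfl⟩ := hab
  exact ⟨c • g, (mul_smul _ _ _).symm⟩
end Wd

namespace StepData
open Wd
variable {N L : Type} [Monoid N] [IsLeftCancelMul N] [MulAction N L] (S : StepData N L)
include S

theorem smul_inj (a : N) {w w' : Wd N L} (h : a • w = a • w') : w = w' := by
  cases w <;> cases w' <;> simp only [smul_old, smul_cons, reduceCtorEq, old.injEq,
    cons.injEq] at h ⊢
  · exact mul_left_cancel h
  · exact ⟨S.inj _ _ _ h.1, h.2⟩

omit [IsLeftCancelMul N] in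
theorem inter (l : L) {i j k : Fin 3} (h1 : i ≠ j) (h2 : i ≠ k) (h3 : j ≠ k) {w : Wd N L}
    (hj : ODvd ((S.tri l).e i j) w) (hk : ODvd ((S.tri l).e i k) w) : ODvd ((S.tri l).al i) w := by
  obtain ⟨g, rfl⟩ := hj
  obtain ⟨g', hg⟩ := hk
  cases g <;> cases g' <;> simp only [smul_old, smul_cons, reduceCtorEq, old.injEq,
    cons.injEq] at hg
  · obtain ⟨c, hc⟩ := (S.ok l).inter i j k h1 h2 h3 _ trivial (Dvd.intro _ rfl) (Dvd.intro _ hg)
    exact ⟨old c, by rw [smul_old, smul_old, hc]⟩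
  · obtain ⟨c, l'', ha, hb, hc⟩ := S.dir _ _ _ _ hg.1.symm
    exact ODvd.of_dvd ⟨cons l'' _ _, by rw [smul_cons, smul_cons, hc]⟩
      ((S.ok l).inter i j k h1 h2 h3 c trivial ha hb)

/-- Normal words. -/
def Nf : Wd N L → Prop
  | old _ => True
  | cons l j w => Nf w ∧ ¬ ODvd ((S.tri l).al j) w ∧ ∀ i < j, ¬ ODvd ((S.tri l).e j i) w

omit [IsLeftCancelMul N] in
theorem nf_smul (a : N) (w : Wd N L) : S.Nf (a • w) ↔ S.Nf w := by
  cases w <;> simp [Nf, S.tri_smul]

open Classical in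
/-- Multiplication by the member `j` of the cluster `l`. -/
def red (l : L) (j : Fin 3) (w : Wd N L) : Wd N L :=
  if h : ODvd ((S.tri l).al j) w then S.eta l • h.choose
  else if h : ∃ p : Fin 3 × Wd N L, p.1 < j ∧ (S.tri l).e j p.1 • p.2 = w then
    cons l h.choose.1 ((S.tri l).e h.choose.1 j • h.choose.2)
  else cons l j w

theorem red_al (l : L) (j : Fin 3) (g : Wd N L) :
    S.red l j ((S.tri l).al j • g) = S.eta l • g := by
  have h : ODvd ((S.tri l).al j) ((S.tri l).al j • g) := ⟨g, rfl⟩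
  rw [red, dif_pos h, S.smul_inj _ h.choose_spec]

theorem red_e (l : L) {i j : Fin 3} (hij : i < j) (g : Wd N L)
    (hn : ¬ ODvd ((S.tri l).al j) ((S.tri l).e j i • g)) :
    S.red l j ((S.tri l).e j i • g) = cons l i ((S.tri l).e i j • g) := by
  have h : ∃ p : Fin 3 × Wd N L, p.1 < j ∧ (S.tri l).e j p.1 • p.2 = (S.tri l).e j i • g :=
    ⟨(i, g), hij, rfl⟩
  rw [red, dif_neg hn, dif_pos h]
  obtain ⟨h1, h2⟩ := h.choose_spec
  generalize h.choose = p at h1 h2
  obtain ⟨i', g'⟩ := p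
  by_cases hi : i' = i
  · subst hi; rw [S.smul_inj _ h2]
  · exact absurd (S.inter l h1.ne' hij.ne' hi ⟨g', h2⟩ ⟨g, rfl⟩) hn

omit [IsLeftCancelMul N] in
theorem red_nf (l : L) (j : Fin 3) {w : Wd N L} (h1 : ¬ ODvd ((S.tri l).al j) w)
    (h2 : ∀ i < j, ¬ ODvd ((S.tri l).e j i) w) : S.red l j w = cons l j w := by
  rw [red, dif_neg h1, dif_neg fun ⟨p, hp, hp'⟩ => h2 p.1 hp ⟨p.2, hp'⟩]

omit [IsLeftCancelMul N] in
theorem red_cases (l : L) (j : Fin 3) (w : Wd N L) :
    (∃ g : Wd N L, w = (S.tri l).al j • g) ∨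
    (¬ ODvd ((S.tri l).al j) w ∧ ∃ i < j, ∃ g : Wd N L, w = (S.tri l).e j i • g) ∨
    (¬ ODvd ((S.tri l).al j) w ∧ ∀ i < j, ¬ ODvd ((S.tri l).e j i) w) := by
  by_cases h1 : ODvd ((S.tri l).al j) w
  · exact Or.inl (h1.imp fun _ h => h.symm)
  by_cases h2 : ∀ i < j, ¬ ODvd ((S.tri l).e j i) w
  · exact Or.inr (Or.inr ⟨h1, h2⟩)
  push Not at h2
  obtain ⟨i, hi, g, hg⟩ := h2
  exact Or.inr (Or.inl ⟨h1, i, hi, g, hg.symm⟩)

theorem al_swap (l : L) {i j : Fin 3} (h : i ≠ j) {g : Wd N L}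
    (hd : ODvd ((S.tri l).al i) ((S.tri l).e i j • g)) : ∃ g' : Wd N L, g = (S.tri l).c i j • g' := by
  obtain ⟨g', hg⟩ := hd
  rw [← (S.ok l).fac i j h, mul_smul] at hg
  exact ⟨g', (S.smul_inj _ hg).symm⟩

theorem red_swap_lt (l : L) {i j : Fin 3} (h : i < j) (g : Wd N L) :
    S.red l i ((S.tri l).e i j • g) = S.red l j ((S.tri l).e j i • g) := by
  by_cases hd : ∃ g' : Wd N L, g = (S.tri l).c i j • g'
  · obtain ⟨g', rfl⟩ := hd
    rw [← mul_smul, (S.ok l).fac i j h.ne, (S.ok l).symm i j h.ne, ← mul_smul,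
      (S.ok l).fac j i h.ne', red_al, red_al]
  · have h1 : ¬ ODvd ((S.tri l).al i) ((S.tri l).e i j • g) := fun hh => hd (S.al_swap l h.ne hh)
    rw [S.red_e l h g fun hh => hd ((S.ok l).symm i j h.ne ▸ S.al_swap l h.ne' hh)]
    exact S.red_nf l i h1 fun k hk hh =>
      h1 (S.inter l h.ne hk.ne' (hk.trans h).ne' ⟨g, rfl⟩ hh)

theorem red_swap (l : L) {i j : Fin 3} (h : i ≠ j) (g : Wd N L) :
    S.red l i ((S.tri l).e i j • g) = S.red l j ((S.tri l).e j i • g) := by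
  rcases lt_or_gt_of_ne h with h | h
  · exact S.red_swap_lt l h g
  · exact (S.red_swap_lt l h g).symm

theorem nf_red (l : L) (j : Fin 3) {w : Wd N L} (hw : S.Nf w) : S.Nf (S.red l j w) := by
  rcases S.red_cases l j w with ⟨g, rfl⟩ | ⟨h1, i, hi, g, rfl⟩ | ⟨h1, h2⟩
  · rw [red_al, nf_smul]; exact (S.nf_smul _ _).1 hw
  · rw [S.red_e l hi g h1]
    have h3 : ¬ ODvd ((S.tri l).al i) ((S.tri l).e i j • g) := fun hh => by
      obtain ⟨g', rfl⟩ := S.al_swap l hi.ne hh
      exact h1 ⟨g', by rw [← mul_smul, (S.ok l).symm i j hi.ne, (S.ok l).fac j i hi.ne']⟩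
    exact ⟨(S.nf_smul _ _).2 ((S.nf_smul _ _).1 hw), h3, fun k hk hh =>
      h3 (S.inter l hi.ne hk.ne' (hk.trans hi).ne' ⟨g, rfl⟩ hh)⟩
  · rw [S.red_nf l j h1 h2]; exact ⟨hw, h1, h2⟩

theorem smul_red (a : N) (l : L) (j : Fin 3) (w : Wd N L) :
    a • S.red l j w = S.red (a • l) j w := by
  rcases S.red_cases l j w with ⟨g, rfl⟩ | ⟨h1, i, hi, g, rfl⟩ | ⟨h1, h2⟩
  · rw [red_al, ← S.tri_smul a l, red_al, S.eta_smul, mul_smul]
  · rw [S.red_e l hi g h1, ← S.tri_smul a l, S.red_e _ hi g (by rwa [S.tri_smul]), smul_cons]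
  · rw [S.red_nf l j h1 h2, S.red_nf _ j (by rwa [S.tri_smul]) (by rwa [S.tri_smul]), smul_cons]

theorem red_inj (l : L) (j : Fin 3) {w w' : Wd N L} (h : S.red l j w = S.red l j w') : w = w' := by
  have hA : ∀ (g : Wd N L) i w, S.eta l • g ≠ cons l i w := by
    intro g i w hh
    cases g <;> simp only [smul_old, smul_cons, reduceCtorEq, cons.injEq] at hh
    exact S.not_eta _ _ hh.1
  rcases S.red_cases l j w with ⟨g, rfl⟩ | ⟨h1, i, hi, g, rfl⟩ | ⟨h1, h2⟩ <;>
    rcases S.red_cases l j w' with ⟨g', rfl⟩ | ⟨h1', i', hi', g', rfl⟩ | ⟨h1', h2'⟩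
  · rw [red_al, red_al] at h; rw [S.smul_inj _ h]
  · rw [red_al, S.red_e l hi' _ h1'] at h; exact absurd h (hA _ _ _)
  · rw [red_al, S.red_nf l j h1' h2'] at h; exact absurd h (hA _ _ _)
  · rw [red_al, S.red_e l hi _ h1] at h; exact absurd h.symm (hA _ _ _)
  · rw [S.red_e l hi _ h1, S.red_e l hi' _ h1'] at h
    obtain ⟨-, rfl, h⟩ := cons.inj h
    rw [S.smul_inj _ h]
  · rw [S.red_e l hi _ h1, S.red_nf l j h1' h2'] at h; exact absurd (cons.inj h).2.1 hi.ne
  · rw [red_al, S.red_nf l j h1 h2] at h; exact absurd h.symm (hA _ _ _)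
  · rw [S.red_e l hi' _ h1', S.red_nf l j h1 h2] at h; exact absurd (cons.inj h).2.1 hi'.ne'
  · rw [S.red_nf l j h1 h2, S.red_nf l j h1' h2'] at h; exact (cons.inj h).2.2

/-- Multiplication of words. -/
def mm : Wd N L → Wd N L → Wd N L
  | old a, b => a • b
  | cons l j w, b => S.red l j (mm w b)

theorem mm_smul (a : N) (w c : Wd N L) : S.mm (a • w) c = a • S.mm w c := by
  cases w
  · simp [mm, mul_smul]
  · simp [mm, smul_red]

theorem mm_red (l : L) (j : Fin 3) (w c : Wd N L) :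
    S.mm (S.red l j w) c = S.red l j (S.mm w c) := by
  rcases S.red_cases l j w with ⟨g, rfl⟩ | ⟨h1, i, hi, g, rfl⟩ | ⟨h1, h2⟩
  · rw [red_al, mm_smul, mm_smul, red_al]
  · rw [S.red_e l hi g h1, mm, mm_smul, mm_smul, S.red_swap l hi.ne]
  · rw [S.red_nf l j h1 h2, mm]

theorem mm_assoc (a b c : Wd N L) : S.mm (S.mm a b) c = S.mm a (S.mm b c) := by
  induction a with
  | old a => exact S.mm_smul a b c
  | cons l j w ih => rw [mm, mm_red, ih, mm]

theorem nf_mm (a : Wd N L) {b : Wd N L} (hb : S.Nf b) : S.Nf (S.mm a b) := by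
  induction a with
  | old a => exact (S.nf_smul _ _).2 hb
  | cons l j w ih => exact S.nf_red l j ih

omit [IsLeftCancelMul N] in
theorem mm_one {a : Wd N L} (ha : S.Nf a) : S.mm a (old 1) = a := by
  induction a with
  | old a => simp [mm]
  | cons l j w ih => rw [mm, ih ha.1, S.red_nf l j ha.2.1 ha.2.2]

theorem mm_inj (a : Wd N L) {b c : Wd N L} (h : S.mm a b = S.mm a c) : b = c := by
  induction a with
  | old a => exact S.smul_inj a h
  | cons l j w ih => exact ih (S.red_inj l j h)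

theorem mm_eq_one {a b : Wd N L} (h : S.mm a b = old 1) : a = old 1 := by
  have key : ∀ (x : N) (g : Wd N L), x • g = old 1 → x = 1 := by
    intro x g hh
    cases g <;> simp only [smul_old, smul_cons, reduceCtorEq, old.injEq] at hh
    exact S.nounit _ _ hh
  cases a with
  | old a => rw [key a b h]
  | cons l j w =>
    rw [mm] at h
    rcases S.red_cases l j (S.mm w b) with ⟨g, hg⟩ | ⟨h1, i, hi, g, hg⟩ | ⟨h1, h2⟩
    · rw [hg, red_al] at h; exact absurd (key _ _ h) (S.eta_ne l)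
    · rw [hg] at h h1; rw [S.red_e l hi g h1] at h; cases h
    · rw [S.red_nf l j h1 h2] at h; cases h

end StepData
end Crest.Agent.R296
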