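import Crest.Agent.R296.RawOut

/-! Row 296: the tower of stages. -/

set_option autoImplicit false

noncomputable section
namespace Crest.Agent.R296

def W.num : W → ℕ
  | .base n => n
  | _ => 0
def baseDat : Dat := ⟨Set.range W.base, fun a b => W.base (a.num + b.num), ∅⟩
theorem baseDat_mon : Mon baseDat.V baseDat.m := by
  refine ⟨⟨0, rfl⟩, ?_, ?_, ?_, ?_, ?_, ?_⟩
  · exact fun _ _ _ _ => ⟨_, rfl⟩
  · rintro _ ⟨a, rfl⟩ _ ⟨b, rfl⟩ _ ⟨c, rfl⟩; simp [baseDat, W.num, add_assoc]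
  · rintro _ ⟨a, rfl⟩; simp [baseDat, W.num]
  · rintro _ ⟨a, rfl⟩; simp [baseDat, W.num]
  · rintro _ ⟨a, rfl⟩ _ ⟨b, rfl⟩ _ ⟨c, rfl⟩ h; simpa [baseDat, W.num] using h
  · rintro _ ⟨a, rfl⟩ _ ⟨b, rfl⟩ h
    simp only [baseDat, W.num, W.base.injEq] at h ⊢; omega

open Classical in
def lowOf (x : WithBot Om) (r : ∀ y, y < x → Dat) : Dat :=
  ⟨{w | ∃ h : w.lab < x, w ∈ (r _ h).V},
    fun a b => if h : max a.lab b.lab < x then (r _ h).m a b else W.base 0,
    {l | ∃ h : (l.s : WithBot Om) < x, l ∈ (r _ h).L}⟩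
open Classical in
def stepOf (x : WithBot Om) (d : Dat) : Dat :=
  x.recBotCoe baseDat fun s => if h : Good d s then (GD.mk d h).out else baseDat
def tower : WithBot Om → Dat :=
  (wellFounded_lt (α := WithBot Om)).fix fun x r => stepOf x (lowOf x r)
def low (x : WithBot Om) : Dat := lowOf x fun y _ => tower y
theorem tower_eq (x : WithBot Om) : tower x = stepOf x (low x) := by
  rw [tower, WellFounded.fix_eq]; rfl
theorem tower_bot : tower ⊥ = baseDat := by rw [tower_eq]; rfl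
theorem tower_coe {s : Om} (h : Good (low s) s) : tower s = (GD.mk (low s) h).out := by
  rw [tower_eq]; exact dif_pos h

def Valid (w : W) : Prop := w ∈ (tower w.lab).V
def gmul (a b : W) : W := (tower (max a.lab b.lab)).m a b
def LValid (l : RL) : Prop := l ∈ (tower l.s).L
theorem mem_low {x : WithBot Om} {w : W} : w ∈ (low x).V ↔ w.lab < x ∧ Valid w := exists_prop
theorem mem_lowL {x : WithBot Om} {l : RL} : l ∈ (low x).L ↔ (l.s : WithBot Om) < x ∧ LValid l :=
  exists_prop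
theorem low_m {x : WithBot Om} {a b : W} (ha : a.lab < x) (hb : b.lab < x) :
    (low x).m a b = gmul a b := dif_pos (max_lt ha hb)

/-- The induction hypothesis at a level. -/
structure Q (y : WithBot Om) : Prop where
  mon : Mon {w | w.lab ≤ y ∧ Valid w} gmul
  hl : ∀ l : RL, (l.s : WithBot Om) = y → LValid l →
    HL {w | w.lab ≤ y ∧ Valid w} gmul {l | (l.s : WithBot Om) ≤ y ∧ LValid l} l

theorem mon_of_Q {S : WithBot Om → Prop} (hS : ∀ x y, x ≤ y → S y → S x) (h0 : S ⊥)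
    (h : ∀ y, S y → Q y) : Mon {w | S w.lab ∧ Valid w} gmul := by
  have h2 : ∀ {a b : W}, S a.lab → S b.lab → S (max a.lab b.lab) := fun {a b} ha hb => by
    rcases max_choice a.lab b.lab with h | h <;> rw [h] <;> assumption
  have h3 : ∀ {a b c : W}, S a.lab → S b.lab → S c.lab → S (max a.lab (max b.lab c.lab)) :=
    fun {a b c} ha hb hc => by
      rcases max_choice a.lab (max b.lab c.lab) with h | h <;> rw [h]
      · exact ha
      · exact h2 hb hc
  refine ⟨⟨h0, (h ⊥ h0).mon.one.2⟩, fun a ha b hb => ?_, fun a ha b hb c hc => ?_, fun a ha => ?_,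
    fun a ha => ?_, fun a ha b hb c hc => ?_, fun a ha b hb => ?_⟩
  · have := (h _ (h2 ha.1 hb.1)).mon.mul a ⟨le_max_left _ _, ha.2⟩ b ⟨le_max_right _ _, hb.2⟩
    exact ⟨hS _ _ this.1 (h2 ha.1 hb.1), this.2⟩
  · exact (h _ (h3 ha.1 hb.1 hc.1)).mon.assoc a ⟨by simp, ha.2⟩ b ⟨by simp, hb.2⟩ c ⟨by simp, hc.2⟩
  · exact (h _ ha.1).mon.one_mul a ⟨le_rfl, ha.2⟩
  · exact (h _ ha.1).mon.mul_one a ⟨le_rfl, ha.2⟩
  · exact (h _ (h3 ha.1 hb.1 hc.1)).mon.cancel a ⟨by simp, ha.2⟩ b ⟨by simp, hb.2⟩ c ⟨by simp, hc.2⟩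
  · exact (h _ (h2 ha.1 hb.1)).mon.nounit a ⟨by simp, ha.2⟩ b ⟨by simp, hb.2⟩

theorem good_of_Q {s : Om} (h : ∀ y < (s : WithBot Om), Q y) : Good (low s) s := by
  have hm := mon_of_Q (S := (· < (s : WithBot Om))) (fun _ _ => lt_of_le_of_lt)
    (WithBot.bot_lt_coe s) h
  refine ⟨hm.congr (Set.ext fun _ => mem_low) fun a ha b hb => low_m ha.1 hb.1,
    fun w hw => (mem_low.1 hw).1, fun l hl => ?_⟩
  obtain ⟨h1, h2⟩ := mem_lowL.1 hl
  exact ((h _ h1).hl l rfl h2).mono (h _ h1).mon.mul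
    (fun w hw => mem_low.2 ⟨hw.1.trans_lt h1, hw.2⟩)
    (fun a ha b hb => low_m (ha.1.trans_lt h1) (hb.1.trans_lt h1))
    fun l' hl' => mem_lowL.2 ⟨hl'.1.trans_lt h1, hl'.2⟩

theorem out_V {s : Om} (h : Good (low s) s) :
    {w : W | w.lab ≤ (s : WithBot Om) ∧ Valid w} = (GD.mk (low s) h).out.V := by
  ext w
  constructor
  · rintro ⟨h1, h2⟩
    rcases h1.lt_or_eq with h1 | h1
    · exact (GD.mk (low s) h).out_sub (mem_low.2 ⟨h1, h2⟩)
    · rwa [Valid, h1, tower_coe h] at h2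
  · intro hw
    obtain ⟨h1, h2⟩ := (GD.mk (low s) h).out_lab hw
    refine ⟨h1, ?_⟩
    rcases h1.lt_or_eq with h1 | h1
    · exact (mem_low.1 (h2 h1)).2
    · rwa [Valid, h1, tower_coe h]
theorem out_gmul {s : Om} (h : Good (low s) s) : ∀ a ∈ (GD.mk (low s) h).out.V,
    ∀ b ∈ (GD.mk (low s) h).out.V, gmul a b = (GD.mk (low s) h).out.m a b := by
  intro a ha b hb
  obtain ⟨h1, h2⟩ := (GD.mk (low s) h).out_lab ha
  obtain ⟨h3, h4⟩ := (GD.mk (low s) h).out_lab hb
  rcases (max_le h1 h3).lt_or_eq with h5 | h5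
  · rw [max_lt_iff] at h5
    rw [GD.out_old _ a (h2 h5.1) b (h4 h5.2)]
    exact (low_m h5.1 h5.2).symm
  · rw [gmul, h5, tower_coe h]

theorem Q_of_good {s : Om} (h : Good (low s) s) : Q s := by
  refine ⟨(GD.out_mon _).congr (out_V h) (out_gmul h), fun l hl hv => ?_⟩
  obtain rfl : l.s = s := WithBot.coe_injective hl
  rw [LValid, tower_coe h] at hv
  refine ((GD.out_hl _ l hv).2).mono h.mon.mul
    (fun w hw => ⟨(mem_low.1 hw).1.le, (mem_low.1 hw).2⟩)
    (fun a ha b hb => (low_m (mem_low.1 ha).1 (mem_low.1 hb).1).symm) fun l' hl' => ?_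
  have := (GD.out_hl _ l' hl').1
  exact ⟨by rw [this], by rwa [LValid, this, tower_coe h]⟩

theorem valid_bot {w : W} (h : w.lab = ⊥) : Valid w := by
  cases w with
  | base n => rw [Valid, h, tower_bot]; exact ⟨n, rfl⟩
  | cons => cases h
theorem gmul_base (a b : ℕ) : gmul (.base a) (.base b) = .base (a + b) := by
  simp [gmul, tower_bot, baseDat, W.num]

theorem Q_all (y : WithBot Om) : Q y := by
  induction y using WellFoundedLT.induction with
  | ind y ih =>
    induction y using WithBot.recBotCoe with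
    | coe s => exact Q_of_good (good_of_Q ih)
    | bot =>
      refine ⟨baseDat_mon.congr ?_ ?_, fun l hl => absurd hl WithBot.coe_ne_bot⟩
      · ext w
        cases w with
        | base n => exact ⟨fun _ => ⟨n, rfl⟩, fun _ => ⟨le_rfl, valid_bot rfl⟩⟩
        | cons => simp [W.lab, baseDat]
      · rintro _ ⟨a, rfl⟩ _ ⟨b, rfl⟩; exact gmul_base a b

theorem good_low (s : Om) : Good (low s) s := good_of_Q fun y _ => Q_all y
def gd (s : Om) : GD s := ⟨low s, good_low s⟩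
theorem mon_all : Mon {w | Valid w} gmul :=
  (mon_of_Q (S := fun _ => True) (fun _ _ _ _ => trivial) trivial fun y _ => Q_all y).congr
    (by simp) fun _ _ _ _ => rfl

/-- The monoid. -/
def MM : Type := {w : W // Valid w}
instance : Monoid MM where
  mul a b := ⟨gmul a.1 b.1, mon_all.mul _ a.2 _ b.2⟩
  one := ⟨W.base 0, mon_all.one⟩
  mul_assoc a b c := Subtype.ext (mon_all.assoc _ a.2 _ b.2 _ c.2)
  one_mul a := Subtype.ext (mon_all.one_mul _ a.2)
  mul_one a := Subtype.ext (mon_all.mul_one _ a.2)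
instance : IsLeftCancelMul MM where
  mul_left_cancel a b c h := Subtype.ext (mon_all.cancel _ a.2 _ b.2 _ c.2 (congrArg Subtype.val h))
theorem MM.mul_val (a b : MM) : (a * b).1 = gmul a.1 b.1 := rfl
theorem MM.one_val : (1 : MM).1 = W.base 0 := rfl

end Crest.Agent.R296
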