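import Crest.Agent.R296.Cond

/-!
Row 296: supports of terms are filters; stable conditions; generic subsets of `ω₁`; counting.
-/

set_option autoImplicit false
set_option linter.unusedSectionVars false

namespace Crest.Agent.R296

open Cond

variable {M : Type} [Monoid M] [IsLeftCancelMul M]

namespace Geo
variable (G : Geo M)
include G

/-- the intersection lemma -/
theorem teq_meet {p : Cond M} {t u1 u2 : T M} {d1 d2 m : M}
    (h1 : TEq p t (d1 • u1)) (h2 : TEq p t (d2 • u2)) (hm : IsMeet d1 d2 m) :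
    ∃ u : T M, TEq p t (m • u) := by
  obtain ⟨c1, rfl⟩ := hm.left
  obtain ⟨c2, hc⟩ := hm.right
  obtain ⟨u, hu⟩ : ∃ u : T M, TEq (pull d1 p) u1 (c1 • u) := by
    refine exists_supp fun a b r hab ha hb => ?_
    obtain ⟨X0, X1, e, hX⟩ := G.amalg (a * c1) c1
    have hr : r ≤ (a * c1) • pull c1 (pull d1 p) := by
      rw [mul_smul]
      exact ha.trans (Frame.mono a (le_smul_pull _ _))
    have hc' : Compat (X0 • r) (X1 • pull d1 p) :=
      compat_of_meet e hX (compat_of_le le_rfl (le_smul_iff_pull.1 hr))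
    have key : ∀ a : M, X0 * (a * c1) = X1 * c1 → IsMeet X0 X1 (X0 * (a * c1)) →
        r ≤ a • pull d1 p →
        TEq (union (X0 • r) (X1 • pull d1 p)) ((X0 * a) • u1) (X1 • u1) := by
      intro a e hX ha
      refine G.teq_of_disjoint h1 h2 hc hm (by rw [mul_assoc, e]) ?_
        (ext_trans ha (union_le_left _ _)) (union_le_right hc')
      intro z
      constructor
      · rintro ⟨k1, k2⟩
        rw [mul_assoc]
        exact (hX z).1 ⟨(Dvd.intro _ rfl).trans k1, k2⟩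
      · intro k
        refine ⟨(Dvd.intro _ rfl).trans k, Dvd.dvd.trans ?_ k⟩
        rw [mul_assoc, e]
        exact Dvd.intro _ rfl
    have k := (key a e hX ha).trans (key b (hab ▸ e) (hab ▸ hX) hb).symm
    rw [mul_smul, mul_smul] at k
    refine (G.teq_pull k).mono1 ?_
    rw [pull_union, pull_smul, pull_smul_of_meet e hX]
    exact le_union le_rfl hr
  refine ⟨u, h1.trans ?_⟩
  rw [mul_smul]
  exact hu.mono (le_smul_pull _ _)

/-- the nodes from which a term is known to come -/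
def Supp (p : Cond M) (t : T M) : Flt M where
  carrier := {δ | ∃ u : T M, TEq p t (δ • u)}
  one_mem' := ⟨t, by simpa using TEq.refl _ _⟩
  up' := by
    rintro a b ⟨u, h⟩ ⟨c, rfl⟩
    exact ⟨c • u, by rwa [← mul_smul]⟩
  dir' := by
    rintro a b ⟨u, h⟩ ⟨u', h'⟩
    obtain ⟨m, hm⟩ := G.meet a b
    exact ⟨m, G.teq_meet h h' hm, hm.left, hm.right⟩

theorem mem_supp {p : Cond M} {t : T M} {δ : M} :
    δ ∈ G.Supp p t ↔ ∃ u : T M, TEq p t (δ • u) := Iff.rfl

theorem supp_mono {p q : Cond M} {t : T M} {δ : M} (h : δ ∈ G.Supp p t) (hq : q ≤ p) :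
    δ ∈ G.Supp q t := let ⟨u, hu⟩ := h; ⟨u, hu.mono1 hq⟩

theorem supp_congr {p : Cond M} {t t' : T M} (h : TEq p t t') : G.Supp p t = G.Supp p t' :=
  Flt.ext' fun _ => ⟨fun ⟨u, k⟩ => ⟨u, h.symm.trans k⟩, fun ⟨u, k⟩ => ⟨u, h.trans k⟩⟩

/-- `p` decides the support of `t` -/
def Stable (p : Cond M) (t : T M) : Prop := ∀ q ≤ p, ∀ δ ∈ G.Supp q t, δ ∈ G.Supp p t

theorem supp_smul {p r : Cond M} {t : T M} {a : M} (h : G.Stable p t) (hr : r ≤ a • p) :
    G.Supp r (a • t) = a • G.Supp p t := by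
  refine Flt.ext' fun ε => ⟨fun hε => ?_, ?_⟩
  · obtain ⟨_, ⟨u, hu⟩, ⟨γ, rfl⟩, h2⟩ := (G.Supp r (a • t)).dir
      (show a ∈ G.Supp r (a • t) from ⟨t, TEq.refl _ _⟩) hε
    rw [mul_smul] at hu
    exact ⟨γ, h _ (le_smul_iff_pull.1 hr) γ ⟨u, G.teq_pull hu⟩, h2⟩
  · rintro ⟨δ, ⟨u, hu⟩, k⟩
    exact Flt.up (show a * δ ∈ G.Supp r (a • t) from ⟨u, by rw [mul_smul]; exact hu.mono hr⟩) k

theorem exists_stable (p : Cond M) (t : T M) : ∃ q ≤ p, G.Stable q t := by
  let R : {q // q ≤ p} → {q // q ≤ p} → Prop := fun a b =>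
    a = b ∨ (b.1 ≤ a.1 ∧ ∃ δ ∈ G.Supp b.1 t, δ ∉ G.Supp a.1 t)
  have Rle : ∀ {a b}, R a b → b.1 ≤ a.1 := by
    rintro a b (rfl | h)
    · exact le_rfl
    · exact h.1
  haveI : Nonempty {q // q ≤ p} := ⟨⟨p, le_rfl⟩⟩
  obtain ⟨m, hm⟩ := exists_maximal_of_nonempty_chains_bounded (r := R) (by
    intro C hC ⟨a0, ha0⟩
    have tot : ∀ a ∈ C, ∀ b ∈ C, R a b ∨ R b a := fun a ha b hb => by
      by_cases e : a = b
      · exact Or.inl (Or.inl e)
      · exact hC ha hb e
    let F : Flt M :=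
      { carrier := {δ | ∃ a ∈ C, δ ∈ G.Supp a.1 t}
        one_mem' := ⟨a0, ha0, Flt.one_mem _⟩
        up' := by
          rintro x y ⟨a, ha, h⟩ k
          exact ⟨a, ha, Flt.up h k⟩
        dir' := by
          rintro x y ⟨a, ha, h⟩ ⟨b, hb, h'⟩
          rcases tot a ha b hb with k | k
          · obtain ⟨c, k1, k2⟩ := Flt.dir (G.supp_mono h (Rle k)) h'
            exact ⟨c, ⟨b, hb, k1⟩, k2⟩
          · obtain ⟨c, k1, k2⟩ := Flt.dir h (G.supp_mono h' (Rle k))
            exact ⟨c, ⟨a, ha, k1⟩, k2⟩ }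
    obtain ⟨f, hf, hf'⟩ := G.ctbl F
    choose g hg hg' using hf
    by_cases hc : ∃ a ∈ C, ∀ n, f n ∈ G.Supp a.1 t
    · obtain ⟨a, ha, h⟩ := hc
      refine ⟨a, fun b hb => ?_⟩
      rcases tot a ha b hb with (k | ⟨_, δ, k1, k2⟩) | k
      · exact Or.inl k.symm
      · obtain ⟨n, hn⟩ := hf' δ ⟨b, hb, k1⟩
        exact absurd (Flt.up (h n) hn) k2
      · exact k
    · push Not at hc
      obtain ⟨q, hq⟩ := exists_le_seq (fun n => (g n).1) fun n m => by
        rcases tot _ (hg n) _ (hg m) with k | k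
        · exact compat_of_le (Rle k) le_rfl
        · exact compat_of_le le_rfl (Rle k)
      refine ⟨⟨q, (hq 0).trans (g 0).2⟩, fun b hb => Or.inr ?_⟩
      obtain ⟨n, hn⟩ := hc b hb
      refine ⟨?_, f n, G.supp_mono (hg' n) (hq n), hn⟩
      rcases tot _ (hg n) b hb with k | k
      · exact absurd (G.supp_mono (hg' n) (Rle k)) hn
      · exact (hq n).trans (Rle k)) (by
    rintro a b c (rfl | ⟨h1, δ, h2, h3⟩) k
    · exact k
    · exact Or.inr ⟨(Rle k).trans h1, δ, G.supp_mono h2 (Rle k), h3⟩)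
  refine ⟨m.1, m.2, fun q hq δ hδ => ?_⟩
  by_contra hn
  rcases hm ⟨q, hq.trans m.2⟩ (Or.inr ⟨hq, δ, hδ, hn⟩) with k | ⟨k, ε, k1, k2⟩
  · exact hn (by rw [← k]; exact hδ)
  · exact k2 (G.supp_mono k1 hq)

variable {G}

theorem Stable.mono {p r : Cond M} {t : T M} {a : M} (h : G.Stable p t) (hr : r ≤ a • p) :
    G.Stable r (a • t) := by
  intro q hq δ hδ
  rwa [G.supp_smul h (hq.trans hr), ← G.supp_smul h hr] at hδ

theorem Stable.mono1 {p r : Cond M} {t : T M} (h : G.Stable p t) (hr : r ≤ p) :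
    G.Stable r t := by
  simpa using h.mono (a := 1) (by simpa using hr)

theorem Stable.supp_eq {p r : Cond M} {t : T M} (h : G.Stable p t) (hr : r ≤ p) :
    G.Supp r t = G.Supp p t := by
  simpa using G.supp_smul h (a := 1) (by simpa using hr)

theorem Stable.congr {p : Cond M} {t t' : T M} (h : G.Stable p t) (e : TEq p t t') :
    G.Stable p t' := by
  intro q hq δ hδ
  rw [← G.supp_congr e]
  rw [← G.supp_congr (e.mono1 hq)] at hδ
  exact h q hq δ hδ

end Geo

/-! ### generic subsets of `ω₁` -/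

/-- the ordinal of an element of `Om` -/
noncomputable def Om.ord (z : Om) : Ordinal.{0} := Ordinal.typein (α := Om) (· < ·) z

theorem Om.ord_inj {z w : Om} (h : z.ord = w.ord) : z = w :=
  Ordinal.typein_injective _ h

/-- the generic set attached to a filter -/
noncomputable def gs (i : Flt M) : T M :=
  Tm.of (ι := Om) (fun _ => 1) (fun z => single (i, z) true) (fun z => chk z.ord)

theorem mem_smul_gs {p : Cond M} {m : T M} {β : M} {i : Flt M} : Mem p m (β • gs i) ↔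
    Dense p fun (c : M) r => ∃ z : Om, r.f ((c * β) • i, z) = some true ∧
      TEq r (c • m) (chk z.ord) := by
  rw [gs, mem_of_iff]
  constructor
  · refine fun h => h.imp ?_
    rintro c r ⟨z, γ, h1, h2, h3⟩
    rw [mul_one] at h1
    subst h1
    exact ⟨z, le_smul_single_iff.1 h2, h3.trans (smul_chk _ _ _)⟩
  · refine fun h => h.imp ?_
    rintro c r ⟨z, h1, h2⟩
    exact ⟨z, c * β, (mul_one _).symm, le_smul_single_iff.2 h1, h2.trans (smul_chk _ _ _).symm⟩

theorem smul_gs (p : Cond M) (c : M) (i : Flt M) : TEq p (c • gs i) (gs (c • i)) := by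
  refine TEq.of_mem_iff fun d r _ m => ?_
  rw [← mul_smul, mem_smul_gs, mem_smul_gs]
  simp only [mul_smul]

theorem gs_inj {p : Cond M} {i j : Flt M} (h : TEq p (gs i) (gs j)) : i = j := by
  by_contra hne
  obtain ⟨z, hz⟩ := exists_fresh p
  obtain ⟨q, hq, h1, h2, -⟩ := exists_separate p hne (hz z le_rfl)
  have k : Mem q (chk z.ord) ((1 : M) • gs i) := by
    rw [mem_smul_gs]
    refine Dense.of_forall fun c r hr => ⟨z, ?_, smul_chk _ _ _⟩
    rw [mul_one]
    exact le_smul_iff.1 hr _ _ _ h1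
  have k2 : Mem q (chk z.ord) ((1 : M) • gs j) := by
    rw [one_smul] at k ⊢
    exact k.congr_right (h.mono1 hq)
  obtain ⟨c, r, hr, w, k3, k4⟩ := (mem_smul_gs.1 k2).exists
  have e : z = w := Om.ord_inj (chk_inj ((smul_chk r c _).symm.trans k4))
  subst e
  rw [mul_one, le_smul_iff.1 hr _ _ _ h2] at k3
  cases k3

/-! ### petals are compatible with almost every condition -/

theorem exists_compat {π : Om → M} {α η : M} (hπ : ∀ z, π z * α = η)
    (hm : ∀ z w, z ≠ w → IsMeet (π z) (π w) η) {s r : Cond M}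
    (h : Compat (pull η s) (pull α r)) : ∃ z0, ∀ z, z0 ≤ z → Compat s (π z • r) := by
  have hc : {z | ∃ x, s.f x ≠ none ∧ η ∉ x.1 ∧ π z ∈ x.1}.Countable := by
    have : {z | ∃ x, s.f x ≠ none ∧ η ∉ x.1 ∧ π z ∈ x.1} ⊆
        ⋃ x ∈ {x | s.f x ≠ none}, {z | η ∉ x.1 ∧ π z ∈ x.1} := by
      rintro z ⟨x, h1, h2⟩
      simp only [Set.mem_iUnion]
      exact ⟨x, h1, h2⟩
    refine Set.Countable.mono this (s.ctb.biUnion fun x _ => Set.Subsingleton.countable ?_)
    intro z hz w hw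
    by_contra hne
    exact hz.1 (Flt.meet_mem (hm z w hne) hz.2 hw.2)
  obtain ⟨z0, hz0⟩ := Om.exists_gt hc
  refine ⟨z0, fun z hz => ?_⟩
  rintro ⟨i, w⟩ b b' k1 k2
  obtain ⟨j, rfl, k3⟩ := smul_f_eq_some.1 k2
  by_cases e : η ∈ π z • j
  · rw [← hπ z, Flt.mul_mem_smul_iff] at e
    obtain ⟨j', rfl⟩ := Flt.mem_iff_exists_smul.1 e
    rw [← mul_smul, hπ z] at k1
    exact h (j', w) b b' k1 k3
  · exact absurd (hz0 z ⟨(π z • j, w), by simp [k1], e, Flt.self_mem_smul _ _⟩) (not_lt.2 hz)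

/-! ### counting -/

theorem Geo.exists_tag (G : Geo M) : Nonempty (M × M × Cond M ↪ G.Tag) := by
  open Cardinal in
  have hM : #M ≤ #G.Tag := (Cardinal.le_def _ _).2 G.tagM
  have hO : #Om ≤ #G.Tag := (Cardinal.le_def _ _).2 G.tagOm
  have hS : #G.Tag ^ ℵ₀ ≤ #G.Tag := by
    have := (Cardinal.le_def _ _).2 G.tagSeq
    simpa using this
  have hinf : ℵ₀ ≤ #G.Tag := (Cardinal.aleph0_le_mk Om).trans hO
  have hF : #(Flt M) ≤ #G.Tag := by
    choose f hf hf' using G.ctbl
    have : Function.Injective f := fun F F' e => Flt.ext' fun x =>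
      ⟨fun h => let ⟨n, hn⟩ := hf' F x h; Flt.up (hf F' n) (e ▸ hn),
        fun h => let ⟨n, hn⟩ := hf' F' x h; Flt.up (hf F n) (e ▸ hn)⟩
    refine (Cardinal.mk_le_of_injective this).trans (le_trans ?_ hS)
    simpa using Cardinal.power_le_power_right hM
  have h1 : #((Flt M × Om) × Bool) ≤ #G.Tag := by
    simp only [Cardinal.mk_prod, Cardinal.lift_id]
    refine Cardinal.mul_le_of_le hinf (Cardinal.mul_le_of_le hinf hF hO) ?_
    exact (Cardinal.mk_le_aleph0).trans hinf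
  have hC : #(Cond M) ≤ #G.Tag := by
    let φ : Cond M → {t : Set ((Flt M × Om) × Bool) // #t ≤ ℵ₀} := fun p =>
      ⟨{x | p.f x.1 = some x.2}, by
        rw [Cardinal.le_aleph0_iff_set_countable]
        refine (p.ctb.prod (Set.to_countable (Set.univ : Set Bool))).mono ?_
        intro x hx
        simp only [Set.mem_setOf_eq] at hx
        simp [hx]⟩
    have : Function.Injective φ := fun p q e => ext_some fun i z b => by
      have := congrArg (fun t => ((i, z), b) ∈ t.1) e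
      simpa [φ] using this
    haveI hne : Nonempty (Flt M) := ⟨Flt.princ 1⟩
    refine (Cardinal.mk_le_of_injective this).trans
      ((Cardinal.mk_bounded_set_le_of_infinite _ _).trans ?_)
    exact (Cardinal.power_le_power_right h1).trans hS
  rw [← Cardinal.le_def]
  simp only [Cardinal.mk_prod, Cardinal.lift_id]
  exact Cardinal.mul_le_of_le hinf hM (Cardinal.mul_le_of_le hinf hM hC)

end Crest.Agent.R296
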