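import Crest.Agent.R296.ZFBase

/-!
Row 296: every sentence of `ZF` is forced.
-/

set_option autoImplicit false

namespace Crest.Agent.R296

open FirstOrder FirstOrder.Language Crest.LogicCS.SetTheory

variable {M P : Type} [Monoid M] [MulAction M P] [Preorder P] [OrderTop P] [Frame M P]

theorem forces_extAx (p : P) (v : ℕ → Tm M P) : Forces extAx p v := by
  unfold extAx
  rw [forces_all]
  intro c r _ a
  rw [forces_all_imp]
  intro d s _ b h
  rw [forces_all_iff] at h
  rw [forces_veq]
  refine TEq.of_mem_iff fun e w hw m => ?_
  simpa [forces_vmem] using h e w hw m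

theorem forces_pairAx (p : P) (v : ℕ → Tm M P) : Forces pairAx p v := by
  unfold pairAx
  rw [forces_all_all]
  intro c r _ a b
  refine forces_ex_of (pairT a b) ?_
  rw [forces_all_iff]
  intro d s _ x
  rw [forces_sup]
  simpa using mem_pairT

theorem forces_unionAx (p : P) (v : ℕ → Tm M P) : Forces unionAx p v := by
  unfold unionAx
  rw [forces_all]
  intro c r _ a
  refine forces_ex_of (unionT a) ?_
  rw [forces_all_iff]
  intro d s _ x
  rw [forces_ex]
  simpa [forces_inf] using mem_unionT

theorem forces_powerAx (p : P) (v : ℕ → Tm M P) : Forces powerAx p v := by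
  unfold powerAx
  rw [forces_all]
  intro c r _ a
  refine forces_ex_of (powT a) ?_
  rw [forces_all_iff]
  intro d s _ x
  rw [forces_all_imp]
  simpa using mem_powT

theorem forces_infAx (p : P) (v : ℕ → Tm M P) : Forces infAx p v := by
  unfold infAx
  refine forces_ex_of omegaT ?_
  rw [forces_inf]
  constructor
  · refine forces_ex_of emptyT ?_
    rw [forces_inf]
    constructor
    · rw [forces_all]
      intro c r _ t
      rw [forces_not]
      intro d s _
      have := not_mem_emptyT (M := M) (m := d • t) (c := d * c) (r := s)
      simpa [mul_smul] using this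
    · simpa [natT] using natT_mem_omegaT (M := M) 0 1 p
  · rw [forces_all_imp]
    intro c r _ y hy
    have hy' : Mem r y (c • omegaT) := by simpa using hy
    rw [forces_ex]
    refine (mem_omegaT hy').imp ?_
    rintro d s ⟨n, hn⟩
    refine ⟨d • c • natT (n + 1), ?_⟩
    rw [forces_inf]
    constructor
    · simpa [mul_smul] using natT_mem_omegaT (M := M) (n + 1) (d * c) s
    · rw [forces_all_iff]
      intro e w hw z
      rw [forces_sup]
      have h1 := mem_succT (x := (natT n : Tm M P)) (m := z) (c := e * (d * c)) (r := w)
      have h2 : Mem w z (e • d • c • natT (n + 1)) ↔ Dense w fun (f : M) u =>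
          Mem u (f • z) (f • e • d • y) ∨ TEq u (f • z) (f • e • d • y) := by
        simp only [mul_smul] at h1
        refine h1.trans ⟨fun h => h.imp' ?_, fun h => h.imp' ?_⟩
        · intro f u hu h3
          have h4 := ((hn.mono hw).mono hu).symm
          refine ⟨1, u, le_one_smul u, ?_⟩
          rw [one_mul]
          exact h3.imp (fun k => k.congr_right h4) fun k => k.trans h4
        · intro f u hu h3
          have h4 := (hn.mono hw).mono hu
          refine ⟨1, u, le_one_smul u, ?_⟩
          rw [one_mul]
          exact h3.imp (fun k => k.congr_right h4) fun k => k.trans h4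
      simpa using h2

theorem forces_foundAx (p : P) (v : ℕ → Tm M P) : Forces foundAx p v := by
  unfold foundAx
  rw [forces_all_imp]
  intro c r _ a h
  rw [forces_ex] at h ⊢
  refine h.imp' ?_
  rintro d s _ ⟨m, hm⟩
  have hm' : Mem s m (d • a) := by simpa using hm
  obtain ⟨e, w, x, h1, h2, h3⟩ := exists_min_rank hm'
  refine ⟨e, w, h1, x, ?_⟩
  rw [forces_inf]
  constructor
  · simpa [mul_smul] using h2
  · rw [forces_not]
    intro f u hu h4
    rw [forces_ex] at h4
    obtain ⟨g, y, hy, z, h5⟩ := h4.exists
    rw [forces_inf] at h5
    refine h3 (g * f) y z (ext_trans hu hy) ?_ ?_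
    · simpa [mul_smul] using h5.1
    · simpa [mul_smul] using h5.2

theorem stable_forces {k : ℕ} (φ : setL.BoundedFormula Empty (k + 1)) (v : ℕ → Tm M P) :
    Stable fun (c : M) (r : P) m => Forces φ r (Function.update (c • v) k m) where
  mono h hs := by simpa only [smul_update, mul_smul] using h.mono hs
  congr {c r m m'} h e := h.congr fun i _ => by
    by_cases hi : i = k
    · subst hi
      simpa using e
    · simpa [Function.update_of_ne hi] using TEq.refl _ _
  dense h := Forces.of_dense (by simpa only [smul_update, mul_smul] using h)

theorem forces_sepAx (k : ℕ) (φ : setL.BoundedFormula Empty (k + 1)) (p : P) (v : ℕ → Tm M P) :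
    Forces (sepAx k φ) p v := by
  unfold sepAx
  refine forces_alls (fun p v => ?_) p v
  rw [forces_all]
  intro c r _ a
  refine forces_ex_of
    (subT a {x | Forces φ x.2 (Function.update (x.1.st • c • v) k x.1.mem)}) ?_
  rw [forces_all_iff]
  intro d s _ x
  have h1 := mem_sepT (a := a) (m := x) (stable_forces φ (c • v)) (c := d) (r := s)
  rw [forces_inf, forces_vmem, forces_vmem]
  have h2 : Forces (φ.liftAt 2 k) s (Function.update (d • Function.update
      (Function.update (c • v) k a) (k + 1)
        (subT a {x | Forces φ x.2 (Function.update (x.1.st • c • v) k x.1.mem)})) (k + 1 + 1) x) ↔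
      Forces φ s (Function.update (d • c • v) k x) := by
    rw [forces_liftAt (Nat.le_succ k)]
    refine forces_congr_eq fun i hi => ?_
    by_cases hik : i = k
    · subst hik
      simp
    · rw [if_pos (by omega), Function.update_of_ne (by omega), Function.update_of_ne hik,
        Pi.smul_apply, Function.update_of_ne (by omega), Function.update_of_ne hik]
      rfl
  refine Iff.trans ?_ (h1.trans (and_congr ?_ h2.symm))
  · simp
  · simp [Function.update_of_ne (show k ≠ k + 1 + 1 by omega)]

theorem forces_replAx (k : ℕ) (φ : setL.BoundedFormula Empty (k + 2)) (p : P)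
    (v : ℕ → Tm M P) : Forces (replAx k φ) p v := by
  unfold replAx
  refine forces_alls (fun p v => ?_) p v
  rw [forces_all_imp]
  intro c r _ a h
  rw [forces_all_imp] at h
  obtain ⟨b, hb⟩ := exists_collect a
    (fun (d : M) (s : P) x y =>
      Forces φ s (Function.update (Function.update (d • c • v) k x) (k + 1) y))
    (fun {d s x x' y} h1 e => h1.congr fun i _ => by
      by_cases hi : i = k + 1
      · subst hi
        simpa using TEq.refl _ _
      · by_cases hi' : i = k
        · subst hi'
          simpa using e
        · simpa [Function.update_of_ne hi, Function.update_of_ne hi'] using TEq.refl _ _)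
  refine forces_ex_of b ?_
  rw [forces_all_imp]
  intro d s hs x hx
  have hx' : Mem s x (d • a) := by
    simpa [Function.update_of_ne (show k ≠ k + 1 + 1 by omega)] using hx
  rw [forces_ex]
  refine (hb d s x hx' fun e w hw => ?_).imp ?_
  · have h1 := h (e * d) w (ext_trans hs hw) (e • x) (by simpa [mul_smul] using hx'.mono hw)
    rw [forces_ex] at h1
    obtain ⟨f, u, hu, y, h2⟩ := h1.exists
    refine ⟨f, u, y, hu, ?_⟩
    have h3 := (forces_inf.1 h2).1
    rw [forces_liftAt (by omega)] at h3
    refine (forces_congr_eq fun i hi => ?_).1 h3
    by_cases hi1 : i = k + 1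
    · subst hi1
      simp
    · by_cases hi2 : i = k
      · subst hi2
        simp [mul_smul]
      · rw [if_pos (by omega), Function.update_of_ne (by omega), Function.update_of_ne hi1,
          Function.update_of_ne hi2, Pi.smul_apply, Function.update_of_ne hi1, Pi.smul_apply,
          Function.update_of_ne hi2]
        simp [mul_smul]
  · rintro e w ⟨y, h1, h2⟩
    refine ⟨y, ?_⟩
    rw [forces_inf]
    constructor
    · simpa using h1
    · rw [forces_liftAt (by omega)]
      refine (forces_congr_eq fun i hi => ?_).1 h2
      by_cases hi1 : i = k + 1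
      · subst hi1
        simp
      · by_cases hi2 : i = k
        · subst hi2
          simp
        · rw [if_pos (by omega), Function.update_of_ne hi1, Function.update_of_ne hi2,
            Function.update_of_ne (by omega), Pi.smul_apply, Pi.smul_apply, Pi.smul_apply,
            Function.update_of_ne (by omega), Pi.smul_apply, Function.update_of_ne hi1,
            Function.update_of_ne hi2]
          simp [mul_smul]

theorem forces_ZF : ∀ φ ∈ ZF, ∀ (p : P) (v : ℕ → Tm M P), Forces φ p v := by
  intro φ hφ p v
  rcases hφ with (hφ | hφ) | hφ
  · rcases hφ with rfl | rfl | rfl | rfl | rfl | rfl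
    · exact forces_extAx p v
    · exact forces_pairAx p v
    · exact forces_unionAx p v
    · exact forces_powerAx p v
    · exact forces_infAx p v
    · exact forces_foundAx p v
  · obtain ⟨k, ψ, rfl⟩ := Set.mem_iUnion.1 hφ
    exact forces_sepAx k ψ p v
  · obtain ⟨k, ψ, rfl⟩ := Set.mem_iUnion.1 hφ
    exact forces_replAx k ψ p v

end Crest.Agent.R296
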