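import Crest.Agent.R296.Formula

/-!
Row 296: structural lemmas on forcing (congruence, lifting) and the names for the postulates of `ZF`.
-/

set_option autoImplicit false
set_option linter.unusedSectionVars false

namespace Crest.Agent.R296

open FirstOrder FirstOrder.Language Crest.LogicCS.SetTheory

variable {M P : Type} [Monoid M] [MulAction M P] [Preorder P] [OrderTop P] [Frame M P]

theorem tidx_lt {n : ℕ} (t : setL.Term (Empty ⊕ Fin n)) : tidx t < n := by
  cases t with
  | var a =>
    cases a with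
    | inl e => exact e.elim
    | inr i => exact i.2
  | func f _ => exact (show Empty from f).elim

/-- forcing respects forced equality of the environments -/
theorem Forces.congr {n : ℕ} {φ : setL.BoundedFormula Empty n} {p : P} {v w : ℕ → Tm M P}
    (h : Forces φ p v) (e : ∀ i < n, TEq p (v i) (w i)) : Forces φ p w := by
  induction φ generalizing p v w with
  | falsum => exact h
  | equal t1 t2 =>
    exact ((e _ (tidx_lt t1)).symm.trans h).trans (e _ (tidx_lt t2))
  | rel R ts =>
    cases R
    exact (Mem.congr_left h (e _ (tidx_lt (ts 0)))).congr_right (e _ (tidx_lt (ts 1)))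
  | imp φ ψ ih1 ih2 =>
    intro c r hr h1
    exact ih2 (h c r hr (ih1 h1 fun i hi => ((e i hi).mono hr).symm)) fun i hi => (e i hi).mono hr
  | @all n φ ih =>
    intro c r hr t
    refine ih (h c r hr t) fun i hi => ?_
    by_cases hin : i = n
    · subst hin
      simpa using TEq.refl _ _
    · simpa [Function.update_of_ne hin] using (e i (by omega)).mono hr

/-- forcing depends only on the indices in scope -/
theorem forces_congr_eq {n : ℕ} {φ : setL.BoundedFormula Empty n} {p : P} {v w : ℕ → Tm M P}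
    (e : ∀ i < n, v i = w i) : Forces φ p v ↔ Forces φ p w :=
  ⟨fun h => h.congr fun i hi => e i hi ▸ TEq.refl _ _,
    fun h => h.congr fun i hi => e i hi ▸ TEq.refl _ _⟩

theorem forces_castLE_of_eq {m n : ℕ} (h : m = n) (h' : m ≤ n) {φ : setL.BoundedFormula Empty m}
    {p : P} {v : ℕ → Tm M P} : Forces (φ.castLE h') p v ↔ Forces φ p v := by
  subst h
  rw [BoundedFormula.castLE_rfl]

theorem tidx_liftAt {n : ℕ} (n' m : ℕ) (t : setL.Term (Empty ⊕ Fin n)) :
    tidx (t.liftAt n' m) = if tidx t < m then tidx t else tidx t + n' := by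
  cases t with
  | var a =>
    cases a with
    | inl e => exact e.elim
    | inr i =>
      simp only [Term.liftAt, Term.relabel, Sum.map_inr, tidx]
      split_ifs <;> simp
  | func f _ => exact (show Empty from f).elim

theorem forces_liftAt {n n' m : ℕ} {φ : setL.BoundedFormula Empty n} (hmn : m ≤ n) {p : P}
    {v : ℕ → Tm M P} :
    Forces (φ.liftAt n' m) p v ↔ Forces φ p fun i => if i < m then v i else v (i + n') := by
  rw [BoundedFormula.liftAt]
  induction φ generalizing p v with
  | falsum => exact Iff.rfl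
  | equal t1 t2 =>
    simp only [BoundedFormula.mapTermRel, Forces, tidx_liftAt]
    split_ifs <;> rfl
  | rel R ts =>
    cases R
    simp only [BoundedFormula.mapTermRel, Forces, tidx_liftAt, id, RelF]
    split_ifs <;> rfl
  | imp φ ψ ih1 ih2 =>
    simp only [BoundedFormula.mapTermRel, Forces, ih1 hmn, ih2 hmn]
    refine forall_congr' fun c => forall_congr' fun r => forall_congr' fun _ => ?_
    have : (c • fun i => if i < m then v i else v (i + n')) =
        fun i => if i < m then (c • v) i else (c • v) (i + n') := by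
      funext i
      simp only [Pi.smul_apply]
      split_ifs <;> rfl
    rw [this]
  | @all k φ ih =>
    have h : k + 1 + n' = k + n' + 1 := by omega
    simp only [BoundedFormula.mapTermRel, Forces, forces_castLE_of_eq h, ih (hmn.trans k.le_succ)]
    refine forall_congr' fun c => forall_congr' fun r => forall_congr' fun _ =>
      forall_congr' fun t => forces_congr_eq fun i hi => ?_
    by_cases hik : i = k
    · subst hik
      rw [if_neg (by omega)]
      simp
    · rw [Function.update_of_ne hik, Pi.smul_apply]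
      split_ifs with him
      · rw [Function.update_of_ne (by omega)]; rfl
      · rw [Function.update_of_ne (by omega)]; rfl

theorem forces_alls {n : ℕ} {φ : setL.BoundedFormula Empty n}
    (h : ∀ (p : P) (v : ℕ → Tm M P), Forces φ p v) (p : P) (v : ℕ → Tm M P) :
    Forces φ.alls p v := by
  induction n with
  | zero => exact h p v
  | succ n ih => exact ih (φ := φ.all) fun p v c r _ t => h r _

/-! ### names -/

/-- the unordered pair -/
def pairT (a b : Tm M P) : Tm M P :=
  Tm.of (ι := Bool) (fun _ => 1) (fun _ => ⊤) fun i => cond i a b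

theorem mem_pairT {a b m : Tm M P} {c : M} {r : P} : Mem r m (c • pairT a b) ↔
    Dense r fun (d : M) s => TEq s (d • m) (d • c • a) ∨ TEq s (d • m) (d • c • b) := by
  rw [pairT, mem_of_iff]
  constructor
  · refine fun h => h.imp ?_
    rintro d s ⟨i, γ, h1, -, h3⟩
    rw [mul_one] at h1
    subst h1
    cases i
    · exact Or.inr (by simpa [mul_smul] using h3)
    · exact Or.inl (by simpa [mul_smul] using h3)
  · refine fun h => h.imp ?_
    rintro d s (h1 | h1)
    · exact ⟨true, d * c, (mul_one _).symm, le_smul_top _ _, by simpa [mul_smul] using h1⟩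
    · exact ⟨false, d * c, (mul_one _).symm, le_smul_top _ _, by simpa [mul_smul] using h1⟩

/-- the union -/
def unionT (a : Tm M P) : Tm M P :=
  Tm.of (ι := Σ j : PM a, Σ j' : PM j.mem, {r : P // r ≤ j'.st • j.cd ∧ r ≤ j'.cd})
    (fun i => i.2.1.st * i.1.st) (fun i => i.2.2.1) fun i => i.2.1.mem

theorem mem_unionT_of {a x y : Tm M P} {e : M} {s : P} (h1 : Mem s y (e • a)) (h2 : Mem s x y) :
    Mem s x (e • unionT a) := by
  refine Mem.of_dense fun d u hu => ?_
  obtain ⟨j, u1, k1, k2, k3⟩ := (h1.mono hu).mem0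
  have h3 : Mem u1 (j.st • d • x) j.mem := ((h2.mono hu).mono k1).congr_right k3
  obtain ⟨j', u2, l1, l2, l3⟩ := h3.mem0
  refine ⟨j'.st * j.st, u2, ext_trans k1 l1, ?_⟩
  have h4 := mem_of (ι := Σ j : PM a, Σ j' : PM j.mem, {r : P // r ≤ j'.st • j.cd ∧ r ≤ j'.cd})
    (a := fun i => i.2.1.st * i.1.st) (q := fun i => i.2.2.1) (t := fun i => i.2.1.mem)
    (p := u2) (β := j'.st * j.st * d * e) (γ := 1)
    ⟨j.down.down, j', u2, l1.trans (Frame.mono _ k2), l2⟩ (by simp [mul_assoc]) (by simp)
  simp only [one_smul] at h4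
  have h5 := h4.congr_left l3.symm
  simpa only [unionT, mul_smul] using h5

theorem mem_unionT {a m : Tm M P} {c : M} {r : P} : Mem r m (c • unionT a) ↔
    Dense r fun (d : M) s => ∃ y, Mem s y (d • c • a) ∧ Mem s (d • m) y := by
  constructor
  · rw [unionT, mem_of_iff]
    refine fun h => h.imp ?_
    rintro d s ⟨⟨j, j', r0, k1, k2⟩, γ, h1, h2, h3⟩
    simp only at h1 h2 h3
    refine ⟨γ • j'.st • j.mem, ?_, ?_⟩
    · have := ((j.mem_of_le le_rfl).mono k1).mono h2
      rwa [← mul_smul d c, h1, mul_smul, mul_smul]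
    · exact ((j'.mem_of_le k2).mono h2).congr_left h3.symm
  · refine fun h => Mem.of_dense (h.imp ?_)
    rintro d s ⟨y, h1, h2⟩
    rw [← mul_smul] at h1 ⊢
    exact mem_unionT_of h1 h2

/-- the subset of `a` given by a set of (potential member, condition) -/
def subT (a : Tm M P) (S : Set (PM a × P)) : Tm M P :=
  Tm.of (ι := {x : PM a × P // x ∈ S ∧ x.2 ≤ x.1.cd}) (fun x => x.1.1.st) (fun x => x.1.2)
    fun x => x.1.1.mem

theorem mem_of_mem_subT {a m : Tm M P} {S : Set (PM a × P)} {c : M} {r : P}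
    (h : Mem r m (c • subT a S)) : Mem r m (c • a) := by
  rw [subT, mem_of_iff] at h
  refine Mem.of_dense (h.imp ?_)
  rintro d s ⟨⟨⟨j, r0⟩, k1, k2⟩, γ, h1, h2, h3⟩
  simp only at h1 h2 h3 k2
  have := ((j.mem_of_le k2).mono h2).congr_left h3.symm
  rwa [← mul_smul, ← h1, mul_smul] at this

/-- a property of (stage, condition, term) that behaves like forcing -/
structure Stable (Φ : M → P → Tm M P → Prop) : Prop where
  mono : ∀ {c r m d s}, Φ c r m → s ≤ d • r → Φ (d * c) s (d • m)
  congr : ∀ {c r m m'}, Φ c r m → TEq r m m' → Φ c r m'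
  dense : ∀ {c r m}, (Dense r fun (d : M) s => Φ (d * c) s (d • m)) → Φ c r m

theorem mem_sepT {a m : Tm M P} {Φ : M → P → Tm M P → Prop} (hΦ : Stable Φ) {c : M} {r : P} :
    Mem r m (c • subT a {x | Φ x.1.st x.2 x.1.mem}) ↔ Mem r m (c • a) ∧ Φ c r m := by
  constructor
  · intro h
    refine ⟨mem_of_mem_subT h, ?_⟩
    rw [subT, mem_of_iff] at h
    refine hΦ.dense (h.imp ?_)
    rintro d s ⟨⟨⟨j, r0⟩, k1, k2⟩, γ, h1, h2, h3⟩
    simp only [Set.mem_ofPred_eq] at h1 h2 h3 k1 k2
    rw [h1]
    exact hΦ.congr (hΦ.mono k1 h2) h3.symm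
  · rintro ⟨h1, h2⟩
    rw [subT, mem_of_iff]
    refine (mem_iff_dense.1 h1).imp' ?_
    rintro d s hs ⟨j, rfl, k2, k3⟩
    refine ⟨1, s, le_one_smul s, ⟨(j.down, s), ?_, k2⟩, 1, by simp, by simp, by simpa using k3⟩
    exact hΦ.congr (hΦ.mono h2 hs) k3

/-- the power set -/
def powT (a : Tm M P) : Tm M P :=
  Tm.of (ι := Σ c : M, Set (PM (c • a) × P)) (fun i => i.1) (fun _ => ⊤) fun i => subT _ i.2

theorem stable_mem (u : Tm M P) : Stable fun (d : M) (r : P) m => Mem r m (d • u) where
  mono h hs := by rw [mul_smul]; exact h.mono hs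
  congr h e := h.congr_left e
  dense h := Mem.of_dense (by simpa only [mul_smul] using h)

theorem mem_powT {a u : Tm M P} {c : M} {r : P} : Mem r u (c • powT a) ↔
    ∀ (d : M) s, s ≤ d • r → ∀ t, Mem s t (d • u) → Mem s t (d • c • a) := by
  constructor
  · intro h d s hs t ht
    have h1 := h.mono hs
    rw [← mul_smul, powT, mem_of_iff] at h1
    refine Mem.of_dense (h1.imp' ?_)
    rintro e w hw ⟨⟨c', S⟩, γ, k1, -, k3⟩
    simp only at k1 k3
    refine ⟨1, w, le_one_smul w, ?_⟩
    have := mem_of_mem_subT ((ht.mono hw).congr_right k3)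
    rw [← mul_smul, ← k1] at this
    simpa only [one_mul, mul_smul] using this
  · intro h
    have h1 : TEq r u (subT (c • a) {x | Mem x.2 x.1.mem (x.1.st • u)}) := by
      refine TEq.of_mem_iff fun d s hs m => ?_
      rw [mem_sepT (stable_mem u)]
      exact ⟨fun k => ⟨h d s hs m k, k⟩, fun k => k.2⟩
    have h2 := mem_of (ι := Σ c : M, Set (PM (c • a) × P)) (a := fun i => i.1) (q := fun _ => ⊤)
      (t := fun i => subT _ i.2) (p := r) (β := c) (γ := 1)
      ⟨c, {x | Mem x.2 x.1.mem (x.1.st • u)}⟩ (by simp) (le_smul_top _ _)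
    simp only [one_smul] at h2
    exact h2.congr_left h1.symm

/-- the successor -/
def succT (x : Tm M P) : Tm M P :=
  Tm.of (ι := Option (PM x)) (fun i => i.elim 1 PM.st) (fun i => i.elim ⊤ PM.cd)
    fun i => i.elim x PM.mem

theorem mem_succT {x m : Tm M P} {c : M} {r : P} : Mem r m (c • succT x) ↔
    Dense r fun (d : M) s => Mem s (d • m) (d • c • x) ∨ TEq s (d • m) (d • c • x) := by
  constructor
  · rw [succT, mem_of_iff]
    refine fun h => h.imp ?_
    rintro d s ⟨i, γ, h1, h2, h3⟩
    cases i with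
    | none =>
      simp only [Option.elim, mul_one] at h1 h3
      subst h1
      exact Or.inr (by simpa only [mul_smul] using h3)
    | some j =>
      simp only [Option.elim] at h1 h2 h3
      left
      have := ((j.mem_of_le le_rfl).mono h2).congr_left h3.symm
      rwa [← mul_smul γ, ← h1, mul_smul] at this
  · refine fun h => Mem.of_dense (h.imp ?_)
    rintro d s (h1 | h1)
    · rw [← mul_smul] at h1 ⊢
      rw [succT, mem_of_iff]
      refine (mem_iff_dense.1 h1).imp ?_
      rintro e w ⟨j, rfl, k2, k3⟩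
      exact ⟨some j.down, 1, by simp, by simpa using k2, by simpa using k3⟩
    · have h2 := mem_of (ι := Option (PM x)) (a := fun i => i.elim 1 PM.st)
        (q := fun i => i.elim ⊤ PM.cd) (t := fun i => i.elim x PM.mem) (p := s) (β := d * c)
        (γ := d * c) none (by simp) (le_smul_top _ _)
      simp only [Option.elim, mul_smul] at h2
      exact h2.congr_left h1.symm

/-- the empty set -/
def emptyT : Tm M P := Tm.of (ι := Empty) Empty.elim Empty.elim Empty.elim

theorem not_mem_emptyT {m : Tm M P} {c : M} {r : P} : ¬ Mem r m (c • (emptyT : Tm M P)) := by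
  rw [emptyT, mem_of_iff]
  intro h
  obtain ⟨_, _, _, i, _⟩ := h.exists
  exact i.elim

/-- the finite ordinals -/
def natT : ℕ → Tm M P
  | 0 => emptyT
  | n + 1 => succT (natT n)

/-- the set of the finite ordinals -/
def omegaT : Tm M P := Tm.of (ι := ℕ) (fun _ => 1) (fun _ => ⊤) natT

theorem natT_mem_omegaT (n : ℕ) (c : M) (r : P) :
    Mem r (c • (natT n : Tm M P)) (c • omegaT) :=
  mem_of n (mul_one _).symm (le_smul_top _ _)

theorem mem_omegaT {m : Tm M P} {c : M} {r : P} (h : Mem r m (c • omegaT)) :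
    Dense r fun (d : M) s => ∃ n, TEq s (d • m) (d • c • natT n) := by
  rw [omegaT, mem_of_iff] at h
  refine h.imp ?_
  rintro d s ⟨n, γ, h1, -, h3⟩
  rw [mul_one] at h1
  subst h1
  exact ⟨n, by simpa only [mul_smul] using h3⟩

/-- a member of least rank -/
theorem exists_min_rank {a m : Tm M P} {r : P} (h : Mem r m a) :
    ∃ (d : M) (s : P) (x : Tm M P), s ≤ d • r ∧ Mem s x (d • a) ∧
      ∀ (e : M) w z, w ≤ e • s → Mem w z (e • x) → ¬ Mem w z (e • d • a) := by
  induction hm : m.rank using Ordinal.induction generalizing a m r with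
  | h o ih =>
    by_cases hc : ∀ (e : M) w z, w ≤ e • r → Mem w z (e • m) → ¬ Mem w z (e • a)
    · exact ⟨1, r, m, le_one_smul r, by simpa using h, by simpa using hc⟩
    · push Not at hc
      obtain ⟨e, w, z, h1, h2, h3⟩ := hc
      obtain ⟨j, w1, k1, -, k3⟩ := h2.mem0
      have h4 : Mem w1 j.mem (j.st • e • a) := (h3.mono k1).congr_left k3
      obtain ⟨d, s, x, l1, l2, l3⟩ := ih _ (hm ▸ j.rank_mem_lt) h4 rfl
      refine ⟨d * (j.st * e), s, x, ext_trans (ext_trans h1 k1) l1, ?_, ?_⟩
      · simpa only [mul_smul] using l2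
      · simpa only [mul_smul] using l3

/-- collection: a name for witnesses -/
theorem exists_collect (a : Tm M P) (Φ : M → P → Tm M P → Tm M P → Prop)
    (hc : ∀ {c r x x' y}, Φ c r x y → TEq r x x' → Φ c r x' y) :
    ∃ b : Tm M P, ∀ (c : M) (r : P) (x : Tm M P), Mem r x (c • a) →
      (∀ (d : M) s, s ≤ d • r → ∃ (e : M) (w : P) (y : Tm M P), w ≤ e • s ∧
        Φ (e * d * c) w ((e * d) • x) y) →
      Dense r fun (d : M) s => ∃ y, Mem s y (d • c • b) ∧ Φ (d * c) s (d • x) y := by
  classical
  let ι : Type := {x : PM a × P // ∃ y, Φ x.1.st x.2 x.1.mem y}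
  refine ⟨Tm.of (ι := ι) (fun i => i.1.1.st) (fun _ => ⊤) fun i => i.2.choose, ?_⟩
  intro c r x hx h d s hs
  obtain ⟨j, s1, k1, -, k3⟩ := (hx.mono hs).mem0
  obtain ⟨e, w, y, l1, l2⟩ := h (j.st * d) s1 (ext_trans hs k1)
  have e1 : TEq w ((e * (j.st * d)) • x) (j.down.down.shift e).mem := by
    simpa only [mul_smul, PM.shift_mem, PM.down_mem] using k3.mono l1
  have e2 : (j.down.down.shift e).st = e * (j.st * d) * c := by simp [mul_assoc]
  have h3 : ∃ y, Φ (j.down.down.shift e).st w (j.down.down.shift e).mem y :=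
    ⟨y, e2 ▸ hc l2 e1⟩
  refine ⟨e * j.st, w, ext_trans k1 l1, h3.choose, ?_, ?_⟩
  · have h4 := mem_of (ι := ι) (a := fun i => i.1.1.st) (q := fun _ => ⊤)
      (t := fun i => i.2.choose) (p := w) (β := e * (j.st * d) * c) (γ := 1)
      ⟨(j.down.down.shift e, w), h3⟩ (by simp [mul_assoc]) (le_smul_top _ _)
    simpa only [one_smul, mul_smul] using h4
  · have h5 := hc h3.choose_spec e1.symm
    have e3 : e * j.st * d * c = (j.down.down.shift e).st := by simp [mul_assoc]
    rw [e3, mul_assoc]
    exact h5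

end Crest.Agent.R296
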